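import Vale.Agent.P131.Defs

/-!
# P131: API for `lift`, `cexp`, `siteOp` and `nsq`
-/

namespace Vale.Agent.P131

open scoped Matrix ComplexOrder
open Filter Topology

noncomputable section

variable {r : ℕ → ℕ} {L M : ℕ}

/-- The states of the sites in `[L, M)`. -/
abbrev Tail (r : ℕ → ℕ) (L M : ℕ) : Type := ∀ a : {a : Fin M // L ≤ a.1}, Site r a.1.1

instance : Nonempty (Idx r L) := ⟨fun _ => (0, false)⟩

instance : Nonempty (Tail r L M) := ⟨fun _ => (0, false)⟩

/-- Split a state at level `L`. -/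
def split (h : L ≤ M) : Idx r M ≃ Idx r L × Tail r L M where
  toFun x := (head h x, fun a => x a.1)
  invFun p a := if ha : a.1 < L then p.1 ⟨a.1, ha⟩ else p.2 ⟨a, not_lt.1 ha⟩
  left_inv x := by
    funext a
    by_cases ha : a.1 < L
    · simp [ha, head]
    · simp [ha]
  right_inv p := by
    refine Prod.ext ?_ ?_
    · funext a
      simp [head]
    · funext a
      simp [not_lt.2 a.2]

/-- Put a head and a tail together. -/
def join (h : L ≤ M) (u : Idx r L) (w : Tail r L M) : Idx r M := (split h).symm (u, w)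

lemma head_join (h : L ≤ M) (u : Idx r L) (w : Tail r L M) : head h (join h u w) = u :=
  congrArg Prod.fst ((split h).apply_symm_apply (u, w))

lemma join_tail (h : L ≤ M) (u : Idx r L) (w : Tail r L M) (a : Fin M) (ha : L ≤ a.1) :
    join h u w a = w ⟨a, ha⟩ := by
  simp [join, split, not_lt.2 ha]

lemma join_head (h : L ≤ M) (u : Idx r L) (w : Tail r L M) (a : Fin L) :
    join h u w (Fin.castLE h a) = u a := congrFun (head_join h u w) a

lemma sum_join {β : Type*} [AddCommMonoid β] (h : L ≤ M) (f : Idx r M → β) :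
    ∑ x, f x = ∑ u, ∑ w, f (join h u w) := by
  rw [← Fintype.sum_prod_type']
  exact ((split h).symm.sum_comp f).symm

lemma join_tail_eq_iff (h : L ≤ M) (u v : Idx r L) (w w' : Tail r L M) :
    (∀ a : Fin M, L ≤ a.1 → join h u w a = join h v w' a) ↔ w = w' := by
  constructor
  · intro H
    funext a
    simpa [join_tail h _ _ _ a.2] using H a.1 a.2
  · rintro rfl a ha
    simp [join_tail h _ _ _ ha]

lemma exists_join (h : L ≤ M) (x : Idx r M) : ∃ u w, join h u w = x :=
  ⟨(split h x).1, (split h x).2, (split h).symm_apply_apply x⟩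

lemma card_idx (h : L ≤ M) :
    Fintype.card (Idx r M) = Fintype.card (Idx r L) * Fintype.card (Tail r L M) := by
  rw [Fintype.card_congr (split h), Fintype.card_prod]

lemma ext_join (h : L ≤ M) {A B : Mat r M}
    (H : ∀ u w v w', A (join h u w) (join h v w') = B (join h u w) (join h v w')) : A = B := by
  ext x y
  obtain ⟨u, w, rfl⟩ := exists_join h x
  obtain ⟨v, w', rfl⟩ := exists_join h y
  exact H u w v w'

/-! ### `lift` -/

lemma lift_join (h : L ≤ M) (A : Mat r L) (u : Idx r L) (w : Tail r L M) (v : Idx r L)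
    (w' : Tail r L M) :
    lift h A (join h u w) (join h v w') = if w = w' then A u v else 0 := by
  simp [lift, join_tail_eq_iff, head_join]

lemma lift_add (h : L ≤ M) (A B : Mat r L) : lift h (A + B) = lift h A + lift h B := by
  refine ext_join h fun u w v w' => ?_
  simp only [Matrix.add_apply, lift_join]
  split_ifs <;> simp

lemma lift_smul (h : L ≤ M) (c : ℂ) (A : Mat r L) : lift h (c • A) = c • lift h A := by
  refine ext_join h fun u w v w' => ?_
  simp only [Matrix.smul_apply, lift_join]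
  split_ifs <;> simp

lemma lift_zero (h : L ≤ M) : lift h (0 : Mat r L) = 0 := by
  simpa using lift_smul h 0 (0 : Mat r L)

lemma lift_sub (h : L ≤ M) (A B : Mat r L) : lift h (A - B) = lift h A - lift h B := by
  refine ext_join h fun u w v w' => ?_
  simp only [Matrix.sub_apply, lift_join]
  split_ifs <;> simp

lemma lift_one (h : L ≤ M) : lift h (1 : Mat r L) = 1 := by
  refine ext_join h fun u w v w' => ?_
  rw [lift_join, Matrix.one_apply, Matrix.one_apply]
  simp only [join, (split h).symm.injective.eq_iff, Prod.mk.injEq]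
  split_ifs <;> simp_all

lemma lift_mul (h : L ≤ M) (A B : Mat r L) : lift h (A * B) = lift h A * lift h B := by
  refine ext_join h fun u w v w' => ?_
  simp only [Matrix.mul_apply, sum_join h, lift_join]
  split_ifs with hw
  · subst hw
    simp
  · simp [Finset.sum_eq_zero, hw]

lemma lift_conjTranspose (h : L ≤ M) (A : Mat r L) : lift h Aᴴ = (lift h A)ᴴ := by
  refine ext_join h fun u w v w' => ?_
  simp only [Matrix.conjTranspose_apply, lift_join]
  by_cases hw : w = w'
  · simp [hw]
  · simp [hw, Ne.symm hw]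

lemma lift_refl (A : Mat r L) : lift le_rfl A = A := by
  ext x y
  have hne : ∀ a : Fin L, ¬ L ≤ a.1 := fun a => not_le.2 a.2
  simp [lift, hne]
  rfl

lemma lift_lift {K : ℕ} (h : L ≤ M) (h' : M ≤ K) (A : Mat r L) :
    lift h' (lift h A) = lift (h.trans h') A := by
  ext x y
  have key : (∀ a : Fin K, L ≤ a.1 → x a = y a) ↔
      (∀ a : Fin K, M ≤ a.1 → x a = y a) ∧
        ∀ a : Fin M, L ≤ a.1 → head h' x a = head h' y a := by
    constructor
    · exact fun H => ⟨fun a ha => H a (h.trans ha), fun a ha => H _ ha⟩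
    · rintro ⟨H₁, H₂⟩ a ha
      by_cases hM : M ≤ a.1
      · exact H₁ a hM
      · exact H₂ ⟨a.1, not_le.1 hM⟩ ha
  simp only [lift, Matrix.of_apply]
  by_cases h₁ : ∀ a : Fin K, M ≤ a.1 → x a = y a
  · rw [if_pos h₁]
    exact if_congr ⟨fun H => key.2 ⟨h₁, H⟩, fun H => (key.1 H).2⟩ rfl rfl
  · rw [if_neg h₁, if_neg fun H => h₁ (key.1 H).1]

/-! ### `cexp` -/

lemma cexp_apply (h : L ≤ M) (B : Mat r M) (u v : Idx r L) :
    cexp h B u v = (Fintype.card (Tail r L M) : ℂ)⁻¹ * ∑ w, B (join h u w) (join h v w) := by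
  have hL : (Fintype.card (Idx r L) : ℂ) ≠ 0 := Nat.cast_ne_zero.2 Fintype.card_ne_zero
  simp only [cexp, Matrix.of_apply]
  congr 1
  · rw [card_idx h, Nat.cast_mul]
    field_simp
  · simp only [sum_join h, head_join, join_tail_eq_iff, ite_and]
    simp [Finset.sum_ite_eq, Finset.sum_ite_eq']

lemma cexp_add (h : L ≤ M) (A B : Mat r M) : cexp h (A + B) = cexp h A + cexp h B := by
  ext u v
  simp [cexp_apply, Finset.sum_add_distrib, mul_add]

lemma cexp_sub (h : L ≤ M) (A B : Mat r M) : cexp h (A - B) = cexp h A - cexp h B := by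
  ext u v
  simp [cexp_apply, Finset.sum_sub_distrib, mul_sub]

lemma cexp_smul (h : L ≤ M) (c : ℂ) (A : Mat r M) : cexp h (c • A) = c • cexp h A := by
  ext u v
  simp [cexp_apply, ← Finset.mul_sum, mul_left_comm]

lemma cexp_conjTranspose (h : L ≤ M) (B : Mat r M) : cexp h Bᴴ = (cexp h B)ᴴ := by
  ext u v
  simp [cexp_apply]

lemma cexp_lift (h : L ≤ M) (A : Mat r L) : cexp h (lift h A) = A := by
  ext u v
  have hT : (Fintype.card (Tail r L M) : ℂ) ≠ 0 := Nat.cast_ne_zero.2 Fintype.card_ne_zero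
  simp only [cexp_apply, lift_join, if_true, Finset.sum_const, Finset.card_univ, nsmul_eq_mul]
  rw [inv_mul_cancel_left₀ hT]

lemma cexp_one (h : L ≤ M) : cexp h (1 : Mat r M) = 1 := by
  rw [← lift_one h, cexp_lift]

lemma cexp_lift_mul (h : L ≤ M) (g : Mat r L) (B : Mat r M) :
    cexp h (lift h g * B) = g * cexp h B := by
  ext u v
  simp only [cexp_apply, Matrix.mul_apply, sum_join h, lift_join, ite_mul, zero_mul,
    Finset.sum_ite_eq, Finset.mem_univ, if_true, Finset.mul_sum]
  rw [Finset.sum_comm]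
  exact Finset.sum_congr rfl fun z _ => Finset.sum_congr rfl fun w _ => by ring

lemma cexp_mul_lift (h : L ≤ M) (g : Mat r L) (B : Mat r M) :
    cexp h (B * lift h g) = cexp h B * g := by
  apply Matrix.conjTranspose_injective
  rw [← cexp_conjTranspose, Matrix.conjTranspose_mul, ← lift_conjTranspose, cexp_lift_mul,
    Matrix.conjTranspose_mul, cexp_conjTranspose]

/-! ### `nsq` and `fsq` -/

section General

variable {I : Type*} [Fintype I]

lemma nsq_nonneg (A : Matrix I I ℂ) : 0 ≤ nsq A := by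
  unfold nsq
  positivity

lemma fsq_nonneg (A : Matrix I I ℂ) : 0 ≤ fsq A := by
  unfold fsq
  positivity

lemma nsq_zero : nsq (0 : Matrix I I ℂ) = 0 := by simp [nsq]

lemma nsq_conjTranspose (A : Matrix I I ℂ) : nsq Aᴴ = nsq A := by
  simp only [nsq, Matrix.conjTranspose_apply, norm_star]
  rw [Finset.sum_comm]

lemma nsq_smul (c : ℂ) (A : Matrix I I ℂ) : nsq (c • A) = ‖c‖ ^ 2 * nsq A := by
  simp only [nsq, Matrix.smul_apply, smul_eq_mul, norm_mul, mul_pow, ← Finset.mul_sum]
  ring

lemma nsq_neg (A : Matrix I I ℂ) : nsq (-A) = nsq A := by simp [nsq]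

lemma nsq_add_le (A B : Matrix I I ℂ) : nsq (A + B) ≤ 2 * nsq A + 2 * nsq B := by
  have key : (∑ x, ∑ y, ‖(A + B) x y‖ ^ 2)
      ≤ 2 * (∑ x, ∑ y, ‖A x y‖ ^ 2) + 2 * (∑ x, ∑ y, ‖B x y‖ ^ 2) := by
    simp only [Finset.mul_sum, ← Finset.sum_add_distrib]
    refine Finset.sum_le_sum fun x _ => Finset.sum_le_sum fun y _ => ?_
    have := norm_add_le (A x y) (B x y)
    simp only [Matrix.add_apply]
    nlinarith [norm_nonneg (A x y + B x y), sq_nonneg (‖A x y‖ - ‖B x y‖)]
  calc nsq (A + B) ≤ (2 * (∑ x, ∑ y, ‖A x y‖ ^ 2) + 2 * (∑ x, ∑ y, ‖B x y‖ ^ 2))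
        / Fintype.card I := div_le_div_of_nonneg_right key (Nat.cast_nonneg _)
    _ = _ := by unfold nsq; ring

lemma nsq_sub_le (A B : Matrix I I ℂ) : nsq (A - B) ≤ 2 * nsq A + 2 * nsq B := by
  simpa [sub_eq_add_neg, nsq_neg] using nsq_add_le A (-B)

lemma norm_entry_le_nsq (A : Matrix I I ℂ) (x y : I) :
    ‖A x y‖ ^ 2 ≤ Fintype.card I * nsq A := by
  have : Nonempty I := ⟨x⟩
  rw [nsq, mul_div_cancel₀ _ (Nat.cast_ne_zero.2 Fintype.card_ne_zero)]
  refine le_trans ?_ (Finset.single_le_sum (fun a _ => Finset.sum_nonneg fun b _ => sq_nonneg _)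
    (Finset.mem_univ x))
  exact Finset.single_le_sum (fun b _ => sq_nonneg ‖A x b‖) (Finset.mem_univ y)

lemma eq_zero_of_nsq_nonpos {A : Matrix I I ℂ} (h : nsq A ≤ 0) : A = 0 := by
  ext x y
  have := norm_entry_le_nsq A x y
  have h0 : nsq A = 0 := le_antisymm h (nsq_nonneg A)
  rw [h0, mul_zero] at this
  simpa using norm_le_zero_iff.1 (by nlinarith [norm_nonneg (A x y)])

lemma sum_norm_mul_le (g X : Matrix I I ℂ) :
    ∑ x, ∑ y, ‖(g * X) x y‖ ^ 2 ≤ fsq g * ∑ x, ∑ y, ‖X x y‖ ^ 2 := by
  have step : ∀ x y, ‖(g * X) x y‖ ^ 2 ≤ (∑ z, ‖g x z‖ ^ 2) * ∑ z, ‖X z y‖ ^ 2 := by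
    intro x y
    refine le_trans ?_ (Finset.sum_mul_sq_le_sq_mul_sq _ _ _)
    rw [Matrix.mul_apply]
    gcongr
    refine (norm_sum_le _ _).trans (le_of_eq ?_)
    simp
  refine (Finset.sum_le_sum fun x _ => Finset.sum_le_sum fun y _ => step x y).trans (le_of_eq ?_)
  rw [fsq, Finset.sum_mul]
  refine Finset.sum_congr rfl fun x _ => ?_
  rw [← Finset.mul_sum, Finset.sum_comm]

end General

lemma sum_sq_join (h : L ≤ M) (X : Mat r M) :
    (∑ x, ∑ y, ‖X x y‖ ^ 2)
      = ∑ w, ∑ w', ∑ u, ∑ v, ‖X (join h u w) (join h v w')‖ ^ 2 := by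
  simp only [sum_join h]
  rw [Finset.sum_comm]
  refine Finset.sum_congr rfl fun w _ => ?_
  rw [Finset.sum_comm (γ := Tail r L M)]
  exact Finset.sum_congr rfl fun u _ => Finset.sum_comm

lemma nsq_lift (h : L ≤ M) (A : Mat r L) : nsq (lift h A) = nsq A := by
  have hT : (Fintype.card (Tail r L M) : ℝ) ≠ 0 := Nat.cast_ne_zero.2 Fintype.card_ne_zero
  have hsum : (∑ x, ∑ y, ‖lift h A x y‖ ^ 2)
      = Fintype.card (Tail r L M) * ∑ u, ∑ v, ‖A u v‖ ^ 2 := by
    rw [sum_sq_join h]
    simp only [lift_join]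
    have : ∀ w w' : Tail r L M, (∑ u, ∑ v, ‖(if w = w' then A u v else 0)‖ ^ 2)
        = if w = w' then ∑ u, ∑ v, ‖A u v‖ ^ 2 else 0 := by
      intro w w'
      split_ifs <;> simp
    simp [this]
  unfold nsq
  rw [hsum, card_idx h, Nat.cast_mul]
  field_simp

lemma nsq_lift_mul_le (h : L ≤ M) (g : Mat r L) (X : Mat r M) :
    nsq (lift h g * X) ≤ fsq g * nsq X := by
  unfold nsq
  rw [← mul_div_assoc]
  refine div_le_div_of_nonneg_right ?_ (Nat.cast_nonneg _)
  rw [sum_sq_join h, sum_sq_join h, Finset.mul_sum]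
  refine Finset.sum_le_sum fun w _ => ?_
  rw [Finset.mul_sum]
  refine Finset.sum_le_sum fun w' _ => ?_
  refine le_trans (le_of_eq ?_)
    (sum_norm_mul_le g (Matrix.of fun u v => X (join h u w) (join h v w')))
  refine Finset.sum_congr rfl fun u _ => Finset.sum_congr rfl fun v _ => ?_
  simp [Matrix.mul_apply, sum_join h, lift_join]

lemma fsq_conjTranspose {I : Type*} [Fintype I] (g : Matrix I I ℂ) : fsq gᴴ = fsq g := by
  simp only [fsq, Matrix.conjTranspose_apply, norm_star]
  rw [Finset.sum_comm]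

lemma nsq_mul_lift_le (h : L ≤ M) (g : Mat r L) (X : Mat r M) :
    nsq (X * lift h g) ≤ fsq g * nsq X := by
  have := nsq_lift_mul_le h gᴴ Xᴴ
  rwa [lift_conjTranspose, ← Matrix.conjTranspose_mul, nsq_conjTranspose, nsq_conjTranspose,
    fsq_conjTranspose] at this

lemma nsq_cexp_le (h : L ≤ M) (B : Mat r M) : nsq (cexp h B) ≤ nsq B := by
  set T : ℝ := (Fintype.card (Tail r L M) : ℝ) with hTdef
  have hT : 0 < T := Nat.cast_pos.2 Fintype.card_pos
  have step : ∀ u v, ‖cexp h B u v‖ ^ 2 ≤ T⁻¹ * ∑ w, ‖B (join h u w) (join h v w)‖ ^ 2 := by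
    intro u v
    rw [cexp_apply, norm_mul, mul_pow]
    have h1 : ‖∑ w, B (join h u w) (join h v w)‖ ^ 2
        ≤ T * ∑ w, ‖B (join h u w) (join h v w)‖ ^ 2 := by
      refine le_trans ?_ (sq_sum_le_card_mul_sum_sq (s := Finset.univ)
        (f := fun w => ‖B (join h u w) (join h v w)‖))
      gcongr
      exact norm_sum_le _ _
    rw [norm_inv, Complex.norm_natCast]
    calc (Fintype.card (Tail r L M) : ℝ)⁻¹ ^ 2 * ‖∑ w, B (join h u w) (join h v w)‖ ^ 2
        ≤ T⁻¹ ^ 2 * (T * ∑ w, ‖B (join h u w) (join h v w)‖ ^ 2) := by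
          rw [← hTdef]
          exact mul_le_mul_of_nonneg_left h1 (by positivity)
      _ = _ := by field_simp
  have hmain : (∑ u, ∑ v, ‖cexp h B u v‖ ^ 2) ≤ T⁻¹ * ∑ x, ∑ y, ‖B x y‖ ^ 2 := by
    refine (Finset.sum_le_sum fun u _ => Finset.sum_le_sum fun v _ => step u v).trans ?_
    simp only [← Finset.mul_sum]
    refine mul_le_mul_of_nonneg_left ?_ (by positivity)
    simp only [sum_join h]
    refine Finset.sum_le_sum fun u _ => ?_
    rw [Finset.sum_comm]
    refine Finset.sum_le_sum fun w _ => Finset.sum_le_sum fun v _ => ?_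
    exact Finset.single_le_sum (fun w' _ => sq_nonneg ‖B (join h u w) (join h v w')‖)
      (Finset.mem_univ w)
  unfold nsq
  rw [card_idx h, Nat.cast_mul, ← hTdef]
  calc (∑ u, ∑ v, ‖cexp h B u v‖ ^ 2) / (Fintype.card (Idx r L) : ℝ)
      ≤ (T⁻¹ * ∑ x, ∑ y, ‖B x y‖ ^ 2) / Fintype.card (Idx r L) :=
        div_le_div_of_nonneg_right hmain (Nat.cast_nonneg _)
    _ = _ := by field_simp

/-! ### Contractions -/

section Contractions

variable {I : Type*} [Fintype I] [DecidableEq I]

omit [DecidableEq I] in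
lemma nsq_eq_trace (A : Matrix I I ℂ) : nsq A = (Aᴴ * A).trace.re / Fintype.card I := by
  simp only [nsq, Matrix.trace, Matrix.diag_apply, Matrix.mul_apply, Matrix.conjTranspose_apply,
    Complex.re_sum]
  congr 1
  rw [Finset.sum_comm]
  exact Finset.sum_congr rfl fun y _ => Finset.sum_congr rfl fun x _ => by
    rw [Complex.sq_norm, Complex.normSq_apply]
    simp [Complex.mul_re]

omit [Fintype I] in
lemma Contr.one_sub {A : Matrix I I ℂ} (hA : Contr A) : Contr (1 - A) :=
  ⟨hA.2, by simpa using hA.1⟩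

lemma Contr.one_sub_sq_nonneg {A : Matrix I I ℂ} (hA : Contr A) : (1 - A * A).PosSemidef := by
  obtain ⟨h1, h2⟩ := hA
  have e : 1 - A * A = (1 - A)ᴴ * 1 * (1 - A) + (A * (1 - A) + (1 - A) * A) := by
    rw [h2.1.eq]
    noncomm_ring
  have e2 : A * (1 - A) + (1 - A) * A =
      2 • (Aᴴ * (1 - A) * A + (1 - A)ᴴ * A * (1 - A)) := by
    rw [h1.1.eq, h2.1.eq]
    noncomm_ring
  rw [e, e2, two_smul]
  exact (Matrix.PosSemidef.one.conjTranspose_mul_mul_same _).add
    (((h2.conjTranspose_mul_mul_same _).add (h1.conjTranspose_mul_mul_same _)).add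
      ((h2.conjTranspose_mul_mul_same _).add (h1.conjTranspose_mul_mul_same _)))

lemma nsq_contr_mul_le {A : Matrix I I ℂ} (hA : Contr A) (B : Matrix I I ℂ) :
    nsq (A * B) ≤ nsq B := by
  rw [nsq_eq_trace, nsq_eq_trace]
  refine div_le_div_of_nonneg_right ?_ (Nat.cast_nonneg _)
  have h0 := (hA.one_sub_sq_nonneg.conjTranspose_mul_mul_same B).trace_nonneg
  have e : Bᴴ * (1 - A * A) * B = Bᴴ * B - (A * B)ᴴ * (A * B) := by
    rw [Matrix.conjTranspose_mul, hA.1.1.eq]
    noncomm_ring
  rw [e, Matrix.trace_sub] at h0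
  have := (Complex.le_def.1 h0).1
  simp only [Complex.zero_re, Complex.sub_re] at this
  linarith

lemma nsq_mul_contr_le {A : Matrix I I ℂ} (hA : Contr A) (B : Matrix I I ℂ) :
    nsq (B * A) ≤ nsq B := by
  have := nsq_contr_mul_le hA Bᴴ
  have e : (B * A)ᴴ = A * Bᴴ := by rw [Matrix.conjTranspose_mul, hA.1.1.eq]
  rwa [← e, nsq_conjTranspose, nsq_conjTranspose] at this

end Contractions

/-! ### `siteOp` -/

lemma siteOp_apply (a : Fin L) (g : Matrix (Site r a) (Site r a) ℂ) (x y : Idx r L) :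
    siteOp a g x y = if ∀ b, b ≠ a → x b = y b then g (x a) (y a) else 0 := rfl

lemma sum_ne_eq {β : Type*} [AddCommMonoid β] (a : Fin L) (x : Idx r L) (f : Idx r L → β) :
    (∑ y, if ∀ b, b ≠ a → x b = y b then f y else 0)
      = ∑ v, f (Function.update x a v) := by
  rw [← Finset.sum_filter]
  refine Finset.sum_bij' (fun y _ => y a) (fun v _ => Function.update x a v) (fun _ _ =>
    Finset.mem_univ _) ?_ ?_ ?_ ?_
  · intro v _
    simp +contextual [Function.update_of_ne]
  · intro y hy
    have hy' := (Finset.mem_filter.1 hy).2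
    funext b
    by_cases hb : b = a
    · subst hb
      simp
    · simp [hb, hy' b hb]
  · intro v _
    simp
  · intro y hy
    have hy' := (Finset.mem_filter.1 hy).2
    congr 1
    funext b
    by_cases hb : b = a
    · subst hb
      simp
    · simp [hb, hy' b hb]

lemma siteOp_mul_apply (a : Fin L) (g : Matrix (Site r a) (Site r a) ℂ) (X : Mat r L)
    (x z : Idx r L) :
    (siteOp a g * X) x z = ∑ v, g (x a) v * X (Function.update x a v) z := by
  simp only [Matrix.mul_apply, siteOp_apply, ite_mul, zero_mul]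
  rw [sum_ne_eq a x fun y => g (x a) (y a) * X y z]
  simp

lemma siteOp_mul (a : Fin L) (g g' : Matrix (Site r a) (Site r a) ℂ) :
    siteOp a (g * g') = siteOp a g * siteOp a g' := by
  ext x z
  rw [siteOp_mul_apply, siteOp_apply]
  split_ifs with h
  · rw [Matrix.mul_apply]
    refine Finset.sum_congr rfl fun v _ => ?_
    rw [siteOp_apply, if_pos]
    · simp
    · intro b hb
      rw [Function.update_of_ne hb]
      exact h b hb
  · symm
    refine Finset.sum_eq_zero fun v _ => ?_
    rw [siteOp_apply, if_neg, mul_zero]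
    intro h'
    exact h fun b hb => by simpa [Function.update_of_ne hb] using h' b hb

lemma siteOp_add (a : Fin L) (g g' : Matrix (Site r a) (Site r a) ℂ) :
    siteOp a (g + g') = siteOp a g + siteOp a g' := by
  ext x y
  simp only [siteOp_apply, Matrix.add_apply]
  split_ifs <;> simp

lemma siteOp_smul (a : Fin L) (c : ℂ) (g : Matrix (Site r a) (Site r a) ℂ) :
    siteOp a (c • g) = c • siteOp a g := by
  ext x y
  simp only [siteOp_apply, Matrix.smul_apply]
  split_ifs <;> simp

lemma siteOp_sub (a : Fin L) (g g' : Matrix (Site r a) (Site r a) ℂ) :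
    siteOp a (g - g') = siteOp a g - siteOp a g' := by
  ext x y
  simp only [siteOp_apply, Matrix.sub_apply]
  split_ifs <;> simp

lemma siteOp_conjTranspose (a : Fin L) (g : Matrix (Site r a) (Site r a) ℂ) :
    siteOp a gᴴ = (siteOp a g)ᴴ := by
  ext x y
  simp only [Matrix.conjTranspose_apply, siteOp_apply, eq_comm (a := y _)]
  split_ifs <;> simp

lemma siteOp_one (a : Fin L) :
    siteOp a (1 : Matrix (Site r a) (Site r a) ℂ) = (1 : Mat r L) := by
  ext x y
  rw [siteOp_apply, Matrix.one_apply, Matrix.one_apply]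
  by_cases hxy : x = y
  · simp [hxy]
  · rw [if_neg hxy]
    split_ifs with h h' <;> try rfl
    exact absurd (funext fun b => if hb : b = a then hb ▸ h' else h b hb) hxy

lemma siteOp_comm {a b : Fin L} (hab : a ≠ b) (g : Matrix (Site r a) (Site r a) ℂ)
    (g' : Matrix (Site r b) (Site r b) ℂ) :
    Commute (siteOp a g) (siteOp b g') := by
  ext x z
  rw [siteOp_mul_apply, siteOp_mul_apply]
  simp only [siteOp_apply]
  by_cases h : ∀ c, c ≠ a → c ≠ b → x c = z c
  · rw [Finset.sum_eq_single (z a), Finset.sum_eq_single (z b)]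
    · rw [if_pos, if_pos, Function.update_of_ne hab.symm, Function.update_of_ne hab]
      · ring
      · intro c hc
        by_cases hca : c = b
        · subst hca; simp
        · simp [Function.update_of_ne hca, h c hc hca]
      · intro c hc
        by_cases hca : c = a
        · subst hca; simp
        · simp [Function.update_of_ne hca, h c hca hc]
    · intro v _ hv
      rw [if_neg, mul_zero]
      exact fun H => hv (by simpa using H b hab.symm)
    · simp
    · intro v _ hv
      rw [if_neg, mul_zero]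
      exact fun H => hv (by simpa using H a hab)
    · simp
  · rw [Finset.sum_eq_zero, Finset.sum_eq_zero]
    · intro v _
      rw [if_neg, mul_zero]
      exact fun H => h fun c hca hcb => by simpa [Function.update_of_ne hcb] using H c hca
    · intro v _
      rw [if_neg, mul_zero]
      exact fun H => h fun c hca hcb => by simpa [Function.update_of_ne hca] using H c hcb

lemma lift_siteOp (h : L ≤ M) (a : Fin L) (g : Matrix (Site r a) (Site r a) ℂ) :
    lift h (siteOp a g) = siteOp (Fin.castLE h a) g := by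
  ext x y
  have key : (∀ b : Fin M, b ≠ Fin.castLE h a → x b = y b) ↔
      (∀ b : Fin M, L ≤ b.1 → x b = y b) ∧ ∀ b : Fin L, b ≠ a → head h x b = head h y b := by
    constructor
    · refine fun H => ⟨fun b hb => H b ?_, fun b hb => H _ ?_⟩
      · intro e
        have := congrArg Fin.val e
        simp at this
        omega
      · intro e
        exact hb (Fin.castLE_injective h e)
    · rintro ⟨H₁, H₂⟩ b hb
      by_cases hL : L ≤ b.1
      · exact H₁ b hL
      · exact H₂ ⟨b.1, not_le.1 hL⟩ fun e => hb (by subst e; rfl)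
  simp only [lift, siteOp, Matrix.of_apply, key, ite_and]
  rfl

lemma fsq_site_bound (a : Fin L) (g : Matrix (Site r a) (Site r a) ℂ) (X : Mat r L) :
    nsq (siteOp a g * X) ≤ fsq g * nsq X := by
  unfold nsq
  rw [← mul_div_assoc]
  refine div_le_div_of_nonneg_right ?_ (Nat.cast_nonneg _)
  rw [Finset.sum_comm, Finset.sum_comm (f := fun x y => ‖X x y‖ ^ 2), Finset.mul_sum]
  refine Finset.sum_le_sum fun z _ => ?_
  have hCS : ∀ x, ‖(siteOp a g * X) x z‖ ^ 2
      ≤ (∑ v, ‖g (x a) v‖ ^ 2) * ∑ v, ‖X (Function.update x a v) z‖ ^ 2 := by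
    intro x
    rw [siteOp_mul_apply]
    refine le_trans ?_ (Finset.sum_mul_sq_le_sq_mul_sq _ _ _)
    gcongr
    exact (norm_sum_le _ _).trans (le_of_eq (by simp))
  refine (Finset.sum_le_sum fun x _ => hCS x).trans (le_of_eq ?_)
  let e := Equiv.piSplitAt a fun b : Fin L => Site r b
  rw [← e.symm.sum_comp, ← e.symm.sum_comp (fun x => ‖X x z‖ ^ 2)]
  have hupd : ∀ u v w, Function.update (e.symm (u, w)) a v = e.symm (v, w) := by
    intro u v w
    funext b
    by_cases hb : b = a
    · subst hb; simp [e, Equiv.piSplitAt]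
    · simp [e, Equiv.piSplitAt, hb]
  have hat : ∀ u w, e.symm (u, w) a = u := fun u w => by simp [e, Equiv.piSplitAt]
  rw [← Finset.univ_product_univ, Finset.sum_product, Finset.sum_product]
  simp only [hat, hupd]
  rw [fsq, Finset.sum_mul]
  refine Finset.sum_congr rfl fun u _ => ?_
  rw [← Finset.mul_sum]
  congr 1
  exact Finset.sum_comm

end

end Vale.Agent.P131
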