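import Vale.Agent.P131.Defs

/-!
# P131: compactness turns the exact cube lemma into a quantitative one
-/

namespace Vale.Agent.P131

open scoped Matrix ComplexOrder
open Matrix Set

noncomputable section

variable {I : Type*} [Fintype I] [DecidableEq I] {A : Matrix I I ℂ}

theorem Contr.norm_entry_le (h : Contr A) (x y : I) : ‖A x y‖ ≤ 1 := by
  have hd : ∀ z, 0 ≤ (A z z).re ∧ (A z z).re ≤ 1 := fun z => by
    have h1 := (Complex.le_def.1 (h.1.diag_nonneg (i := z))).1
    have h2 := (Complex.le_def.1 (h.2.diag_nonneg (i := z))).1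
    simp only [Matrix.sub_apply, Matrix.one_apply_eq, Complex.sub_re, Complex.one_re,
      Complex.zero_re] at h1 h2
    exact ⟨h1, by linarith⟩
  by_cases h0 : A x y = 0
  · simp [h0]
  obtain ⟨z, hz1, hz2⟩ : ∃ z : ℂ, ‖z‖ = 1 ∧ z * A x y = -(‖A x y‖ : ℂ) := by
    refine ⟨-(‖A x y‖ : ℂ) / A x y, ?_, div_mul_cancel₀ _ h0⟩
    rw [norm_div, norm_neg, Complex.norm_real, norm_norm, div_self (norm_ne_zero_iff.2 h0)]
  have hq := (Complex.le_def.1 (h.1.dotProduct_mulVec_nonneg (Pi.single x 1 + Pi.single y z))).1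
  have hsymm : A y x = star (A x y) := (h.1.isHermitian.apply y x).symm
  simp only [star_add, Pi.star_single, star_one, mulVec_add, add_dotProduct, dotProduct_add,
    mulVec_single, single_dotProduct, Pi.smul_apply, op_smul_eq_smul, smul_eq_mul, one_mul, 
    Matrix.col_apply, Complex.add_re, Complex.zero_re] at hq
  have e1 : (z * A x y).re = -‖A x y‖ := by rw [hz2]; simp
  have e2 : (star z * A y x).re = -‖A x y‖ := by
    rw [hsymm, ← StarMul.star_mul, mul_comm, hz2]; simp
  have e3 : (star z * (z * A y y)).re = (A y y).re := by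
    rw [← mul_assoc, Complex.star_def, ← Complex.normSq_eq_conj_mul_self, Complex.normSq_eq_norm_sq,
      hz1]
    simp
  rw [e1, e2, e3] at hq
  linarith [(hd x).2, (hd y).2]

omit [DecidableEq I] in
theorem continuous_nsq' : Continuous (nsq : Matrix I I ℂ → ℝ) := by
  unfold nsq
  fun_prop

omit [DecidableEq I] in
theorem nsq_nonneg' (B : Matrix I I ℂ) : 0 ≤ nsq B :=
  div_nonneg (Finset.sum_nonneg fun _ _ => Finset.sum_nonneg fun _ _ => sq_nonneg _) (Nat.cast_nonneg _)

omit [DecidableEq I] in
theorem eq_zero_of_nsq' (B : Matrix I I ℂ) (h : nsq B = 0) : B = 0 := by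
  ext x y
  have hc : (Fintype.card I : ℝ) ≠ 0 := Nat.cast_ne_zero.2 (Fintype.card_pos_iff.2 ⟨x⟩).ne'
  have h1 := (div_eq_zero_iff.1 h).resolve_right hc
  have h2 := (Finset.sum_eq_zero_iff_of_nonneg fun _ _ => Finset.sum_nonneg fun _ _ => sq_nonneg _).1
    h1 x (Finset.mem_univ _)
  have h3 := (Finset.sum_eq_zero_iff_of_nonneg fun _ _ => sq_nonneg _).1 h2 y (Finset.mem_univ _)
  simpa using h3

theorem isCompact_contr : IsCompact {A : Matrix I I ℂ | Contr A} := by
  have hK : IsCompact (Set.univ.pi fun _ : I => Set.univ.pi fun _ : I => Metric.closedBall (0 : ℂ) 1) :=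
    isCompact_univ_pi fun _ => isCompact_univ_pi fun _ => isCompact_closedBall _ _
  have hp : IsClosed {A : Matrix I I ℂ | A.PosSemidef} := by
    simp only [Matrix.posSemidef_iff_dotProduct_mulVec, Set.ofPred_and, Set.ofPred_forall]
    refine (isClosed_eq (by fun_prop) continuous_id).inter (isClosed_iInter fun v => ?_)
    exact isClosed_le continuous_const (by fun_prop)
  exact hK.of_isClosed_subset (hp.inter (hp.preimage (continuous_const.sub continuous_id)))
    fun A hA x _ y _ => mem_closedBall_zero_iff.2 (hA.norm_entry_le x y)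

theorem continuous_defect {N : ℕ} (gens : Finset (CMat N)) : Continuous (defect gens) := by
  unfold defect
  exact (continuous_nsq'.comp (by fun_prop)).add
    (continuous_finsetSum _ fun g _ => continuous_nsq'.comp (by fun_prop))

theorem continuous_gapC {N : ℕ} (i : Fin N) : Continuous fun A : CMat N => gapC A i := by
  unfold gapC
  fun_prop

/-- Compactness. -/
theorem compactSpec (hcube : CubeSpec) : CompactSpec := by
  classical
  intro N hN c hc
  let C : Submodule ℂ (CMat N) :=
    { carrier := {g | Commute g (cubeT c)}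
      add_mem' := fun ha hb => ha.add_left hb
      zero_mem' := Commute.zero_left _
      smul_mem' := fun a _ hg => hg.smul_left a }
  obtain ⟨gens, hgens⟩ := IsNoetherian.noetherian C
  have hmem : ∀ g ∈ gens, Commute g (cubeT c) := fun g hg =>
    (hgens ▸ Submodule.subset_span hg : g ∈ C)
  have heps : 0 < eps N := div_pos two_pos (Real.sqrt_pos.2 (Nat.cast_pos.2 hN))
  have hpos : ∀ A : CMat N, 0 ≤ defect gens A := fun A =>
    add_nonneg (nsq_nonneg' _) (Finset.sum_nonneg fun g _ => nsq_nonneg' _)
  have zero : ∀ A : CMat N, Contr A → defect gens A = 0 → ∀ i, gapC A i ≤ eps N := by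
    intro A hA h0
    obtain ⟨h1, h2⟩ := (add_eq_zero_iff_of_nonneg (nsq_nonneg' _)
      (Finset.sum_nonneg fun g _ => nsq_nonneg' _)).1 h0
    refine hcube N hN c hc A hA.1.isHermitian (sub_eq_zero.1 (eq_zero_of_nsq' _ h1)).symm fun g hg => ?_
    have hspan : g ∈ Submodule.span ℂ (gens : Set (CMat N)) := hgens ▸ (hg : g ∈ C)
    induction hspan using Submodule.span_induction with
    | mem x hx =>
      exact eq_zero_of_nsq' ((1 - A) * x * A)
        ((Finset.sum_eq_zero_iff_of_nonneg fun g _ => nsq_nonneg' _).1 h2 x hx)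
    | zero => simp
    | add x y hx hy ex ey =>
      have hx' : Commute x (cubeT c) := (hgens ▸ hx : x ∈ C)
      have hy' : Commute y (cubeT c) := (hgens ▸ hy : y ∈ C)
      rw [mul_add, add_mul, ex hx', ey hy', add_zero]
    | smul a x hx ex =>
      rw [mul_smul_comm, smul_mul_assoc, ex (hgens ▸ hx : x ∈ C), smul_zero]
  have one : ∀ i, ∃ K : ℝ, 0 ≤ K ∧ ∀ A : CMat N, Contr A → gapC A i ≤ 2 * eps N + K * defect gens A := by
    intro i
    obtain ⟨M, hM⟩ := isCompact_contr.exists_bound_of_continuousOn (continuous_gapC i).continuousOn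
    set S := {A : CMat N | Contr A ∧ 2 * eps N ≤ gapC A i}
    have hS : IsCompact S := isCompact_contr.inter_right (isClosed_le continuous_const (continuous_gapC i))
    rcases S.eq_empty_or_nonempty with he | hne
    · refine ⟨0, le_rfl, fun A hA => ?_⟩
      rw [zero_mul, add_zero]
      exact (not_le.1 fun h => (he.subset (⟨hA, h⟩ : A ∈ S) : A ∈ (∅ : Set (CMat N))).elim).le
    · obtain ⟨A₀, hA₀, hmin⟩ := hS.exists_isMinOn hne (continuous_defect gens).continuousOn
      have h0 : 0 < defect gens A₀ := (hpos A₀).lt_of_ne fun h => by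
        linarith [zero A₀ hA₀.1 h.symm i, hA₀.2]
      refine ⟨max M 0 / defect gens A₀, by positivity, fun A hA => ?_⟩
      by_cases hAS : 2 * eps N ≤ gapC A i
      · have h1 : max M 0 ≤ max M 0 / defect gens A₀ * defect gens A := by
          rw [div_mul_eq_mul_div, le_div_iff₀ h0]
          exact mul_le_mul_of_nonneg_left (hmin ⟨hA, hAS⟩) (le_max_right _ _)
        linarith [le_abs_self (gapC A i), hM A hA, le_max_left M 0, Real.norm_eq_abs (gapC A i)]
      · exact (not_le.1 hAS).le.trans (le_add_of_nonneg_right (mul_nonneg (by positivity) (hpos A)))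
  choose K hK0 hK using one
  exact ⟨gens, ∑ i, K i, Finset.sum_nonneg fun i _ => hK0 i, hmem, fun A hA i =>
    (hK i A hA).trans (add_le_add le_rfl (mul_le_mul_of_nonneg_right
      (Finset.single_le_sum (fun j _ => hK0 j) (Finset.mem_univ i)) (hpos A)))⟩

end

end Vale.Agent.P131
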