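import Vale.Agent.P131.Defs

/-!
# P131: the specs compose to the final statement
-/

namespace Vale.Agent.P131

open Filter Topology

noncomputable section

theorem gensData (hD : CompactSpec) :
    ∀ N, 0 < N → ∀ c : Fin N → ℝ, (∀ i, 0 < c i) → ∃ p : Finset (CMat N) × ℝ, 0 ≤ p.2 ∧
      (∀ g ∈ p.1, Commute g (cubeT c)) ∧
      ∀ A : CMat N, Contr A → ∀ i, gapC A i ≤ 2 * eps N + p.2 * defect p.1 A := by
  intro N hN c hc
  obtain ⟨gens, K, h⟩ := hD N hN c hc
  exact ⟨(gens, K), h⟩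

theorem defect_nonneg {N : ℕ} (G : Finset (CMat N)) (A : CMat N) : 0 ≤ defect G A :=
  add_nonneg (div_nonneg (Finset.sum_nonneg fun _ _ => Finset.sum_nonneg fun _ _ => sq_nonneg _)
    (Nat.cast_nonneg _)) (Finset.sum_nonneg fun _ _ =>
      div_nonneg (Finset.sum_nonneg fun _ _ => Finset.sum_nonneg fun _ _ => sq_nonneg _)
        (Nat.cast_nonneg _))

/-- Sizes growing faster than any requirement which reads only the smaller levels. -/
theorem exists_sizes (need : ∀ N, (Fin N → ℕ) → ℕ) :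
    ∃ r : ℕ → ℕ, ∀ N a, N ≤ a → 2 ^ a * need N (fun b => r b) ≤ r a := by
  let step : ∀ a, (∀ b, b < a → ℕ) → ℕ := fun a rec =>
    2 ^ a * ∑ N : Fin (a + 1), need N fun b => rec b (lt_of_lt_of_le b.2 (Nat.le_of_lt_succ N.2))
  let r : ℕ → ℕ := WellFounded.fix Nat.lt_wfRel.wf step
  refine ⟨r, fun N a hNa => ?_⟩
  rw [show r a = step a fun b _ => r b from WellFounded.fix_eq Nat.lt_wfRel.wf step a]
  exact Nat.mul_le_mul_left _ (Finset.single_le_sum (f := fun M : Fin (a + 1) => need M fun c => r c)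
    (fun _ _ => Nat.zero_le _) (Finset.mem_univ (⟨N, Nat.lt_succ_of_le hNa⟩ : Fin (a + 1))))

/-- The tail of the sizes is small. -/
theorem tail_le (r : ℕ → ℕ) {B : ℝ} {m N : ℕ} (hB : 0 < B) (hm : 40 * B ≤ m)
    (h : ∀ a, N ≤ a → 2 ^ a * m ≤ r a) (M : ℕ) :
    ∑ a ∈ Finset.Ico N M, (20 : ℝ) / (r a + 1) ≤ 1 / B := by
  have hterm : ∀ a ∈ Finset.Ico N M, (20 : ℝ) / (r a + 1) ≤ 1 / (2 * B) * (1 / 2) ^ a := by
    intro a ha
    have h1 : ((2 : ℝ) ^ a * m) ≤ (r a : ℝ) := by exact_mod_cast h a (Finset.mem_Ico.1 ha).1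
    have h2 : (2 : ℝ) ^ a * (40 * B) ≤ (r a : ℝ) + 1 :=
      (mul_le_mul_of_nonneg_left hm (by positivity)).trans (h1.trans (by linarith))
    calc (20 : ℝ) / (r a + 1) ≤ 20 / ((2 : ℝ) ^ a * (40 * B)) :=
          div_le_div_of_nonneg_left (by norm_num) (by positivity) h2
      _ = 1 / (2 * B) * (1 / 2) ^ a := by
          rw [div_pow, one_pow]
          field_simp
          ring
  refine (Finset.sum_le_sum hterm).trans ?_
  rw [← Finset.mul_sum]
  have h2 : ∑ a ∈ Finset.Ico N M, (1 / 2 : ℝ) ^ a ≤ 2 :=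
    (Finset.sum_le_sum_of_subset_of_nonneg (fun a ha =>
      Finset.mem_range.2 (Finset.mem_Ico.1 ha).2) fun a _ _ => by positivity).trans
      (sum_geometric_two_le M)
  refine (mul_le_mul_of_nonneg_left h2 (by positivity)).trans (le_of_eq ?_)
  field_simp

/-- The choice of the selector sizes and the conclusion. -/
theorem transitive_of_specs (hD : CompactSpec) (hC : TransferSpec) (hG : GapCohSpec)
    (hR : RigidSpec) (hM : ModelSpec) : TransitiveCommutant := by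
  classical
  have data : ∀ N (c : Fin N → ℝ), ∃ p : Finset (CMat N) × ℝ, 0 ≤ p.2 ∧
      ((0 < N ∧ ∀ i, 0 < c i) → (∀ g ∈ p.1, Commute g (cubeT c)) ∧
        ∀ A : CMat N, Contr A → ∀ i, gapC A i ≤ 2 * eps N + p.2 * defect p.1 A) := by
    intro N c
    by_cases h : 0 < N ∧ ∀ i, 0 < c i
    · obtain ⟨p, h0, h1⟩ := gensData hD N h.1 c h.2
      exact ⟨p, h0, fun _ => h1⟩
    · exact ⟨(∅, 0), le_rfl, fun hh => absurd hh h⟩
  choose p hp0 hp using data
  let K0 : ∀ N, (Fin N → ℕ) → ℝ := fun N b =>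
    ∑ k : (∀ a : Fin N, Fin (b a + 1)), (p N fun a => coef a (k a)).2
  let G0 : ∀ N, (Fin N → ℕ) → ℝ := fun N b =>
    1 + ∑ k : (∀ a : Fin N, Fin (b a + 1)), ∑ g ∈ (p N fun a => coef a (k a)).1, fsq g
  obtain ⟨r, hr⟩ := exists_sizes fun N b =>
    ⌈40 * (((N : ℝ) + 1) * (|20 * K0 N b * G0 N b| + 1))⌉₊
  obtain ⟨T, hT, hK⟩ := hM r
  refine ⟨T, hT, fun K hc hinv => ?_⟩
  obtain ⟨F, h0, h1⟩ := hK K hc hinv
  refine (hR r F fun L i => ?_).imp h0 h1
  have hb : ∀ N, 0 < N → ∀ j : Fin N, gapI (F.Q N) j ≤ 2 * eps N + 1 / ((N : ℝ) + 1) := by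
    intro N hN j
    have hpos : ∀ (k : Cfg r N) a, 0 < cfgCoef k a := fun k a => pow_pos (by norm_num) _
    have hK0 : 0 ≤ K0 N (fun b => r b) := Finset.sum_nonneg fun k _ => hp0 _ _
    set X : ℝ := 20 * K0 N (fun b => r b) * G0 N (fun b => r b) with hX
    have hB : 0 < ((N : ℝ) + 1) * (|X| + 1) := by positivity
    refine (hC r F N (fun k => (p N (cfgCoef k)).1) (K0 N fun b => r b) (2 * eps N)
      (1 / (((N : ℝ) + 1) * (|X| + 1))) hK0 (fun k => (hp N _ ⟨hN, hpos k⟩).1) (fun k A hA i => ?_)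
      (fun M => tail_le r hB (Nat.le_ceil _) (fun a ha => hr N a ha) M) j).trans ?_
    · refine ((hp N _ ⟨hN, hpos k⟩).2 A hA i).trans (add_le_add le_rfl ?_)
      exact mul_le_mul_of_nonneg_right (Finset.single_le_sum
        (f := fun k => (p N (cfgCoef k)).2) (fun k _ => hp0 _ _) (Finset.mem_univ k))
        (defect_nonneg _ _)
    · refine add_le_add le_rfl ?_
      show X * (1 / (((N : ℝ) + 1) * (|X| + 1))) ≤ _
      rw [← mul_div_assoc, mul_one, div_le_div_iff₀ hB (by positivity)]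
      nlinarith [le_abs_self X, abs_nonneg X, Nat.cast_nonneg (α := ℝ) N]
  have hlim : Tendsto (fun N : ℕ => 2 * eps N + 1 / ((N : ℝ) + 1)) atTop (𝓝 (2 * 0 + 0)) := by
    refine (Tendsto.const_mul 2 ?_).add tendsto_one_div_add_atTop_nhds_zero_nat
    exact Tendsto.div_atTop tendsto_const_nhds
      (Real.tendsto_sqrt_atTop.comp tendsto_natCast_atTop_atTop)
  rw [mul_zero, add_zero] at hlim
  refine ge_of_tendsto hlim ?_
  filter_upwards [eventually_ge_atTop L, eventually_gt_atTop 0] with N hLN hN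
  rw [← hG r F L N hLN i]
  exact hb N hN _

end

end Vale.Agent.P131
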