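import Vale.Agent.P131.Defs

/-!
# P131: the cube lemma at arbitrary positive couplings

`cubeT c = D⁻¹ J D` for a diagonal `D` that commutes with every `n_i`, so the range of `W` is carried
to a range to which the symmetric lemma applies, and meets with the faces keep their dimensions.
-/

namespace Vale.Agent.P131.CubeProof

open scoped Matrix ComplexOrder
open Matrix Finset

noncomputable section

/-! ## Orthogonal projections as matrices -/

section proj

variable {I : Type*} [Fintype I] [DecidableEq I]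

theorem exists_orthProj (S : Submodule ℂ (I → ℂ)) :
    ∃ P : Matrix I I ℂ, P.IsHermitian ∧ P * P = P ∧ (∀ v, P *ᵥ v ∈ S) ∧ ∀ v ∈ S, P *ᵥ v = v := by
  set S' : Submodule ℂ (EuclideanSpace ℂ I) := S.comap (WithLp.linearEquiv 2 ℂ (I → ℂ)).toLinearMap
  set f := toEuclideanCLM (n := I) (𝕜 := ℂ)
  set P : Matrix I I ℂ := f.symm S'.starProjection
  have hP : f P = S'.starProjection := StarAlgEquiv.apply_symm_apply _ _
  have hv : ∀ v, P *ᵥ v = WithLp.ofLp (S'.starProjection (WithLp.toLp 2 v)) := fun v => by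
    rw [← hP, ofLp_toEuclideanCLM]
  refine ⟨P, ?_, ?_, fun v => ?_, fun v hvS => ?_⟩
  · show star P = P
    refine EquivLike.injective f ?_
    rw [map_star, hP]
    exact isSelfAdjoint_starProjection S'
  · refine EquivLike.injective f ?_
    rw [map_mul, hP]
    exact S'.isIdempotentElem_starProjection
  · rw [hv]
    exact S'.starProjection_apply_mem _
  · rw [hv, Submodule.starProjection_eq_self_iff.2 (show WithLp.toLp 2 v ∈ S' from hvS)]

theorem trace_proj {P : Matrix I I ℂ} {S : Submodule ℂ (I → ℂ)} (hm : ∀ v, P *ᵥ v ∈ S)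
    (hf : ∀ v ∈ S, P *ᵥ v = v) : P.trace = (Module.finrank ℂ S : ℂ) := by
  rw [← Matrix.trace_toLin'_eq]
  exact LinearMap.IsProj.trace ⟨fun v => by simpa [Matrix.toLin'_apply] using hm v,
    fun v hv => by simpa [Matrix.toLin'_apply] using hf v hv⟩

omit [DecidableEq I] in
theorem diag_re_nonneg {P : Matrix I I ℂ} (hP : P.IsHermitian) (hI : P * P = P) (s : I) :
    0 ≤ (P s s).re := by
  have h : P.PosSemidef := by
    have := Matrix.posSemidef_conjTranspose_mul_self P
    rwa [hP.eq, hI] at this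
  exact (Complex.le_def.1 h.diag_nonneg).1

theorem col_eq (P : Matrix I I ℂ) (s t : I) : (P *ᵥ Pi.single t 1) s = P s t := by
  rw [mulVec_single_one]; rfl

omit [DecidableEq I] in
theorem fixed_of_mem_range {W : Matrix I I ℂ} (hI : W * W = W) {v : I → ℂ}
    (hv : v ∈ LinearMap.range W.mulVecLin) : W *ᵥ v = v := by
  obtain ⟨x, rfl⟩ := hv
  rw [mulVecLin_apply, mulVec_mulVec, hI]

/-- A subspace of the range that lives on `b` has dimension at most the trace on `b`. -/
theorem finrank_le_trace {W : Matrix I I ℂ} (hW : W.IsHermitian) (hI : W * W = W) (b : I → Prop)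
    [DecidablePred b] (U : Submodule ℂ (I → ℂ))
    (hU : ∀ v ∈ U, W *ᵥ v = v ∧ ∀ s, ¬ b s → v s = 0) :
    (Module.finrank ℂ U : ℝ) ≤ ∑ s, if b s then (W s s).re else 0 := by
  obtain ⟨Q, hQ, hQI, hQm, hQf⟩ := exists_orthProj U
  have hWQ : W * Q = Q := by
    ext s t
    rw [← col_eq (W * Q), ← mulVec_mulVec, (hU _ (hQm _)).1, col_eq]
  have hQW : Q * W = Q := by
    have := congrArg conjTranspose hWQ
    rwa [conjTranspose_mul, hW.eq, hQ.eq] at this
  have hdiag : ∀ s, 0 ≤ ((W - Q) s s).re :=
    diag_re_nonneg (hW.sub hQ) (by rw [sub_mul, mul_sub, mul_sub, hI, hWQ, hQW, hQI, sub_self, sub_zero])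
  have htr : (Module.finrank ℂ U : ℝ) = ∑ s, (Q s s).re := by
    rw [← Complex.re_sum, show ∑ s, Q s s = Q.trace from rfl, trace_proj hQm hQf, Complex.natCast_re]
  rw [htr]
  refine sum_le_sum fun s _ => ?_
  split_ifs with hb
  · have := hdiag s
    rw [Matrix.sub_apply, Complex.sub_re] at this
    linarith
  · rw [← col_eq Q, (hU _ (hQm _)).2 s hb, Complex.zero_re]

end proj

/-! ## The cube -/

variable {N : ℕ}

/-- The diagonal that turns `J` into `cubeT c`. -/
def dvec (c : Fin N → ℝ) (s : Cube N) : ℂ := ∏ i, if s i then (c i : ℂ) else 1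

theorem dvec_ne_zero {c : Fin N → ℝ} (hc : ∀ i, 0 < c i) (s : Cube N) : dvec c s ≠ 0 :=
  prod_ne_zero_iff.2 fun i _ => by
    split_ifs
    · exact_mod_cast (hc i).ne'
    · exact one_ne_zero

theorem dvec_update (c : Fin N → ℝ) {s : Cube N} {i : Fin N} (hs : s i = false) :
    dvec c (Function.update s i true) = (c i : ℂ) * dvec c s := by
  unfold dvec
  rw [← mul_prod_erase univ _ (mem_univ i), ← mul_prod_erase univ (fun j => if s j then (c j : ℂ) else 1)
    (mem_univ i)]
  simp only [Function.update_self, hs, if_true, Bool.false_eq_true, if_false, one_mul]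
  congr 1
  exact prod_congr rfl fun j hj => by rw [Function.update_of_ne (ne_of_mem_erase hj)]

theorem cubeT_apply (c : Fin N → ℝ) (s t : Cube N) :
    cubeT c s t = ∑ i, if s i = false ∧ t = Function.update s i true then (c i : ℂ) else 0 := by
  simp [cubeT, cubeV, Matrix.sum_apply]

theorem cubeT_conj {c : Fin N → ℝ} (hc : ∀ i, 0 < c i) :
    cubeT c = diagonal (dvec c)⁻¹ * cubeJ N * diagonal (dvec c) := by
  ext s t
  rw [mul_diagonal, diagonal_mul, cubeJ, cubeT_apply, cubeT_apply, Pi.inv_apply, mul_sum, sum_mul]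
  refine sum_congr rfl fun i _ => ?_
  split_ifs with h
  · rw [h.2, dvec_update c h.1, Complex.ofReal_one, mul_one]
    field_simp [dvec_ne_zero hc s]
  · simp

theorem diagonal_cancel {c : Fin N → ℝ} (hc : ∀ i, 0 < c i) :
    diagonal (dvec c) * diagonal (dvec c)⁻¹ = 1 ∧ diagonal (dvec c)⁻¹ * diagonal (dvec c) = 1 := by
  constructor <;> rw [diagonal_mul_diagonal, ← diagonal_one] <;> congr 1 <;> funext s <;>
    simp [dvec_ne_zero hc s]

/-- The permutation of the bits. -/
def perm (σ : Equiv.Perm (Fin N)) : CMat N := Matrix.of fun s t => if t = s ∘ σ then 1 else 0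

theorem comp_eq_iff (σ : Equiv.Perm (Fin N)) (s t : Cube N) : t = s ∘ σ ↔ s = t ∘ σ.symm := by
  constructor <;> rintro rfl <;> funext i <;> simp

theorem perm_mul_apply (σ : Equiv.Perm (Fin N)) (A : CMat N) (s t : Cube N) :
    (perm σ * A) s t = A (s ∘ σ) t := by
  simp [perm, Matrix.mul_apply, ite_mul]

theorem mul_perm_apply (σ : Equiv.Perm (Fin N)) (A : CMat N) (s t : Cube N) :
    (A * perm σ) s t = A s (t ∘ σ.symm) := by
  rw [Matrix.mul_apply, sum_eq_single (t ∘ σ.symm)]
  · simp [perm, ((comp_eq_iff σ (t ∘ σ.symm) t).2 rfl).symm]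
  · intro b _ hb
    have : ¬ t = b ∘ σ := fun h => hb ((comp_eq_iff σ b t).1 h)
    simp [perm, this]
  · simp

theorem perm_conjTranspose (σ : Equiv.Perm (Fin N)) : (perm σ)ᴴ = perm σ⁻¹ := by
  ext s t
  simp only [perm, conjTranspose_apply, Matrix.of_apply, apply_ite star, star_one, star_zero]
  exact if_congr ((comp_eq_iff σ t s).trans (by rw [Equiv.Perm.inv_def])) rfl rfl

theorem perm_commute (σ : Equiv.Perm (Fin N)) : Commute (perm σ) (cubeJ N) := by
  ext s t
  rw [perm_mul_apply, mul_perm_apply, cubeJ, cubeT_apply, cubeT_apply, ← Equiv.sum_comp σ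
    (fun i => if s i = false ∧ t ∘ σ.symm = Function.update s i true then ((1 : ℝ) : ℂ) else 0)]
  refine sum_congr rfl fun i _ => if_congr (and_congr Iff.rfl ?_) rfl rfl
  have e : Function.update s (σ i) true ∘ σ = Function.update (s ∘ σ) i true := by
    rw [Function.update_comp_equiv, Equiv.symm_apply_apply]
  constructor
  · rintro rfl
    rw [← e]; funext j; simp
  · intro h
    rw [← e, ← h]; funext j; simp

theorem cubeV_mul_apply (i j : Fin N) (s t : Cube N) :
    (cubeV i * cubeV j : CMat N) s t = if s i = false ∧ (Function.update s i true) j = false ∧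
      t = Function.update (Function.update s i true) j true then 1 else 0 := by
  rw [Matrix.mul_apply, sum_eq_single (Function.update s i true)]
  · by_cases hs : s i = false <;> simp [cubeV, hs]
  · intro b _ hb
    simp [cubeV, hb]
  · simp

theorem cubeV_commute_cubeV (i j : Fin N) : Commute (cubeV i) (cubeV j) := by
  rcases eq_or_ne i j with rfl | h
  · exact Commute.refl _
  ext s t
  rw [cubeV_mul_apply, cubeV_mul_apply]
  refine if_congr ?_ rfl rfl
  rw [Function.update_of_ne h.symm, Function.update_of_ne h, Function.update_comm h]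
  tauto

theorem cubeV_commute (i : Fin N) : Commute (cubeV i) (cubeJ N) :=
  Commute.sum_right _ _ _ fun j _ => (cubeV_commute_cubeV i j).smul_right _

theorem gap_eq (W : CMat N) (i : Fin N) :
    gapC W i = (W.trace.re - 2 * ∑ s, if s i = true then (W s s).re else 0) / 2 ^ N := by
  unfold gapC
  congr 1
  rw [show W.trace.re = ∑ s, (W s s).re by simp [Matrix.trace, Complex.re_sum], mul_sum,
    ← sum_sub_distrib]
  refine sum_congr rfl fun s _ => ?_
  cases s i <;> simp [sgn]
  ring

end

end Vale.Agent.P131.CubeProof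

namespace Vale.Agent.P131

open scoped Matrix ComplexOrder
open Matrix CubeProof

noncomputable section

/-- The cube lemma at arbitrary positive couplings. -/
theorem cubeSpec (hS : SymSpec) : CubeSpec := by
  intro N hN c hc W hW hI hinv i
  obtain ⟨hDE, hED⟩ := diagonal_cancel hc
  set D := diagonal (dvec c)
  set E := diagonal (dvec c)⁻¹
  set R := LinearMap.range W.mulVecLin
  let e : (Cube N → ℂ) ≃ₗ[ℂ] (Cube N → ℂ) := LinearEquiv.ofLinearMap D.mulVecLin E.mulVecLin
    (by rw [← mulVecLin_mul, hDE, mulVecLin_one]) (by rw [← mulVecLin_mul, hED, mulVecLin_one])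
  set S := R.map e.toLinearMap
  obtain ⟨P, hP, hPI, hPm, hPf⟩ := exists_orthProj S
  have hinvP : ∀ g : CMat N, Commute g (cubeJ N) → (1 - P) * g * P = 0 := by
    intro g hg
    have hh : Commute (E * g * D) (cubeT c) := by
      show _ = _
      rw [cubeT_conj hc]
      calc E * g * D * (E * cubeJ N * D) = E * g * (D * E) * cubeJ N * D := by simp only [mul_assoc]
        _ = E * (cubeJ N * g) * D := by rw [hDE, mul_one, mul_assoc E, hg.eq]
        _ = E * cubeJ N * (D * E) * g * D := by rw [hDE, mul_one, ← mul_assoc E]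
        _ = E * cubeJ N * D * (E * g * D) := by simp only [mul_assoc]
    have hgS : ∀ v ∈ S, g *ᵥ v ∈ S := by
      rintro _ ⟨x, hx, rfl⟩
      refine ⟨(E * g * D) *ᵥ x, ⟨(E * g * D) *ᵥ x, ?_⟩, ?_⟩
      · have h1 := congrArg (fun M : CMat N => M *ᵥ x) (hinv _ hh)
        simp only [← mulVec_mulVec, fixed_of_mem_range hI hx, sub_mulVec, one_mulVec, zero_mulVec] at h1
        simpa [← mulVec_mulVec] using (sub_eq_zero.1 h1).symm
      · show D *ᵥ ((E * g * D) *ᵥ x) = g *ᵥ (D *ᵥ x)
        rw [mulVec_mulVec, mulVec_mulVec, ← mul_assoc, ← mul_assoc, hDE, one_mul]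
    have : g * P = P * (g * P) := by
      ext s t
      rw [← col_eq (g * P), ← col_eq (P * (g * P)), ← mulVec_mulVec, ← mulVec_mulVec, ← mulVec_mulVec,
        hPf _ (hgS _ (hPm _))]
    rw [sub_mul, one_mul, sub_mul, mul_assoc P, ← this, sub_self]
  have hperm : ∀ (σ : Equiv.Perm (Fin N)) (s t : Cube N), P (s ∘ σ) (t ∘ σ) = P s t := by
    intro σ s t
    have h1 := hinvP _ (perm_commute σ)
    have h2 := congrArg conjTranspose (hinvP _ (perm_commute σ⁻¹))
    rw [conjTranspose_mul, conjTranspose_mul, perm_conjTranspose, inv_inv, conjTranspose_sub,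
      conjTranspose_one, hP.eq, conjTranspose_zero] at h2
    have e1 : perm σ * P = P * perm σ := by
      have a1 : perm σ * P = P * perm σ * P := by
        rw [sub_mul, one_mul, sub_mul, sub_eq_zero] at h1; exact h1
      have a2 : P * perm σ = P * perm σ * P := by
        rw [← mul_assoc, mul_sub, mul_one, sub_eq_zero] at h2; exact h2
      exact a1.trans a2.symm
    have := congrFun (congrFun e1 s) (t ∘ σ)
    rw [perm_mul_apply, mul_perm_apply] at this
    rw [this]
    congr 1
    funext j; simp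
  obtain ⟨U, hU, hdim⟩ := hS N hN P hP hPI hperm (hinvP _ (Commute.refl _))
    (fun j => hinvP _ (cubeV_commute j)) i
  have hfix : ∀ v ∈ U.map e.symm.toLinearMap, W *ᵥ v = v ∧ ∀ s : Cube N, ¬ s i = true → v s = 0 := by
    rintro _ ⟨v, hv, rfl⟩
    refine ⟨fixed_of_mem_range hI ?_, fun s hs => ?_⟩
    · obtain ⟨x, hx, hxv⟩ : v ∈ S := (hU v hv).1 ▸ hPm v
      rw [← hxv]
      show e.symm (e x) ∈ R
      rwa [LinearEquiv.symm_apply_apply]
    · show (E *ᵥ v) s = 0
      rw [mulVec_diagonal, (hU v hv).2 s (by simpa using hs), mul_zero]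
  have hle := finrank_le_trace hW hI (fun s : Cube N => s i = true) _ hfix
  have htr : W.trace = P.trace := by
    rw [trace_proj (fun v => ⟨v, rfl⟩ : ∀ v, W *ᵥ v ∈ R) (fun v hv => fixed_of_mem_range hI hv),
      trace_proj hPm hPf, LinearEquiv.finrank_map_eq]
  rw [LinearEquiv.finrank_map_eq] at hle
  rw [gap_eq, div_le_iff₀ (by positivity), eps, htr]
  have e2 : (2 : ℝ) / Real.sqrt N * 2 ^ N = 2 * (2 ^ N / Real.sqrt N) := by ring
  rw [e2]
  linarith

end

end Vale.Agent.P131
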