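import Mathlib

/-!
# P131: a transitive commutant. Definitions and module interfaces

Site `a` carries a selector in `Fin (r a + 1)` and a bit (`false` is `|0>`, `true` is `|1>`).
`T = sum_a diag(coef a k) (x) V_a` with `V = |0><1|`, acting by left multiplication on the
completion of the increasing matrix algebras for the normalised Hilbert-Schmidt norm.
See notes/P131_helper16_proof.md.
-/

namespace Vale.Agent.P131

open scoped Matrix ComplexOrder
open Filter Topology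

noncomputable section

/-! ## Any finite index type -/

/-- Normalised squared Hilbert-Schmidt norm. -/
def nsq {I : Type*} [Fintype I] (A : Matrix I I ℂ) : ℝ :=
  (∑ x, ∑ y, ‖A x y‖ ^ 2) / Fintype.card I

/-- Unnormalised squared Hilbert-Schmidt norm; it dominates the squared operator norm. -/
def fsq {I : Type*} [Fintype I] (A : Matrix I I ℂ) : ℝ := ∑ x, ∑ y, ‖A x y‖ ^ 2

/-- `0 ≤ A ≤ 1`. -/
def Contr {I : Type*} [DecidableEq I] (A : Matrix I I ℂ) : Prop :=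
  A.PosSemidef ∧ (1 - A).PosSemidef

/-! ## The Boolean cube -/

/-- Configurations of `N` bits. -/
abbrev Cube (N : ℕ) : Type := Fin N → Bool

/-- Matrices on the cube. -/
abbrev CMat (N : ℕ) : Type := Matrix (Cube N) (Cube N) ℂ

/-- Number of `true` bits. -/
def wt {N : ℕ} (s : Cube N) : ℕ := (Finset.univ.filter fun i => s i = true).card

/-- `V_i = |0><1|` at site `i`. -/
def cubeV {N : ℕ} (i : Fin N) : CMat N :=
  Matrix.of fun s t => if s i = false ∧ t = Function.update s i true then 1 else 0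

/-- `sum_i c_i V_i`. -/
def cubeT {N : ℕ} (c : Fin N → ℝ) : CMat N := ∑ i, (c i : ℂ) • cubeV i

/-- `J = sum_i V_i`. -/
def cubeJ (N : ℕ) : CMat N := cubeT fun _ => (1 : ℝ)

/-- The sign `+1` on `|0>` and `-1` on `|1>`. -/
def sgn (b : Bool) : ℝ := if b then -1 else 1

/-- Normalised `tr (A n_i) - tr (A (1 - n_i))`. -/
def gapC {N : ℕ} (A : CMat N) (i : Fin N) : ℝ := (∑ s, sgn (s i) * (A s s).re) / 2 ^ N

/-- The error `2 / √N` of the cube lemma. -/
def eps (N : ℕ) : ℝ := 2 / Real.sqrt N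

/-- `|a - a²|² + sum_g |(1 - a) g a|²`. -/
def defect {N : ℕ} (gens : Finset (CMat N)) (A : CMat N) : ℝ :=
  nsq (A - A * A) + ∑ g ∈ gens, nsq ((1 - A) * g * A)

/-! ## The tower -/

/-- The states of site `a`. -/
abbrev Site (r : ℕ → ℕ) (a : ℕ) : Type := Fin (r a + 1) × Bool

/-- The states of the sites below `L`. -/
abbrev Idx (r : ℕ → ℕ) (L : ℕ) : Type := ∀ a : Fin L, Site r a

/-- The matrix algebra of the sites below `L`. -/
abbrev Mat (r : ℕ → ℕ) (L : ℕ) : Type := Matrix (Idx r L) (Idx r L) ℂ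

/-- Forget the sites from `L` on. -/
def head {r : ℕ → ℕ} {L M : ℕ} (h : L ≤ M) (x : Idx r M) : Idx r L :=
  fun a => x (Fin.castLE h a)

/-- The embedding `A ↦ A ⊗ 1`. -/
def lift {r : ℕ → ℕ} {L M : ℕ} (h : L ≤ M) (A : Mat r L) : Mat r M :=
  Matrix.of fun x y => if ∀ a : Fin M, L ≤ a.1 → x a = y a then A (head h x) (head h y) else 0

/-- The trace-preserving conditional expectation onto the sites below `L`. -/
def cexp {r : ℕ → ℕ} {L M : ℕ} (h : L ≤ M) (B : Mat r M) : Mat r L :=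
  Matrix.of fun u v => (Fintype.card (Idx r L) : ℂ) / (Fintype.card (Idx r M) : ℂ) *
    ∑ x : Idx r M, ∑ y : Idx r M,
      if head h x = u ∧ head h y = v ∧ ∀ a : Fin M, L ≤ a.1 → x a = y a then B x y else 0

/-- The operator `g` acting at site `a`. -/
def siteOp {r : ℕ → ℕ} {L : ℕ} (a : Fin L) (g : Matrix (Site r a) (Site r a) ℂ) : Mat r L :=
  Matrix.of fun x y => if ∀ b, b ≠ a → x b = y b then g (x a) (y a) else 0

/-- The coupling of selector value `k` at site `a`. -/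
def coef (a k : ℕ) : ℝ := (1 / 2 : ℝ) ^ (a + k)

/-- `diag(coef a k) ⊗ |0><1|`. -/
def siteX (r : ℕ → ℕ) (a : ℕ) : Matrix (Site r a) (Site r a) ℂ :=
  Matrix.of fun u v =>
    if u.1 = v.1 ∧ u.2 = false ∧ v.2 = true then (coef a u.1 : ℂ) else 0

/-- `T` restricted to the sites below `L`. -/
def tmat (r : ℕ → ℕ) (L : ℕ) : Mat r L := ∑ a : Fin L, siteOp a (siteX r a)

/-- The matrices seen in a hyperinvariant subspace of `T`. -/
structure Family (r : ℕ → ℕ) where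
  Q : ∀ L, Mat r L
  contr : ∀ L, Contr (Q L)
  coh : ∀ L M (h : L ≤ M), cexp h (Q M) = Q L
  proj : Tendsto (fun L => nsq (Q L - Q L * Q L)) atTop (𝓝 0)
  inv : ∀ (N : ℕ) (g : Mat r N), Commute g (tmat r N) →
    Tendsto (fun L => if h : N ≤ L then nsq ((1 - Q L) * lift h g * Q L) else 0) atTop (𝓝 0)

/-- Normalised `tr (A n_i) - tr (A (1 - n_i))` in the tower. -/
def gapI {r : ℕ → ℕ} {L : ℕ} (A : Mat r L) (i : Fin L) : ℝ :=
  (∑ x, sgn (x i).2 * (A x x).re) / Fintype.card (Idx r L)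

/-- The selector values of the sites below `N`. -/
abbrev Cfg (r : ℕ → ℕ) (N : ℕ) : Type := ∀ a : Fin N, Fin (r a + 1)

/-- The couplings of a configuration. -/
def cfgCoef {r : ℕ → ℕ} {N : ℕ} (k : Cfg r N) : Fin N → ℝ := fun a => coef a (k a)

/-! ## Module interfaces -/

/-- A1: `J^d` is injective from weight `v` when `N + d ≤ 2 v`, its transpose when
`2 v + d ≤ N`, and its kernel is at most the middle binomial coefficient. -/
def RankSpec : Prop :=
  (∀ (N v d : ℕ) (x : Cube N → ℂ), (∀ s, wt s ≠ v → x s = 0) → N + d ≤ 2 * v →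
      (cubeJ N ^ d) *ᵥ x = 0 → x = 0) ∧
  (∀ (N v d : ℕ) (x : Cube N → ℂ), (∀ s, wt s ≠ v → x s = 0) → 2 * v + d ≤ N →
      ((cubeJ N)ᵀ ^ d) *ᵥ x = 0 → x = 0) ∧
  (∀ N : ℕ, (Module.finrank ℂ (LinearMap.ker (cubeJ N).mulVecLin) : ℝ) * Real.sqrt (N + 1)
      ≤ 2 ^ N)

/-- A2: the symmetric cube lemma: half of `W` lies in `|1>` at each site, up to `2^N / √N`. -/
def SymSpec : Prop :=
  ∀ (N : ℕ), 0 < N → ∀ W : CMat N, W.IsHermitian → W * W = W →
    (∀ (σ : Equiv.Perm (Fin N)) (s t : Cube N), W (s ∘ σ) (t ∘ σ) = W s t) →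
    (1 - W) * cubeJ N * W = 0 → (∀ i, (1 - W) * cubeV i * W = 0) →
    ∀ i : Fin N, ∃ U : Submodule ℂ (Cube N → ℂ),
      (∀ v ∈ U, W *ᵥ v = v ∧ ∀ s : Cube N, s i = false → v s = 0) ∧
      W.trace.re / 2 - 2 ^ N / Real.sqrt N ≤ (Module.finrank ℂ U : ℝ)

/-- A3: the cube lemma at arbitrary positive couplings. -/
def CubeSpec : Prop :=
  ∀ (N : ℕ), 0 < N → ∀ c : Fin N → ℝ, (∀ i, 0 < c i) → ∀ W : CMat N, W.IsHermitian →
    W * W = W → (∀ g, Commute g (cubeT c) → (1 - W) * g * W = 0) →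
    ∀ i, gapC W i ≤ eps N

/-- D1: compactness. -/
def CompactSpec : Prop :=
  ∀ (N : ℕ), 0 < N → ∀ c : Fin N → ℝ, (∀ i, 0 < c i) →
    ∃ (gens : Finset (CMat N)) (K : ℝ), 0 ≤ K ∧ (∀ g ∈ gens, Commute g (cubeT c)) ∧
      ∀ A : CMat N, Contr A → ∀ i, gapC A i ≤ 2 * eps N + K * defect gens A

/-- C1: the transfer from the cubes to the tower, using the selector telescoping. -/
def TransferSpec : Prop :=
  ∀ (r : ℕ → ℕ) (F : Family r) (N : ℕ) (gens : Cfg r N → Finset (CMat N)) (K δ η : ℝ),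
    0 ≤ K → (∀ k, ∀ g ∈ gens k, Commute g (cubeT (cfgCoef k))) →
    (∀ k (A : CMat N), Contr A → ∀ i, gapC A i ≤ δ + K * defect (gens k) A) →
    (∀ L, ∑ a ∈ Finset.Ico N L, (20 : ℝ) / (r a + 1) ≤ η) →
    ∀ i, gapI (F.Q N) i ≤ δ + 20 * K * (1 + ∑ k, ∑ g ∈ gens k, fsq g) * η

/-- C2: nonpositive gaps at every site force a scalar family, equal to `0` or `1`. -/
def RigidSpec : Prop :=
  ∀ (r : ℕ → ℕ) (F : Family r), (∀ L (i : Fin L), gapI (F.Q L) i ≤ 0) →
    (∀ L, F.Q L = 0) ∨ (∀ L, F.Q L = 1)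

/-- C3: the gap of a site does not depend on the level. -/
def GapCohSpec : Prop :=
  ∀ (r : ℕ → ℕ) (F : Family r) (L M : ℕ) (h : L ≤ M) (i : Fin L),
    gapI (F.Q M) (Fin.castLE h i) = gapI (F.Q L) i

/-- The Hilbert space of the final statement. -/
abbrev Ell2 : Type := lp (fun _ : ℕ => ℂ) 2

/-- B: the operator of the tower and the family of a hyperinvariant subspace. -/
def ModelSpec : Prop :=
  ∀ r : ℕ → ℕ, ∃ T : Ell2 →L[ℂ] Ell2, (¬ ∃ z : ℂ, T = z • ContinuousLinearMap.id ℂ Ell2) ∧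
    ∀ K : Submodule ℂ Ell2, IsClosed (K : Set Ell2) →
      (∀ A : Ell2 →L[ℂ] Ell2, A.comp T = T.comp A → ∀ x ∈ K, A x ∈ K) →
      ∃ F : Family r, ((∀ L, F.Q L = 0) → K = ⊥) ∧ ((∀ L, F.Q L = 1) → K = ⊤)

/-- The final statement: the negation of Q1. -/
def TransitiveCommutant : Prop :=
  ∃ T : Ell2 →L[ℂ] Ell2, (¬ ∃ z : ℂ, T = z • ContinuousLinearMap.id ℂ Ell2) ∧
    ∀ K : Submodule ℂ Ell2, IsClosed (K : Set Ell2) →
      (∀ A : Ell2 →L[ℂ] Ell2, A.comp T = T.comp A → ∀ x ∈ K, A x ∈ K) → K = ⊥ ∨ K = ⊤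

end

end Vale.Agent.P131
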