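import Vale.Agent.P131.Basic

/-!
# P131, module B: the operator and the family of a hyperinvariant subspace
-/

namespace Vale.Agent.P131

open scoped Matrix ComplexOrder InnerProductSpace
open Filter Topology ComplexConjugate

noncomputable section

/-- Normalised Hilbert-Schmidt inner product. -/
def ip {I : Type*} [Fintype I] (A B : Matrix I I ℂ) : ℂ := (Aᴴ * B).trace / Fintype.card I

section ip
variable {I : Type*} [Fintype I]

theorem ip_eq_sum (A B : Matrix I I ℂ) :
    ip A B = (∑ x, ∑ y, conj (A x y) * B x y) / Fintype.card I := by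
  simp [ip, Matrix.trace, Matrix.mul_apply]
  rw [Finset.sum_comm]

theorem ip_self (A : Matrix I I ℂ) : ip A A = (nsq A : ℂ) := by
  simp [ip_eq_sum, nsq, ← Complex.normSq_eq_norm_sq, Complex.normSq_eq_conj_mul_self]

theorem ip_conj (A B : Matrix I I ℂ) : conj (ip A B) = ip B A := by
  simp [ip_eq_sum, map_sum, mul_comm]

theorem ip_mul_left (g A B : Matrix I I ℂ) : ip (gᴴ * A) B = ip A (g * B) := by
  simp [ip, Matrix.mul_assoc]

theorem ip_mul_right (g A B : Matrix I I ℂ) : ip (A * gᴴ) B = ip A (B * g) := by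
  rw [ip, ip, Matrix.conjTranspose_mul, Matrix.conjTranspose_conjTranspose, Matrix.mul_assoc,
    Matrix.trace_mul_comm, Matrix.mul_assoc]

theorem ip_smul_left (c : ℂ) (A B : Matrix I I ℂ) : ip (c • A) B = conj c * ip A B := by
  simp [ip, mul_div_assoc]

theorem ip_add_left (A B C : Matrix I I ℂ) : ip (A + B) C = ip A C + ip B C := by
  simp [ip, Matrix.add_mul, add_div]

theorem ip_single [DecidableEq I] (x y : I) (c : ℂ) (B : Matrix I I ℂ) :
    ip (Matrix.single x y c) B = conj c * B x y / Fintype.card I := by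
  classical
  simp [ip_eq_sum, Matrix.single_apply, ite_and, apply_ite conj, ite_mul]

theorem ip_ext [Nonempty I] {X Y : Matrix I I ℂ} (h : ∀ B, ip B X = ip B Y) : X = Y := by
  classical
  ext x y
  simpa [ip_single] using h (Matrix.single x y 1)

end ip

variable {r : ℕ → ℕ}

/-- `lift` as a linear map. -/
def liftL {L M : ℕ} (h : L ≤ M) : Mat r L →ₗ[ℂ] Mat r M where
  toFun := lift h
  map_add' A B := by ext x y; simp [lift]; split_ifs <;> simp
  map_smul' c A := by ext x y; simp [lift]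

@[simp] theorem liftL_apply {L M : ℕ} (h : L ≤ M) (A : Mat r L) : liftL h A = lift h A := rfl

theorem ip_lift {L M : ℕ} (h : L ≤ M) (A : Mat r L) (C : Mat r M) :
    ip (lift h A) C = ip A (cexp h C) := by
  have hT : (Fintype.card (Tail r L M) : ℂ) ≠ 0 := Nat.cast_ne_zero.2 Fintype.card_ne_zero
  simp only [ip_eq_sum, cexp_apply, sum_join h, lift_join, apply_ite conj, map_zero, ite_mul,
    zero_mul, Finset.sum_ite_eq, Finset.mem_univ, if_true, ← Finset.mul_sum, card_idx h,
    Nat.cast_mul, mul_left_comm (conj (A _ _))]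
  rw [inv_mul_eq_div, div_div, mul_comm (Fintype.card (Tail r L M) : ℂ)]
  congr 1
  simp only [Finset.mul_sum]
  exact Finset.sum_congr rfl fun u _ => Finset.sum_comm

theorem lift_commute_siteOp {L M : ℕ} (h : L ≤ M) (g : Mat r L) (a : Fin M) (ha : L ≤ a.1)
    (X : Matrix (Site r a) (Site r a) ℂ) : Commute (lift h g) (siteOp a X) := by
  let Y : Tail r L M → Tail r L M → ℂ := fun w w' =>
    if ∀ b : {b : Fin M // L ≤ b.1}, b.1 ≠ a → w b = w' b then X (w ⟨a, ha⟩) (w' ⟨a, ha⟩) else 0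
  have key : ∀ u w v w',
      siteOp a X (join h u w) (join h v w') = if u = v then Y w w' else 0 := by
    intro u w v w'
    have hiff : (∀ b : Fin M, b ≠ a → join h u w b = join h v w' b) ↔
        u = v ∧ ∀ b : {b : Fin M // L ≤ b.1}, b.1 ≠ a → w b = w' b := by
      constructor
      · refine fun H => ⟨funext fun b => ?_, fun b hb => ?_⟩
        · have hne : Fin.castLE h b ≠ a := fun e => by
            rw [← e] at ha
            exact absurd ha (not_le.2 b.2)
          simpa [join_head] using H _ hne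
        · simpa [join_tail h _ _ _ b.2] using H b.1 hb
      · rintro ⟨rfl, H⟩ b hb
        by_cases hL : L ≤ b.1
        · simpa [join_tail h _ _ _ hL] using H ⟨b, hL⟩ hb
        · exact (join_head h u w ⟨b.1, not_le.1 hL⟩).trans
            (join_head h u w' ⟨b.1, not_le.1 hL⟩).symm
    simp only [siteOp_apply, hiff, ite_and, join_tail h _ _ _ ha, Y]
  refine ext_join h fun u w v w' => ?_
  simp [Matrix.mul_apply, sum_join h, lift_join, key, mul_comm]

/-! ## The isometries into `ell^2` -/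

/-- Dimension of `Mat r L`. -/
def dimL (r : ℕ → ℕ) (L : ℕ) : ℕ := Fintype.card (Idx r L × Idx r L)

theorem lt_card_idx (r : ℕ → ℕ) (L : ℕ) : L < Fintype.card (Idx r L) := by
  refine lt_of_lt_of_le Nat.lt_two_pow_self ?_
  have h : ∀ a : Fin L, 2 ≤ Fintype.card (Site r a) := fun a => by
    simp [Fintype.card_prod]
  calc 2 ^ L = ∏ _a : Fin L, 2 := by simp
    _ ≤ ∏ a : Fin L, Fintype.card (Site r a) := Finset.prod_le_prod' fun a _ => h a
    _ = Fintype.card (Idx r L) := (Fintype.card_pi).symm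

theorem lt_dimL (r : ℕ → ℕ) {i L : ℕ} (h : i ≤ L) : i < dimL r L := by
  have := lt_card_idx r L
  have h2 := Nat.le_mul_self (Fintype.card (Idx r L))
  simp only [dimL, Fintype.card_prod]
  omega

theorem dimL_mono (r : ℕ → ℕ) (L : ℕ) : dimL r L ≤ dimL r (L + 1) := by
  have h : Fintype.card (Idx r L) ≤ Fintype.card (Idx r (L + 1)) := by
    refine Fintype.card_le_of_surjective (head (Nat.le_succ L)) fun u => ?_
    exact ⟨Fin.snoc u (0, false), by ext a <;> simp [head, Fin.snoc, Fin.castLE]⟩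
  simp only [dimL, Fintype.card_prod]
  exact Nat.mul_le_mul h h

/-- Coordinate space. -/
abbrev W (d : ℕ) : Type := EuclideanSpace ℂ (Fin d)

/-- Normalised coordinates of a matrix. -/
def psi (r : ℕ → ℕ) (L : ℕ) : Mat r L →ₗ[ℂ] W (dimL r L) where
  toFun A := WithLp.toLp 2 fun j =>
    A ((Fintype.equivFin (Idx r L × Idx r L)).symm j).1
        ((Fintype.equivFin (Idx r L × Idx r L)).symm j).2 /
      (Real.sqrt (Fintype.card (Idx r L)) : ℂ)
  map_add' A B := by ext j; simp [add_div]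
  map_smul' c A := by ext j; simp [mul_div_assoc]

theorem inner_psi (L : ℕ) (A B : Mat r L) : ⟪psi r L A, psi r L B⟫_ℂ = ip A B := by
  have hs : ((Real.sqrt (Fintype.card (Idx r L)) : ℂ)) * (Real.sqrt (Fintype.card (Idx r L)) : ℂ)
      = (Fintype.card (Idx r L) : ℂ) := by
    rw [← Complex.ofReal_mul, Real.mul_self_sqrt (Nat.cast_nonneg _)]
    norm_cast
  rw [PiLp.inner_apply, ip_eq_sum, ← Fintype.sum_prod_type', Finset.sum_div]
  refine Fintype.sum_equiv (Fintype.equivFin (Idx r L × Idx r L)).symm _ _ fun j => ?_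
  simp [psi, RCLike.inner_apply, map_div₀, -Fintype.card_pi]
  rw [div_mul_div_comm, hs, mul_comm]

theorem psi_inj (L : ℕ) : Function.Injective (psi r L) := by
  intro A B h
  exact ip_ext fun C => by rw [← inner_psi, ← inner_psi, h]

/-- Padding by zeros. -/
def pad {d d' : ℕ} (h : d ≤ d') : W d →ₗ[ℂ] W d' where
  toFun x := ∑ j, x j • EuclideanSpace.single (Fin.castLE h j) (1 : ℂ)
  map_add' x y := by simp [add_smul, Finset.sum_add_distrib]
  map_smul' c x := by simp [mul_smul, Finset.smul_sum]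

/-- The standard basis of `ell^2`. -/
def ee (i : ℕ) : Ell2 := lp.single 2 i (1 : ℂ)

/-- The Hilbert basis of `ell^2`. -/
def bb : HilbertBasis ℕ ℂ Ell2 := HilbertBasis.ofRepr (LinearIsometryEquiv.refl ℂ Ell2)

theorem bb_eq : (bb : ℕ → Ell2) = ee := by
  funext i
  rw [ee, ← HilbertBasis.repr_symm_single]
  rfl

theorem ee_orthonormal : Orthonormal ℂ ee := bb_eq ▸ bb.orthonormal

/-- The first `d` coordinates of `ell^2`. -/
def emb (d : ℕ) : W d →ₗ[ℂ] Ell2 where
  toFun x := ∑ j, x j • ee j.1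
  map_add' x y := by simp [add_smul, Finset.sum_add_distrib]
  map_smul' c x := by simp [mul_smul, Finset.smul_sum]

theorem inner_pad {d d' : ℕ} (h : d ≤ d') (x y : W d) : ⟪pad h x, pad h y⟫_ℂ = ⟪x, y⟫_ℂ := by
  have h1 := (EuclideanSpace.orthonormal_single (𝕜 := ℂ) (ι := Fin d')).comp (Fin.castLE h)
    (Fin.castLE_injective h)
  rw [show pad h x = ∑ j, x j • EuclideanSpace.single (Fin.castLE h j) (1 : ℂ) from rfl,
    show pad h y = ∑ j, y j • EuclideanSpace.single (Fin.castLE h j) (1 : ℂ) from rfl]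
  rw [PiLp.inner_apply]
  refine (h1.inner_sum _ _ Finset.univ).trans ?_
  simp [PiLp.inner_apply, mul_comm]

theorem inner_emb (d : ℕ) (x y : W d) : ⟪emb d x, emb d y⟫_ℂ = ⟪x, y⟫_ℂ := by
  have h1 := ee_orthonormal.comp (Fin.val : Fin d → ℕ) Fin.val_injective
  rw [show emb d x = ∑ j, x j • ee j.1 from rfl, show emb d y = ∑ j, y j • ee j.1 from rfl,
    PiLp.inner_apply]
  refine (h1.inner_sum _ _ Finset.univ).trans ?_
  simp [RCLike.inner_apply, mul_comm]

theorem emb_single (d : ℕ) (j : Fin d) : emb d (EuclideanSpace.single j 1) = ee j.1 := by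
  classical
  simp [emb, EuclideanSpace.single]

theorem emb_pad {d d' : ℕ} (h : d ≤ d') (x : W d) : emb d' (pad h x) = emb d x := by
  rw [show pad h x = ∑ j, x j • EuclideanSpace.single (Fin.castLE h j) (1 : ℂ) from rfl, map_sum]
  simp only [map_smul, emb_single]
  rfl

/-- An inner-product preserving linear map on `Mat r L`. -/
abbrev Emb (r : ℕ → ℕ) (L : ℕ) : Type :=
  {f : Mat r L →ₗ[ℂ] W (dimL r L) // ∀ A B, ⟪f A, f B⟫_ℂ = ip A B}

theorem emb_step (L : ℕ) (f : Emb r L) : ∃ f' : Emb r (L + 1),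
    ∀ A, f'.1 (lift (Nat.le_succ L) A) = pad (dimL_mono r L) (f.1 A) := by
  let a : Mat r L →ₗ[ℂ] W (dimL r (L + 1)) := (psi r (L + 1)).comp (liftL (Nat.le_succ L))
  let b : Mat r L →ₗ[ℂ] W (dimL r (L + 1)) := (pad (dimL_mono r L)).comp f.1
  have hab : ∀ A B, ⟪b A, b B⟫_ℂ = ⟪a A, a B⟫_ℂ := fun A B => by
    simp only [a, b, LinearMap.comp_apply, inner_pad, f.2, inner_psi, liftL_apply, ip_lift,
      cexp_lift]
  have ha : Function.Injective a := by
    intro A B h
    refine ip_ext fun C => ?_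
    have e : ∀ X, ⟪a C, a X⟫_ℂ = ip C X := fun X => by
      simp only [a, LinearMap.comp_apply, inner_psi, liftL_apply, ip_lift, cexp_lift]
    rw [← e, ← e, h]
  let e := LinearEquiv.ofInjective a ha
  let f0 : LinearMap.range a →ₗ[ℂ] W (dimL r (L + 1)) := b ∘ₗ (e.symm : LinearMap.range a →ₗ[ℂ] Mat r L)
  have hf0 : ∀ x y : LinearMap.range a, ⟪f0 x, f0 y⟫_ℂ = ⟪x, y⟫_ℂ := fun x y => by
      obtain ⟨A, rfl⟩ := e.surjective x
      obtain ⟨B, rfl⟩ := e.surjective y
      change ⟪b (e.symm (e A)), b (e.symm (e B))⟫_ℂ = ⟪a A, a B⟫_ℂ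
      rw [e.symm_apply_apply, e.symm_apply_apply]
      exact hab A B
  let g : LinearMap.range a →ₗᵢ[ℂ] W (dimL r (L + 1)) := ⟨f0, fun x => by
    rw [norm_eq_sqrt_re_inner (𝕜 := ℂ), norm_eq_sqrt_re_inner (𝕜 := ℂ), hf0]⟩
  refine ⟨⟨g.extend.toLinearMap.comp (psi r (L + 1)), fun A B => ?_⟩, fun A => ?_⟩
  · exact (g.extend.inner_map_map _ _).trans (inner_psi _ A B)
  · have h1 : (e A : W (dimL r (L + 1))) = psi r (L + 1) (lift (Nat.le_succ L) A) := rfl
    have h2 := g.extend_apply (e A)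
    rw [h1] at h2
    simp only [LinearMap.comp_apply, LinearIsometry.coe_toLinearMap, h2]
    simp [g, f0, b]

/-- The isometries, by recursion. -/
def embSeq (r : ℕ → ℕ) : (L : ℕ) → Emb r L
  | 0 => ⟨psi r 0, inner_psi 0⟩
  | L + 1 => (emb_step L (embSeq r L)).choose

/-- The embedding of level `L`. -/
def Phi (r : ℕ → ℕ) (L : ℕ) : Mat r L →ₗ[ℂ] Ell2 := (emb (dimL r L)).comp (embSeq r L).1

theorem inner_Phi {L : ℕ} (A B : Mat r L) : ⟪Phi r L A, Phi r L B⟫_ℂ = ip A B := by
  simp [Phi, inner_emb, (embSeq r L).2]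

theorem norm_sq_Phi {L : ℕ} (A : Mat r L) : ‖Phi r L A‖ ^ 2 = nsq A := by
  have h := inner_self_eq_norm_sq_to_K (𝕜 := ℂ) (Phi r L A)
  rw [inner_Phi, ip_self] at h
  exact Complex.ofReal_injective (by simpa using h.symm)

theorem Phi_inj (L : ℕ) : Function.Injective (Phi r L) := by
  intro A B h
  exact ip_ext fun C => by rw [← inner_Phi, ← inner_Phi, h]

theorem Phi_lift {L M : ℕ} (h : L ≤ M) (A : Mat r L) : Phi r M (lift h A) = Phi r L A := by
  induction M, h using Nat.le_induction with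
  | base => rw [lift_refl]
  | succ M hLM ih =>
    rw [← lift_lift hLM (Nat.le_succ M), ← ih]
    simp only [Phi, LinearMap.comp_apply, embSeq,
      (emb_step M (embSeq r M)).choose_spec (lift hLM A), emb_pad]

theorem exists_Phi_ee {L i : ℕ} (h : i < dimL r L) : ∃ A : Mat r L, Phi r L A = ee i := by
  have hinj : Function.Injective (embSeq r L).1 := by
    intro A B hAB
    exact ip_ext fun C => by rw [← (embSeq r L).2, ← (embSeq r L).2, hAB]
  have hd : Module.finrank ℂ (Mat r L) = Module.finrank ℂ (W (dimL r L)) := by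
    rw [Module.finrank_matrix, finrank_euclideanSpace_fin]
    simp [dimL]
  obtain ⟨A, hA⟩ := ((LinearMap.injective_iff_surjective_of_finrank_eq_finrank hd).1 hinj)
    (EuclideanSpace.single ⟨i, h⟩ 1)
  exact ⟨A, by simp [Phi, hA, emb_single]⟩

theorem Phi_mem_span {L : ℕ} (A : Mat r L) :
    ∃ x : ℕ →₀ ℂ, Finsupp.linearCombination ℂ ee x = Phi r L A := by
  refine ⟨∑ j, Finsupp.single j.1 ((embSeq r L).1 A j), ?_⟩
  simp [Phi, emb, map_sum, Finsupp.linearCombination_single]

/-- The dense parametrisation of `ell^2`. -/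
abbrev evec : (ℕ →₀ ℂ) →ₗ[ℂ] Ell2 := Finsupp.linearCombination ℂ ee

theorem evec_dense : DenseRange evec := by
  have h := bb.dense_span
  rw [bb_eq, ← Finsupp.range_linearCombination] at h
  exact Submodule.dense_iff_topologicalClosure_eq_top.2 h

/-! ## Operators defined level by level -/

/-- A compatible family of maps on the levels from `N` on, bounded by `C`. -/
structure LevelMap (r : ℕ → ℕ) where
  N : ℕ
  f : ∀ M, Mat r M →ₗ[ℂ] Mat r M
  compat : ∀ M M' (h : M ≤ M') (A : Mat r M), N ≤ M → f M' (lift h A) = lift h (f M A)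
  C : ℝ
  C_nonneg : 0 ≤ C
  bound : ∀ M (A : Mat r M), N ≤ M → nsq (f M A) ≤ C ^ 2 * nsq A

/-- A chosen preimage of a basis vector. -/
def eeMat (r : ℕ → ℕ) (N i : ℕ) : Mat r (i + N) :=
  (exists_Phi_ee (L := i + N) (lt_dimL r (Nat.le_add_right i N))).choose

theorem Phi_eeMat (N i : ℕ) : Phi r (i + N) (eeMat r N i) = ee i :=
  (exists_Phi_ee (L := i + N) (lt_dimL r (Nat.le_add_right i N))).choose_spec

/-- The map on finitely supported sequences. -/
def LevelMap.pre (m : LevelMap r) : (ℕ →₀ ℂ) →ₗ[ℂ] Ell2 :=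
  Finsupp.linearCombination ℂ fun i => Phi r (i + m.N) (m.f (i + m.N) (eeMat r m.N i))

theorem LevelMap.rep (m : LevelMap r) (x : ℕ →₀ ℂ) : ∃ M, m.N ≤ M ∧ ∃ B : Mat r M,
    evec x = Phi r M B ∧ m.pre x = Phi r M (m.f M B) := by
  induction x using Finsupp.induction_linear with
  | zero => exact ⟨m.N, le_rfl, 0, by simp, by simp⟩
  | add x y hx hy =>
    obtain ⟨M, hM, B, hB, hB'⟩ := hx
    obtain ⟨M', hM', B', hC, hC'⟩ := hy
    refine ⟨max M M', hM.trans (le_max_left _ _),
      lift (le_max_left M M') B + lift (le_max_right M M') B', ?_, ?_⟩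
    · rw [map_add, map_add, Phi_lift, Phi_lift, hB, hC]
    · rw [map_add, map_add, map_add, m.compat _ _ _ _ hM, m.compat _ _ _ _ hM', Phi_lift,
        Phi_lift, hB', hC']
  | single i c =>
    refine ⟨i + m.N, Nat.le_add_left _ _, c • eeMat r m.N i, ?_, ?_⟩
    · simp [evec, Finsupp.linearCombination_single, Phi_eeMat]
    · simp [LevelMap.pre, Finsupp.linearCombination_single]

/-- The extension to `ell^2`. -/
def LevelMap.op (m : LevelMap r) : Ell2 →L[ℂ] Ell2 := m.pre.extendOfNorm evec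

theorem LevelMap.pre_bound (m : LevelMap r) (x : ℕ →₀ ℂ) : ‖m.pre x‖ ≤ m.C * ‖evec x‖ := by
  obtain ⟨M, hM, B, hB, hB'⟩ := m.rep x
  rw [hB, hB']
  refine (sq_le_sq₀ (norm_nonneg _) (mul_nonneg m.C_nonneg (norm_nonneg _))).1 ?_
  rw [mul_pow, norm_sq_Phi, norm_sq_Phi]
  exact m.bound M B hM

theorem LevelMap.op_apply (m : LevelMap r) {M : ℕ} (h : m.N ≤ M) (A : Mat r M) :
    m.op (Phi r M A) = Phi r M (m.f M A) := by
  obtain ⟨x, hx⟩ := Phi_mem_span A
  obtain ⟨M', hM', B, hB, hB'⟩ := m.rep x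
  have hAB : lift (le_max_left M M') A = lift (le_max_right M M') B := by
    apply Phi_inj
    rw [Phi_lift, Phi_lift, ← hB, ← hx]
  rw [← hx, LevelMap.op, LinearMap.extendOfNorm_eq evec_dense ⟨m.C, m.pre_bound⟩, hB',
    ← Phi_lift (le_max_right M M'), ← m.compat _ _ _ _ hM', ← hAB, m.compat _ _ _ _ h, Phi_lift]

theorem LevelMap.norm_op (m : LevelMap r) : ‖m.op‖ ≤ m.C :=
  ContinuousLinearMap.opNorm_le_bound _ m.C_nonneg
    (LinearMap.norm_extendOfNorm_apply_le evec_dense m.C m.pre_bound)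

theorem eq_on_levels (N : ℕ) {F : Type*} [TopologicalSpace F] [T2Space F] {f g : Ell2 → F}
    (hf : Continuous f) (hg : Continuous g)
    (h : ∀ M, N ≤ M → ∀ A : Mat r M, f (Phi r M A) = g (Phi r M A)) : f = g := by
  refine evec_dense.equalizer hf hg (funext fun x => ?_)
  let m : LevelMap r :=
    { N := N, f := fun _ => LinearMap.id, compat := fun _ _ _ _ _ => rfl, C := 1,
      C_nonneg := zero_le_one, bound := fun _ A _ => by simp }
  obtain ⟨M, hM, B, hB, -⟩ := m.rep x
  simpa [hB] using h M hM B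

theorem clm_ext (N : ℕ) {G G' : Ell2 →L[ℂ] Ell2}
    (h : ∀ M, N ≤ M → ∀ A : Mat r M, G (Phi r M A) = G' (Phi r M A)) : G = G' :=
  DFunLike.coe_injective (eq_on_levels N G.continuous G'.continuous h)

/-- Left multiplication by `g ⊗ 1`, on the levels from `N` on. -/
def leftMap {N : ℕ} (g : Mat r N) : LevelMap r where
  N := N
  f M := if h : N ≤ M then LinearMap.mulLeft ℂ (lift h g) else 0
  compat M M' h A hN := by
    simp [hN, hN.trans h, lift_mul, lift_lift]
  C := Real.sqrt (fsq g)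
  C_nonneg := Real.sqrt_nonneg _
  bound M A hN := by
    simp only [hN, dif_pos, LinearMap.mulLeft_apply, Real.sq_sqrt (fsq_nonneg g)]
    exact nsq_lift_mul_le hN g A

/-- Right multiplication by `g ⊗ 1`. -/
def rightMap {N : ℕ} (g : Mat r N) : LevelMap r where
  N := N
  f M := if h : N ≤ M then LinearMap.mulRight ℂ (lift h g) else 0
  compat M M' h A hN := by
    simp [hN, hN.trans h, lift_mul, lift_lift]
  C := Real.sqrt (fsq g)
  C_nonneg := Real.sqrt_nonneg _
  bound M A hN := by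
    simp only [hN, dif_pos, LinearMap.mulRight_apply, Real.sq_sqrt (fsq_nonneg g)]
    rw [← nsq_conjTranspose, Matrix.conjTranspose_mul, ← lift_conjTranspose,
      ← fsq_conjTranspose g, ← nsq_conjTranspose A]
    exact nsq_lift_mul_le hN _ _

theorem fsq_siteX (r : ℕ → ℕ) (a : ℕ) : fsq (siteX r a) ≤ (2 * (1 / 2 : ℝ) ^ a) ^ 2 := by
  have h1 : fsq (siteX r a) = ∑ k : Fin (r a + 1), (1 / 4 : ℝ) ^ (a + k.1) := by
    simp [fsq, siteX, Fintype.sum_prod_type, coef, apply_ite Norm.norm, ite_pow, ← pow_mul]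
    refine Finset.sum_congr rfl fun k _ => ?_
    rw [pow_mul']; norm_num
  rw [h1, Fin.sum_univ_eq_sum_range fun k => (1 / 4 : ℝ) ^ (a + k)]
  simp only [pow_add, ← Finset.mul_sum]
  have h2 : ∑ k ∈ Finset.range (r a + 1), (1 / 4 : ℝ) ^ k ≤ 4 := by
    rw [geom_sum_eq (by norm_num)]
    have : (0 : ℝ) ≤ (1 / 4 : ℝ) ^ (r a + 1) := by positivity
    rw [div_le_iff_of_neg (by norm_num)]
    nlinarith
  calc (1 / 4 : ℝ) ^ a * _ ≤ (1 / 4 : ℝ) ^ a * 4 := by gcongr
    _ = _ := by rw [mul_pow, ← pow_mul, mul_comm a, pow_mul]; norm_num; ring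

/-- The site term of `T`. -/
def siteMap (r : ℕ → ℕ) (a : ℕ) : LevelMap r where
  N := a + 1
  f M := if h : a < M then LinearMap.mulLeft ℂ (siteOp ⟨a, h⟩ (siteX r a)) else 0
  compat M M' h A hN := by
    have h1 : a < M := hN
    simp [h1, h1.trans_le h, lift_mul, lift_siteOp]
  C := 2 * (1 / 2 : ℝ) ^ a
  C_nonneg := by positivity
  bound M A hN := by
    have h1 : a < M := hN
    simp only [h1, dif_pos, LinearMap.mulLeft_apply]
    exact (fsq_site_bound _ _ A).trans
      (mul_le_mul_of_nonneg_right (fsq_siteX r a) (nsq_nonneg A))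

/-- Left multiplication on `ell^2`. -/
def Lop {N : ℕ} (g : Mat r N) : Ell2 →L[ℂ] Ell2 := (leftMap g).op

/-- Right multiplication on `ell^2`. -/
def Rop {N : ℕ} (g : Mat r N) : Ell2 →L[ℂ] Ell2 := (rightMap g).op

/-- The site operators on `ell^2`. -/
def Xop (r : ℕ → ℕ) (a : ℕ) : Ell2 →L[ℂ] Ell2 := (siteMap r a).op

theorem Lop_apply {N M : ℕ} (g : Mat r N) (h : N ≤ M) (A : Mat r M) :
    Lop g (Phi r M A) = Phi r M (lift h g * A) := by
  rw [Lop, (leftMap g).op_apply h]; simp [leftMap, h]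

theorem Rop_apply {N M : ℕ} (g : Mat r N) (h : N ≤ M) (A : Mat r M) :
    Rop g (Phi r M A) = Phi r M (A * lift h g) := by
  rw [Rop, (rightMap g).op_apply h]; simp [rightMap, h]

theorem Xop_apply {a M : ℕ} (h : a < M) (A : Mat r M) :
    Xop r a (Phi r M A) = Phi r M (siteOp ⟨a, h⟩ (siteX r a) * A) := by
  rw [Xop, (siteMap r a).op_apply h]; simp [siteMap, h]

theorem Xop_summable (r : ℕ → ℕ) : Summable (Xop r) := by
  refine Summable.of_norm_bounded (g := fun a => 2 * (1 / 2 : ℝ) ^ a) ?_ fun a => ?_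
  · exact (summable_geometric_two).mul_left 2
  · exact (siteMap r a).norm_op

/-- The operator `T`. -/
def Top (r : ℕ → ℕ) : Ell2 →L[ℂ] Ell2 := ∑' a, Xop r a

theorem Rop_commute_Top {N : ℕ} (g : Mat r N) : Commute (Rop g) (Top r) := by
  refine Commute.tsum_right _ fun a => clm_ext (r := r) (max N (a + 1)) fun M hM A => ?_
  have h1 : N ≤ M := le_of_max_le_left hM
  have h2 : a < M := le_of_max_le_right hM
  change Rop g (Xop r a _) = Xop r a (Rop g _)
  rw [Xop_apply h2, Rop_apply g h1, Rop_apply g h1, Xop_apply h2, Matrix.mul_assoc]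

theorem Lop_tmat (r : ℕ → ℕ) (N : ℕ) :
    Lop (tmat r N) = ∑ a ∈ Finset.range N, Xop r a := by
  refine clm_ext (r := r) N fun M hM A => ?_
  rw [Lop_apply _ hM, ← Fin.sum_univ_eq_sum_range (Xop r), sum_apply]
  have h : lift hM (tmat r N) = ∑ a : Fin N, siteOp (Fin.castLE hM a) (siteX r a) := by
    rw [tmat, ← liftL_apply, map_sum]
    exact Finset.sum_congr rfl fun a _ => lift_siteOp hM a _
  rw [h, Finset.sum_mul, map_sum]
  exact Finset.sum_congr rfl fun a _ => (Xop_apply (a.2.trans_le hM) A).symm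

theorem Lop_commute_Top {N : ℕ} (g : Mat r N) (hg : Commute g (tmat r N)) :
    Commute (Lop g) (Top r) := by
  rw [Top, ← (Xop_summable r).sum_add_tsum_nat_add N, ← Lop_tmat]
  refine Commute.add_right (clm_ext (r := r) N fun M hM A => ?_)
    (Commute.tsum_right _ fun a => clm_ext (r := r) (a + N + 1) fun M hM A => ?_)
  · change Lop g (Lop (tmat r N) _) = Lop (tmat r N) (Lop g _)
    simp only [Lop_apply _ hM]
    rw [← Matrix.mul_assoc, ← Matrix.mul_assoc, ← lift_mul, ← lift_mul, hg.eq]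
  · have h1 : N ≤ M := by omega
    have h2 : a + N < M := hM
    change Lop g (Xop r (a + N) _) = Xop r (a + N) (Lop g _)
    rw [Xop_apply h2, Lop_apply g h1, Lop_apply g h1, Xop_apply h2, ← Matrix.mul_assoc,
      ← Matrix.mul_assoc,
      (lift_commute_siteOp h1 g ⟨a + N, h2⟩ (Nat.le_add_left N a) _).eq]

theorem inner_op {N : ℕ} (G G' : Ell2 →L[ℂ] Ell2)
    (h : ∀ M, N ≤ M → ∀ A B : Mat r M, ⟪G (Phi r M A), Phi r M B⟫_ℂ
      = ⟪Phi r M A, G' (Phi r M B)⟫_ℂ) (u v : Ell2) : ⟪G u, v⟫_ℂ = ⟪u, G' v⟫_ℂ := by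
  have h1 : ∀ M, N ≤ M → ∀ A : Mat r M,
      (fun v => ⟪G (Phi r M A), v⟫_ℂ) = fun v => ⟪Phi r M A, G' v⟫_ℂ := fun M hM A => by
    refine eq_on_levels (r := r) M (by fun_prop) (by fun_prop) fun M' hM' B => ?_
    rw [← Phi_lift hM' A]
    exact h M' (hM.trans hM') _ B
  exact congrFun (eq_on_levels (r := r) N (f := fun u => ⟪G u, v⟫_ℂ)
    (g := fun u => ⟪u, G' v⟫_ℂ) (by fun_prop) (by fun_prop) fun M hM A =>
      congrFun (h1 M hM A) v) u

theorem inner_Lop {N : ℕ} (g : Mat r N) (u v : Ell2) :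
    ⟪Lop gᴴ u, v⟫_ℂ = ⟪u, Lop g v⟫_ℂ :=
  inner_op (r := r) (N := N) _ _ (fun M hM A B => by
    rw [Lop_apply _ hM, Lop_apply _ hM, inner_Phi, inner_Phi, lift_conjTranspose, ip_mul_left]) u v

theorem inner_Rop {N : ℕ} (g : Mat r N) (u v : Ell2) :
    ⟪Rop gᴴ u, v⟫_ℂ = ⟪u, Rop g v⟫_ℂ :=
  inner_op (r := r) (N := N) _ _ (fun M hM A B => by
    rw [Rop_apply _ hM, Rop_apply _ hM, inner_Phi, inner_Phi, lift_conjTranspose, ip_mul_right]) u v

/-! ## Components -/

/-- The component of a vector at level `L`. -/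
def comp (r : ℕ → ℕ) (L : ℕ) (v : Ell2) : Mat r L :=
  Matrix.of fun x y => (Fintype.card (Idx r L) : ℂ) * ⟪Phi r L (Matrix.single x y 1), v⟫_ℂ

theorem inner_comp {L : ℕ} (B : Mat r L) (v : Ell2) : ⟪Phi r L B, v⟫_ℂ = ip B (comp r L v) := by
  induction B using Matrix.induction_on' with
  | h_zero => simp [ip_eq_sum]
  | h_add p q hp hq => rw [map_add, inner_add_left, hp, hq, ip_add_left]
  | h_std_basis x y c =>
    have : Matrix.single x y c = c • Matrix.single x y (1 : ℂ) := by simp [Matrix.smul_single]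
    rw [this, map_smul, inner_smul_left, ip_smul_left, ip_single]
    congr 1
    rw [map_one, one_mul, show comp r L v x y =
        (Fintype.card (Idx r L) : ℂ) * ⟪Phi r L (Matrix.single x y 1), v⟫_ℂ from rfl,
      mul_div_cancel_left₀ _ (Nat.cast_ne_zero.2 Fintype.card_ne_zero)]

theorem comp_unique {L : ℕ} {v : Ell2} {X : Mat r L}
    (h : ∀ B, ⟪Phi r L B, v⟫_ℂ = ip B X) : comp r L v = X :=
  ip_ext fun B => by rw [← inner_comp, h]

theorem comp_Phi {L : ℕ} (A : Mat r L) : comp r L (Phi r L A) = A :=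
  comp_unique fun B => inner_Phi B A

theorem comp_sub {L : ℕ} (u v : Ell2) : comp r L (u - v) = comp r L u - comp r L v := by
  ext x y; simp [comp, mul_sub]

theorem comp_zero (L : ℕ) : comp r L 0 = 0 := by ext x y; simp [comp]

theorem norm_sq_eq (L : ℕ) (v : Ell2) :
    ‖v‖ ^ 2 = ‖v - Phi r L (comp r L v)‖ ^ 2 + nsq (comp r L v) := by
  have h : ⟪v - Phi r L (comp r L v), Phi r L (comp r L v)⟫_ℂ = 0 := by
    rw [inner_eq_zero_symm, inner_sub_right, inner_comp, inner_Phi, sub_self]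
  have h2 := norm_add_sq_eq_norm_sq_add_norm_sq_of_inner_eq_zero _ _ h
  rw [sub_add_cancel] at h2
  rw [← norm_sq_Phi (comp r L v)]
  linarith [sq ‖v‖, sq ‖v - Phi r L (comp r L v)‖, sq ‖Phi r L (comp r L v)‖]

theorem nsq_comp_le (L : ℕ) (v : Ell2) : nsq (comp r L v) ≤ ‖v‖ ^ 2 := by
  nlinarith [norm_sq_eq (r := r) L v, sq_nonneg ‖v - Phi r L (comp r L v)‖]

theorem comp_best {L : ℕ} (v : Ell2) (A : Mat r L) :
    ‖v - Phi r L (comp r L v)‖ ≤ ‖v - Phi r L A‖ := by
  have h := norm_sq_eq (r := r) L (v - Phi r L A)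
  rw [comp_sub, comp_Phi, map_sub, sub_sub_sub_cancel_right] at h
  refine (sq_le_sq₀ (norm_nonneg _) (norm_nonneg _)).1 ?_
  linarith [nsq_nonneg (comp r L v - A)]

theorem comp_tendsto (v : Ell2) :
    Tendsto (fun L => ‖v - Phi r L (comp r L v)‖) atTop (𝓝 0) := by
  rw [Metric.tendsto_atTop]
  intro ε hε
  obtain ⟨x, hx⟩ := Metric.denseRange_iff.1 evec_dense v ε hε
  obtain ⟨M, -, B, hB, -⟩ := (leftMap (1 : Mat r 0)).rep x
  refine ⟨M, fun L hL => ?_⟩
  rw [dist_eq_norm, sub_zero, norm_norm]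
  refine (comp_best v (lift hL B)).trans_lt ?_
  rwa [Phi_lift, ← hB, ← dist_eq_norm]

theorem comp_Lop {N L : ℕ} (g : Mat r N) (h : N ≤ L) (v : Ell2) :
    comp r L (Lop g v) = lift h g * comp r L v :=
  comp_unique fun B => by
    rw [← inner_Lop, Lop_apply _ h, inner_comp, lift_conjTranspose, ip_mul_left]

theorem comp_Rop {L : ℕ} (g : Mat r L) (v : Ell2) :
    comp r L (Rop g v) = comp r L v * g :=
  comp_unique fun B => by
    rw [← inner_Rop, Rop_apply _ le_rfl, inner_comp, lift_refl, ip_mul_right]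

theorem comp_coh {L M : ℕ} (h : L ≤ M) (v : Ell2) : cexp h (comp r M v) = comp r L v :=
  (comp_unique fun B => by rw [← Phi_lift h B, inner_comp, ip_lift]).symm

/-- The unit vector. -/
def omega (r : ℕ → ℕ) : Ell2 := Phi r 0 1

theorem omega_eq (L : ℕ) : omega r = Phi r L 1 := by
  rw [omega, ← Phi_lift (Nat.zero_le L), lift_one]

theorem Top_not_scalar (r : ℕ → ℕ) :
    ¬ ∃ z : ℂ, Top r = z • ContinuousLinearMap.id ℂ Ell2 := by
  rintro ⟨z, hz⟩
  let x0 : Idx r 1 := fun _ => (0, false)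
  let y0 : Idx r 1 := fun _ => (0, true)
  let S : Mat r 1 := Matrix.single x0 y0 1
  have hxy : x0 ≠ y0 := fun h => by simpa [x0, y0] using congrArg Prod.snd (congrFun h 0)
  have hsum := ((ContinuousLinearMap.apply ℂ Ell2 (omega r)).summable (Xop_summable r))
  have h1 : ⟪Phi r 1 S, Top r (omega r)⟫_ℂ = ∑' a, ⟪Phi r 1 S, Xop r a (omega r)⟫_ℂ := by
    rw [Top, show (∑' a, Xop r a) (omega r) = ∑' a, Xop r a (omega r) from
      (ContinuousLinearMap.apply ℂ Ell2 (omega r)).map_tsum (Xop_summable r)]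
    exact (innerSL ℂ (Phi r 1 S)).map_tsum hsum
  have hterm : ∀ a, a ≠ 0 → ⟪Phi r 1 S, Xop r a (omega r)⟫_ℂ = 0 := by
    intro a ha
    have h01 : 1 ≤ a + 1 := by omega
    rw [omega_eq (a + 1), Xop_apply (Nat.lt_succ_self a), mul_one, ← Phi_lift h01 S, inner_Phi,
      ip_eq_sum]
    simp only [div_eq_zero_iff]
    left
    refine Finset.sum_eq_zero fun x _ => Finset.sum_eq_zero fun y _ => ?_
    by_cases hc : ∀ b : Fin (a + 1), 1 ≤ b.1 → x b = y b
    · have := congrArg Prod.snd (hc ⟨a, Nat.lt_succ_self a⟩ (Nat.one_le_iff_ne_zero.2 ha))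
      simp [siteOp, siteX, this]
    · simp [lift, hc]
  rw [tsum_eq_single 0 hterm, hz, omega_eq 1] at h1
  simp only [smul_apply, ContinuousLinearMap.id_apply, inner_smul_right,
    inner_Phi, Xop_apply (Nat.lt_one_iff.2 rfl), mul_one, S, ip_single, Matrix.one_apply_ne hxy]
    at h1
  have hs : siteOp (r := r) (⟨0, Nat.lt_one_iff.2 rfl⟩ : Fin 1) (siteX r 0) x0 y0 = 1 := by
    have : ∀ b : Fin 1, b = 0 := fun b => Subsingleton.elim _ _
    simp [siteOp, siteX, x0, y0, coef, this]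
  rw [hs] at h1
  simp at h1
  norm_cast at h1

/-- **Module B.** -/
theorem modelSpec : ModelSpec := by
  intro r
  refine ⟨Top r, Top_not_scalar r, fun K hK hinv => ?_⟩
  have : CompleteSpace K := hK.completeSpace_coe
  let P := K.starProjection
  let x := P (omega r)
  let Q : ∀ L, Mat r L := fun L => comp r L x
  have hPsa : ∀ u v, ⟪P u, v⟫_ℂ = ⟪u, P v⟫_ℂ := K.inner_starProjection_left_eq_right
  have hPP : ∀ u, P (P u) = P u := fun u =>
    Submodule.starProjection_eq_self_iff.2 (K.starProjection_apply_mem u)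
  have hR : ∀ {N : ℕ} (g : Mat r N) (u : Ell2), P (Rop g u) = Rop g (P u) := by
    intro N g u
    refine Submodule.eq_starProjection_of_mem_of_inner_eq_zero
      (hinv _ (Rop_commute_Top g) _ (K.starProjection_apply_mem u)) fun w hw => ?_
    rw [← map_sub, ← inner_conj_symm, ← inner_Rop g, inner_conj_symm,
      Submodule.starProjection_inner_eq_zero u _ (hinv _ (Rop_commute_Top gᴴ) w hw)]
  have hPB : ∀ (L : ℕ) (B : Mat r L), P (Phi r L B) = Rop B x := by
    intro L B
    rw [show x = P (omega r) from rfl, ← hR, omega_eq L, Rop_apply _ le_rfl, one_mul, lift_refl]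
  have hcomp : ∀ (L : ℕ) (B : Mat r L), comp r L (P (Phi r L B)) = Q L * B := fun L B => by
    rw [hPB, comp_Rop]
  have hip : ∀ L (B C : Mat r L), ⟪Phi r L B, P (Phi r L C)⟫_ℂ = ip B (Q L * C) :=
    fun L B C => by rw [inner_comp, hcomp]
  have herm : ∀ L, (Q L).IsHermitian := by
    intro L
    refine ip_ext fun B => ?_
    calc ip B (Q L)ᴴ = ip (Q L * B) 1 := by simp [ip, Matrix.conjTranspose_mul]
      _ = conj ⟪Phi r L 1, P (Phi r L B)⟫_ℂ := by rw [hip, ip_conj]
      _ = ip B (Q L) := by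
          rw [inner_conj_symm, hPsa, hip, mul_one]
  have hpos : ∀ L, Contr (Q L) := by
    intro L
    have key : ∀ v : Idx r L → ℂ, ∀ y0, ∀ B : Mat r L,
        (B = Matrix.of fun a b => if b = y0 then v a else 0) →
        ip B (Q L * B) = (star v ⬝ᵥ Q L *ᵥ v) / Fintype.card (Idx r L) ∧
        ip B B = (star v ⬝ᵥ v) / Fintype.card (Idx r L) := by
      rintro v y0 _ rfl
      simp [ip_eq_sum, dotProduct, Matrix.mulVec, Matrix.mul_apply, apply_ite conj, ite_mul]
    have bounds : ∀ v : Idx r L → ℂ,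
        0 ≤ star v ⬝ᵥ Q L *ᵥ v ∧ star v ⬝ᵥ Q L *ᵥ v ≤ star v ⬝ᵥ v := by
      intro v
      let y0 : Idx r L := fun _ => (0, false)
      obtain ⟨hB1, hB2⟩ := key v y0 _ rfl
      set B : Mat r L := Matrix.of fun a b => if b = y0 then v a else 0
      set u := Phi r L B
      have e1 : ip B (Q L * B) = ((‖P u‖ ^ 2 : ℝ) : ℂ) := by
        rw [← hip]; change ⟪u, P u⟫_ℂ = _
        rw [← hPP u, ← hPsa, hPP, inner_self_eq_norm_sq_to_K]; norm_num
      have e2 : ip B B = ((‖u‖ ^ 2 : ℝ) : ℂ) := by rw [ip_self, ← norm_sq_Phi]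
      have hle : ‖P u‖ ^ 2 ≤ ‖u‖ ^ 2 :=
        pow_le_pow_left₀ (norm_nonneg _) (K.norm_starProjection_apply_le u) 2
      have hcard : (0 : ℝ) < Fintype.card (Idx r L) := Nat.cast_pos.2 Fintype.card_pos
      rw [hB1, div_eq_iff (Nat.cast_ne_zero.2 Fintype.card_ne_zero)] at e1
      rw [hB2, div_eq_iff (Nat.cast_ne_zero.2 Fintype.card_ne_zero)] at e2
      rw [e1, e2]
      constructor <;> norm_cast
      · positivity
      · gcongr
    refine ⟨Matrix.PosSemidef.of_dotProduct_mulVec_nonneg (herm L) fun v => (bounds v).1,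
      Matrix.PosSemidef.of_dotProduct_mulVec_nonneg (Matrix.isHermitian_one.sub (herm L))
        fun v => ?_⟩
    rw [Matrix.sub_mulVec, Matrix.one_mulVec, dotProduct_sub]
    exact sub_nonneg.2 (bounds v).2
  have hx : P x = x := hPP _
  have hw := comp_tendsto (r := r) x
  have hw2 : ∀ c : ℝ, Tendsto (fun L => (c * ‖x - Phi r L (Q L)‖) ^ 2) atTop (𝓝 0) :=
    fun c => by simpa using (hw.const_mul c).pow 2
  refine ⟨⟨Q, hpos, fun L M h => comp_coh h x, ?_, ?_⟩, ?_, ?_⟩
  · refine squeeze_zero (fun L => nsq_nonneg _) (fun L => ?_) (hw2 1)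
    have e : comp r L (P (x - Phi r L (Q L))) = Q L - Q L * Q L := by
      rw [map_sub, hx, comp_sub, hcomp]
    rw [← e, one_mul]
    exact (nsq_comp_le _ _).trans
      (pow_le_pow_left₀ (norm_nonneg _) (K.norm_starProjection_apply_le _) 2)
  · intro N g hg
    refine squeeze_zero (fun L => by split_ifs <;> simp [nsq_nonneg]) (fun L => ?_)
      (hw2 ‖Lop g‖)
    split_ifs with h
    · have hgx : P (Lop g x) = Lop g x := Submodule.starProjection_eq_self_iff.2
        (hinv _ (Lop_commute_Top g hg) _ (K.starProjection_apply_mem _))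
      have e : comp r L (P (Lop g (x - Phi r L (Q L)))) =
          (1 - Q L) * lift h g * Q L := by
        rw [map_sub, map_sub, hgx, comp_sub, comp_Lop g h, Lop_apply g h, hcomp, Matrix.sub_mul,
          Matrix.sub_mul, one_mul, Matrix.mul_assoc]
      rw [← e]
      exact (nsq_comp_le _ _).trans (pow_le_pow_left₀ (norm_nonneg _)
        ((K.norm_starProjection_apply_le _).trans ((Lop g).le_opNorm _)) 2)
    · positivity
  · intro h0
    have hx0 : x = 0 := by
      refine norm_eq_zero.1 (tendsto_nhds_unique ?_ hw)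
      refine tendsto_const_nhds.congr' (Eventually.of_forall fun L => ?_)
      change ‖x‖ = ‖x - Phi r L (Q L)‖
      simp [show Q L = 0 from h0 L]
    have hP : P = 0 := clm_ext (r := r) 0 fun M _ A => by simp [hPB, hx0]
    rw [eq_bot_iff]
    intro u hu
    have := Submodule.starProjection_eq_self_iff.2 hu
    rw [show K.starProjection = P from rfl, hP] at this
    rw [Submodule.mem_bot]
    simpa using this.symm
  · intro h1
    have hx1 : x = omega r := by
      refine sub_eq_zero.1 (norm_eq_zero.1 (tendsto_nhds_unique ?_ hw))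
      refine tendsto_const_nhds.congr' (Eventually.of_forall fun L => ?_)
      change ‖x - omega r‖ = ‖x - Phi r L (Q L)‖
      rw [show Q L = 1 from h1 L, ← omega_eq]
    have hP : P = ContinuousLinearMap.id ℂ Ell2 := clm_ext (r := r) 0 fun M _ A => by
      rw [hPB, hx1, omega_eq M, Rop_apply _ le_rfl, one_mul, lift_refl]; rfl
    rw [eq_top_iff]
    intro u _
    have := K.starProjection_apply_mem u
    rwa [show K.starProjection = P from rfl, hP] at this

end

end Vale.Agent.P131
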