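import Vale.Agent.P131.SymWt

/-!
# P131: the rank of `J = ∑ V_i` on the cube

`J ^ d` is injective from the weight `v` when `N + d ≤ 2 v`, dually for the transpose, and the kernel
of `J` is at most the middle binomial coefficient.
-/

namespace Vale.Agent.P131.CubeRank

open scoped Matrix
open Matrix Finset

noncomputable section

variable {n N : ℕ}

/-- The part of `x` with first bit `b`. -/
def part (b : Bool) (x : Cube (n + 1) → ℂ) (s : Cube n) : ℂ := x (Fin.cons b s)

theorem part_true_J (x : Cube (n + 1) → ℂ) :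
    part true (cubeJ (n + 1) *ᵥ x) = cubeJ n *ᵥ part true x := by
  funext s
  simp only [part, cubeJ, Sym.cubeT_mulVec, Fin.sum_univ_succ, Fin.cons_zero, Fin.cons_succ,
    Bool.true_eq_false, if_false, zero_add]
  refine sum_congr rfl fun j _ => ?_
  simp only [Fin.cons_update]

theorem part_false_J (x : Cube (n + 1) → ℂ) :
    part false (cubeJ (n + 1) *ᵥ x) = cubeJ n *ᵥ part false x + part true x := by
  funext s
  simp only [part, cubeJ, Sym.cubeT_mulVec, Fin.sum_univ_succ, Fin.cons_zero, Fin.cons_succ,
    Pi.add_apply, if_true, Complex.ofReal_one, one_mul, Fin.update_cons_zero]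
  rw [add_comm]
  refine congrArg (· + _) (sum_congr rfl fun j _ => ?_)
  simp only [Fin.cons_update]

theorem part_pow (d : ℕ) (x : Cube (n + 1) → ℂ) :
    part true (cubeJ (n + 1) ^ (d + 1) *ᵥ x) = cubeJ n ^ (d + 1) *ᵥ part true x ∧
      part false (cubeJ (n + 1) ^ (d + 1) *ᵥ x)
        = cubeJ n ^ (d + 1) *ᵥ part false x + ((d : ℂ) + 1) • (cubeJ n ^ d *ᵥ part true x) := by
  induction d with
  | zero => simp [part_true_J, part_false_J]
  | succ d ih =>
    simp only [pow_succ' (cubeJ (n + 1)) (d + 1), ← mulVec_mulVec, part_true_J, part_false_J, ih.1,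
      ih.2, mulVec_add, mulVec_smul]
    refine ⟨by rw [mulVec_mulVec, ← pow_succ'], ?_⟩
    rw [mulVec_mulVec, ← pow_succ', mulVec_mulVec, ← pow_succ']
    push_cast
    module

theorem wt_cons (b : Bool) (s : Cube n) :
    wt (Fin.cons b s : Cube (n + 1)) = (if b = true then 1 else 0) + wt s := by
  simp only [wt, card_filter, Fin.sum_univ_succ, Fin.cons_zero, Fin.cons_succ]

theorem injective_from : ∀ (N v d : ℕ) (x : Cube N → ℂ), (∀ s, wt s ≠ v → x s = 0) →
    N + d ≤ 2 * v → (cubeJ N ^ d) *ᵥ x = 0 → x = 0 := by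
  intro N
  induction N with
  | zero =>
    intro v d x hx hd h
    funext s
    rcases Nat.eq_zero_or_pos v with rfl | hv
    · have : d = 0 := by omega
      subst this
      rw [pow_zero, one_mulVec] at h
      exact congrFun h s
    · exact hx s (by simp [wt]; omega)
  | succ n ih =>
    intro v d x hx hd h
    rcases d with _ | d
    · rwa [pow_zero, one_mulVec] at h
    have hv : 1 ≤ v := by omega
    obtain ⟨h1, h2⟩ := part_pow d x
    rw [h] at h1 h2
    have hb : cubeJ n ^ (d + 1) *ᵥ part true x = 0 := h1.symm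
    have ha' : cubeJ n ^ (d + 2) *ᵥ part false x = 0 := by
      have h3 := congrArg (cubeJ n *ᵥ ·) h2.symm
      simp only [mulVec_add, mulVec_smul, mulVec_mulVec, ← pow_succ', hb, smul_zero, add_zero] at h3
      rw [h3]
      exact mulVec_zero (cubeJ n)
    have ha : part false x = 0 := ih v (d + 2) _
      (fun s hs => hx _ (by rw [wt_cons]; simpa using hs)) (by omega) ha'
    rw [ha, mulVec_zero, zero_add] at h2
    have hb' : cubeJ n ^ d *ᵥ part true x = 0 := by
      rcases smul_eq_zero.1 h2.symm with h4 | h4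
      · exact absurd h4 (Nat.cast_add_one_ne_zero d)
      · exact h4
    have hb0 : part true x = 0 := ih (v - 1) d _
      (fun s hs => hx _ (by rw [wt_cons]; simp; omega)) (by omega) hb'
    funext s
    rw [← Fin.cons_self_tail s]
    cases s 0 with
    | false => exact congrFun ha (Fin.tail s)
    | true => exact congrFun hb0 (Fin.tail s)

/-- Exchange of the two values of every bit. -/
def flipC (N : ℕ) : Cube N ≃ Cube N :=
  ⟨fun s i => !s i, fun s i => !s i, fun s => funext fun i => Bool.not_not (s i),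
    fun s => funext fun i => Bool.not_not (s i)⟩

theorem wt_flip (s : Cube N) : wt (flipC N s) + wt s = N := by
  have h := card_filter_add_card_filter_not (s := (univ : Finset (Fin N))) fun i => s i = true
  simp only [card_univ, Fintype.card_fin] at h
  rw [add_comm]
  refine Eq.trans ?_ h
  rw [wt, wt]
  congr 2
  ext i
  simp [flipC]

theorem transpose_eq (N : ℕ) : (cubeJ N)ᵀ = (cubeJ N).submatrix (flipC N) (flipC N) := by
  ext s t
  simp only [Sym.cubeJ_eq, transpose_apply, submatrix_apply, Matrix.sum_apply]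
  refine sum_congr rfl fun j _ => ?_
  simp only [cubeV, of_apply]
  refine if_congr ?_ rfl rfl
  simp only [flipC, Equiv.coe_fn_mk, funext_iff, Function.update_apply]
  constructor
  · rintro ⟨h1, h2⟩
    have h3 := h2 j
    simp only [if_true] at h3
    refine ⟨by simp [h3], fun k => ?_⟩
    by_cases hk : k = j
    · subst hk; simp [h1]
    · simp [hk, h2 k]
  · rintro ⟨h1, h2⟩
    have h3 := h2 j
    simp only [if_true, Bool.not_eq_true'] at h3
    refine ⟨h3, fun k => ?_⟩
    by_cases hk : k = j
    · subst hk; simpa using h1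
    · have h4 := h2 k
      simp only [if_neg hk] at h4 ⊢
      exact (Bool.not_inj h4).symm

theorem transpose_pow_eq (N d : ℕ) :
    (cubeJ N)ᵀ ^ d = (cubeJ N ^ d).submatrix (flipC N) (flipC N) := by
  induction d with
  | zero => simp [submatrix_one_equiv]
  | succ d ih => rw [pow_succ, ih, transpose_eq, submatrix_mul_equiv, ← pow_succ]

theorem injective_into (N v d : ℕ) (x : Cube N → ℂ) (hx : ∀ s, wt s ≠ v → x s = 0)
    (hd : 2 * v + d ≤ N) (h : ((cubeJ N)ᵀ ^ d) *ᵥ x = 0) : x = 0 := by
  rw [transpose_pow_eq, submatrix_mulVec_equiv] at h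
  have h' : (cubeJ N ^ d) *ᵥ (x ∘ (flipC N).symm) = 0 := by
    funext s
    simpa using congrFun h ((flipC N).symm s)
  have h0 := injective_from N (N - v) d _ (fun s hs => hx _ fun e => hs (by
    have h5 : wt ((flipC N).symm s) = v := e
    have h6 := wt_flip ((flipC N).symm s)
    rw [Equiv.apply_symm_apply] at h6
    omega)) (by omega) h'
  funext s
  simpa using congrFun h0 (flipC N s)

/-- The projection on the weights satisfying `p`. -/
def cut (N : ℕ) (p : ℕ → Prop) [DecidablePred p] : CMat N :=
  Matrix.diagonal fun s => if p (wt s) then 1 else 0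

theorem cut_supp {p : ℕ → Prop} [DecidablePred p] {y : Cube N → ℂ}
    (hy : y ∈ LinearMap.range (cut N p).mulVecLin) (s : Cube N) (hs : ¬ p (wt s)) : y s = 0 := by
  obtain ⟨z, rfl⟩ := hy
  simp [cut, mulVec_diagonal, hs]

/-- A graded matrix injective on each weight satisfying `p` is injective on all of them together. -/
theorem rank_cut {A : CMat N} (g : ℕ → ℕ) (hg : ∀ s t, A s t ≠ 0 → wt t = g (wt s))
    (p : ℕ → Prop) [DecidablePred p]
    (hinj : ∀ v, p v → ∀ x : Cube N → ℂ, (∀ s, wt s ≠ v → x s = 0) → A *ᵥ x = 0 → x = 0) :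
    (A * cut N p).rank = #(univ.filter fun s : Cube N => p (wt s)) := by
  classical
  set E := LinearMap.range (cut N p).mulVecLin
  have hE : Module.finrank ℂ E = #(univ.filter fun s : Cube N => p (wt s)) := by
    show (cut N p).rank = _
    rw [cut, rank_diagonal, Fintype.card_subtype]
    congr 1
    ext s
    simp
  rw [Matrix.rank, ← hE, Matrix.mulVecLin_mul, LinearMap.range_comp]
  have hker : LinearMap.ker (A.mulVecLin.comp E.subtype) = ⊥ := by
    refine LinearMap.ker_eq_bot'.2 fun y hy => Subtype.ext ?_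
    have hy' : A *ᵥ (y : Cube N → ℂ) = 0 := hy
    funext t
    show (y : Cube N → ℂ) t = 0
    by_cases hp : p (wt t)
    · have h0 := hinj (wt t) hp (fun s => if wt s = wt t then (y : Cube N → ℂ) s else 0)
        (fun s hs => if_neg hs) ?_
      · simpa using congrFun h0 t
      · funext s
        show ∑ a, A s a * (if wt a = wt t then (y : Cube N → ℂ) a else 0) = 0
        by_cases hc : ∃ a, A s a ≠ 0 ∧ wt a = wt t
        · obtain ⟨a₀, ha₀, hwa⟩ := hc
          have h2 := congrFun hy' s
          simp only [mulVec, dotProduct, Pi.zero_apply] at h2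
          rw [← h2]
          refine sum_congr rfl fun a _ => ?_
          by_cases ha : A s a = 0
          · simp [ha]
          · rw [if_pos (by rw [hg s a ha, ← hg s a₀ ha₀, hwa])]
        · refine sum_eq_zero fun a _ => ?_
          by_cases ha : A s a = 0
          · simp [ha]
          · rw [if_neg fun e => hc ⟨a, ha, e⟩, mul_zero]
    · exact cut_supp y.2 t hp
  have h1 := LinearMap.finrank_range_add_finrank_ker (A.mulVecLin.comp E.subtype)
  rw [hker, finrank_bot, add_zero, LinearMap.range_comp, Submodule.range_subtype] at h1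
  exact h1

theorem card_weight (N k : ℕ) : #(univ.filter fun s : Cube N => wt s = k) = N.choose k := by
  conv_rhs => rw [← Fintype.card_fin N, ← card_univ, ← card_powersetCard]
  refine card_nbij' (fun s => univ.filter fun i => s i = true) (fun S i => decide (i ∈ S)) ?_ ?_ ?_ ?_
  · intro s hs
    simp only [coe_filter, mem_univ, true_and, Set.mem_ofPred_eq] at hs
    simp [mem_powersetCard, ← hs, wt]
  · intro S hS
    simp only [mem_coe, mem_powersetCard] at hS
    simp [wt, ← hS.2]
  · intro s _
    funext i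
    simp
  · intro S _
    ext i
    simp

theorem choose_bound : ∀ N : ℕ, (N.choose ((N + 1) / 2)) ^ 2 * (N + 1) ≤ 4 ^ N := by
  have hc : ∀ k : ℕ, k.centralBinom ^ 2 * (2 * k + 1) ≤ 16 ^ k := by
    intro k
    induction k with
    | zero => simp
    | succ k ih =>
      have hr := Nat.succ_mul_centralBinom_succ k
      refine Nat.le_of_mul_le_mul_left ?_ (show 0 < (k + 1) ^ 2 by positivity)
      calc (k + 1) ^ 2 * ((k + 1).centralBinom ^ 2 * (2 * (k + 1) + 1))
          = ((k + 1) * (k + 1).centralBinom) ^ 2 * (2 * k + 3) := by ring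
        _ = 4 * (2 * k + 1) * (2 * k + 3) * (k.centralBinom ^ 2 * (2 * k + 1)) := by rw [hr]; ring
        _ ≤ 4 * (2 * k + 1) * (2 * k + 3) * 16 ^ k := Nat.mul_le_mul_left _ ih
        _ ≤ 4 * (4 * (k + 1) ^ 2) * 16 ^ k := Nat.mul_le_mul_right _ (by nlinarith)
        _ = (k + 1) ^ 2 * 16 ^ (k + 1) := by ring
  intro N
  rcases Nat.even_or_odd' N with ⟨k, rfl | rfl⟩
  · rw [show (2 * k + 1) / 2 = k by omega]
    refine le_of_le_of_eq (hc k) ?_
    rw [pow_mul]; norm_num
  · rw [show (2 * k + 1 + 1) / 2 = k + 1 by omega]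
    have h := hc (k + 1)
    have e : (k + 1).centralBinom = 2 * (2 * k + 1).choose (k + 1) := by
      rw [Nat.centralBinom, show 2 * (k + 1) = 2 * k + 1 + 1 by ring, Nat.choose_succ_succ,
        Nat.choose_symm_half]
      ring
    rw [e, mul_pow] at h
    refine Nat.le_of_mul_le_mul_left ?_ (show 0 < 4 by norm_num)
    calc 4 * ((2 * k + 1).choose (k + 1) ^ 2 * (2 * k + 1 + 1))
        ≤ 4 * ((2 * k + 1).choose (k + 1) ^ 2 * (2 * (k + 1) + 1)) :=
          Nat.mul_le_mul_left _ (Nat.mul_le_mul_left _ (by omega))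
      _ ≤ 16 ^ (k + 1) := le_of_eq_of_le (by ring) h
      _ = 4 * 4 ^ (2 * k + 1) := by
        rw [show (16 : ℕ) = 4 ^ 2 by norm_num, ← pow_mul, ← pow_succ']
        congr 1

theorem kernel_le (N : ℕ) :
    Module.finrank ℂ (LinearMap.ker (cubeJ N).mulVecLin) ≤ N.choose ((N + 1) / 2) := by
  classical
  set J := cubeJ N
  set A := J * cut N fun v => N + 2 ≤ 2 * v
  set B := cut N (fun v => 2 * v + 1 ≤ N) * J
  have hA : A.rank = #(univ.filter fun s : Cube N => N + 2 ≤ 2 * wt s) :=
    rank_cut (fun w => w + 1) (fun s t h => Sym.cubeJ_ne h) _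
      fun v hv x hx h => injective_from N v 1 x hx (by omega) (by rwa [pow_one])
  have hB : B.rank = #(univ.filter fun s : Cube N => 2 * wt s + 1 ≤ N) := by
    rw [← rank_transpose, transpose_mul, show (cut N fun v => 2 * v + 1 ≤ N)ᵀ = cut N fun v => 2 * v + 1 ≤ N
      from diagonal_transpose _]
    exact rank_cut (fun w => w - 1) (fun s t h => by have := Sym.cubeJ_ne (s := t) (t := s) h; omega) _
      fun v hv x hx h => injective_into N v 1 x hx (by omega) (by rwa [pow_one])
  set X := LinearMap.range A.mulVecLin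
  set Y := LinearMap.range B.mulVecLin
  have hdis : X ⊓ Y = ⊥ := by
    refine (Submodule.eq_bot_iff _).2 fun y hy => ?_
    obtain ⟨z, hz⟩ := hy.1
    obtain ⟨z', hz'⟩ := hy.2
    funext s
    show y s = 0
    by_cases hs : 2 * wt s + 1 ≤ N
    · rw [← hz]
      refine sum_eq_zero fun t _ => mul_eq_zero_of_left ?_ _
      show (J * cut N fun v => N + 2 ≤ 2 * v) s t = 0
      rw [cut, mul_diagonal]
      by_cases h : J s t = 0
      · rw [h, zero_mul]
      · rw [if_neg (by rw [Sym.cubeJ_ne h]; omega), mul_zero]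
    · rw [← hz']
      refine sum_eq_zero fun t _ => mul_eq_zero_of_left ?_ _
      show (cut N (fun v => 2 * v + 1 ≤ N) * J) s t = 0
      rw [cut, diagonal_mul, if_neg hs, zero_mul]
  have hX : X ≤ LinearMap.range J.mulVecLin := by
    simp only [X, A, Matrix.mulVecLin_mul]
    exact LinearMap.range_comp_le_range _ _
  have hY : Y ≤ LinearMap.range J.mulVecLin := by
    have e : B = J * cut N fun v => 2 * v ≤ N + 1 := by
      ext s t
      simp only [B, cut, diagonal_mul, mul_diagonal]
      by_cases h : J s t = 0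
      · simp [h]
      · rw [Sym.cubeJ_ne h]
        by_cases h2 : 2 * wt s + 1 ≤ N
        · rw [if_pos h2, if_pos (show 2 * (wt s + 1) ≤ N + 1 by omega)]; ring
        · rw [if_neg h2, if_neg (show ¬ 2 * (wt s + 1) ≤ N + 1 by omega)]; ring
    simp only [Y, e, Matrix.mulVecLin_mul]
    exact LinearMap.range_comp_le_range _ _
  have h1 := Submodule.finrank_sup_add_finrank_inf_eq X Y
  rw [hdis, finrank_bot, add_zero] at h1
  have h2 := Submodule.finrank_mono (sup_le hX hY)
  have hXr : Module.finrank ℂ X = A.rank := rfl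
  have hYr : Module.finrank ℂ Y = B.rank := rfl
  have h3 := LinearMap.finrank_range_add_finrank_ker J.mulVecLin
  rw [Module.finrank_fintype_fun_eq_card] at h3
  have h4 : Fintype.card (Cube N) ≤ #(univ.filter fun s : Cube N => N + 2 ≤ 2 * wt s)
      + #(univ.filter fun s : Cube N => 2 * wt s + 1 ≤ N)
      + #(univ.filter fun s : Cube N => wt s = (N + 1) / 2) := by
    rw [← card_univ]
    refine le_trans (card_le_card (t := ((univ.filter fun s : Cube N => N + 2 ≤ 2 * wt s)
      ∪ (univ.filter fun s : Cube N => 2 * wt s + 1 ≤ N))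
      ∪ (univ.filter fun s : Cube N => wt s = (N + 1) / 2)) fun s _ => by
        simp only [mem_union, mem_filter, mem_univ, true_and]
        omega) ?_
    exact (card_union_le _ _).trans (add_le_add (card_union_le _ _) le_rfl)
  rw [card_weight] at h4
  omega

end

end Vale.Agent.P131.CubeRank

namespace Vale.Agent.P131

/-- The rank lemma of the cube. -/
theorem rankSpec : RankSpec := by
  refine ⟨CubeRank.injective_from, CubeRank.injective_into, fun N => ?_⟩
  have h1 := (Nat.cast_le (α := ℝ)).2 (CubeRank.kernel_le N)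
  have h2 : ((N.choose ((N + 1) / 2) : ℝ)) * Real.sqrt (N + 1) ≤ 2 ^ N := by
    refine abs_le_of_sq_le_sq' ?_ (by positivity) |>.2
    rw [mul_pow, Real.sq_sqrt (by positivity)]
    have h3 := (Nat.cast_le (α := ℝ)).2 (CubeRank.choose_bound N)
    push_cast at h3
    calc _ ≤ (4 : ℝ) ^ N := h3
      _ = (2 ^ N) ^ 2 := by rw [← pow_mul, mul_comm, pow_mul]; norm_num
  exact (mul_le_mul_of_nonneg_right h1 (Real.sqrt_nonneg _)).trans h2

end Vale.Agent.P131
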