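import Vale.Agent.P131.Basic

/-!
# P131: nonpositive gaps force a scalar family
-/

namespace Vale.Agent.P131

open scoped Matrix ComplexOrder
open Filter Topology

noncomputable section

variable {r : ℕ → ℕ} {L M : ℕ}

theorem gapCohSpec : GapCohSpec := by
  intro r F L M h i
  rw [← F.coh L M h]
  unfold gapI
  simp only [cexp_apply, sum_join h, join_head, Complex.mul_re, Complex.re_sum]
  rw [card_idx h, Nat.cast_mul, Finset.sum_div, Finset.sum_div]
  refine Finset.sum_congr rfl fun u _ => ?_
  have hr : ((Fintype.card (Tail r L M) : ℂ)⁻¹).re = (Fintype.card (Tail r L M) : ℝ)⁻¹ := by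
    rw [← Complex.ofReal_natCast, ← Complex.ofReal_inv, Complex.ofReal_re]
  have hi : ((Fintype.card (Tail r L M) : ℂ)⁻¹).im = 0 := by
    rw [← Complex.ofReal_natCast, ← Complex.ofReal_inv, Complex.ofReal_im]
  rw [hr, hi, zero_mul, sub_zero, ← Finset.mul_sum]
  field_simp

section Trace

variable {I : Type*} [Fintype I] [DecidableEq I]

/-- The real part of the normalised trace. -/
def ntr (A : Matrix I I ℂ) : ℝ := A.trace.re / Fintype.card I

omit [DecidableEq I] in
lemma ntr_mul_comm (A B : Matrix I I ℂ) : ntr (A * B) = ntr (B * A) := by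
  rw [ntr, ntr, Matrix.trace_mul_comm]

omit [DecidableEq I] in
lemma ntr_sub (A B : Matrix I I ℂ) : ntr (A - B) = ntr A - ntr B := by
  rw [ntr, ntr, ntr, Matrix.trace_sub, Complex.sub_re, sub_div]

omit [DecidableEq I] in
lemma ntr_nonneg {A : Matrix I I ℂ} (h : A.PosSemidef) : 0 ≤ ntr A :=
  div_nonneg (Complex.le_def.1 h.trace_nonneg).1 (Nat.cast_nonneg _)

omit [DecidableEq I] in
lemma abs_ntr_le (A B : Matrix I I ℂ) :
    |ntr (Aᴴ * B)| ≤ Real.sqrt (nsq A * nsq B) := by
  refine Real.abs_le_sqrt ?_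
  unfold ntr nsq
  rw [div_mul_div_comm, div_pow, ← pow_two (Fintype.card I : ℝ)]
  refine div_le_div_of_nonneg_right ?_ (by positivity)
  have h1 : |(Aᴴ * B).trace.re| ≤ ∑ p : I × I, ‖A p.1 p.2‖ * ‖B p.1 p.2‖ := by
    refine (Complex.abs_re_le_norm _).trans ?_
    rw [Matrix.trace, Fintype.sum_prod_type]
    rw [Finset.sum_comm]
    refine (norm_sum_le _ _).trans (Finset.sum_le_sum fun y _ => ?_)
    rw [Matrix.diag_apply, Matrix.mul_apply]
    exact (norm_sum_le _ _).trans (le_of_eq (by simp))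
  calc (Aᴴ * B).trace.re ^ 2 = |(Aᴴ * B).trace.re| ^ 2 := (sq_abs _).symm
    _ ≤ (∑ p : I × I, ‖A p.1 p.2‖ * ‖B p.1 p.2‖) ^ 2 :=
        pow_le_pow_left₀ (abs_nonneg _) h1 2
    _ ≤ (∑ p : I × I, ‖A p.1 p.2‖ ^ 2) * ∑ p : I × I, ‖B p.1 p.2‖ ^ 2 :=
        Finset.sum_mul_sq_le_sq_mul_sq _ _ _
    _ = _ := by rw [Fintype.sum_prod_type, Fintype.sum_prod_type]

lemma Contr.mul_one_sub_posSemidef {A : Matrix I I ℂ} (hA : Contr A) :
    (A - A * A).PosSemidef := by
  obtain ⟨h1, h2⟩ := hA
  have e : A - A * A = Aᴴ * (1 - A) * A + (1 - A)ᴴ * A * (1 - A) := by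
    rw [h1.1.eq, h2.1.eq]
    noncomm_ring
  rw [e]
  exact (h2.conjTranspose_mul_mul_same _).add (h1.conjTranspose_mul_mul_same _)

lemma ntr_sandwich_le {A : Matrix I I ℂ} (hA : Contr A) (X : Matrix I I ℂ) :
    ntr (Xᴴ * (A * A) * X) ≤ ntr (Xᴴ * A * X) := by
  have := ntr_nonneg (hA.mul_one_sub_posSemidef.conjTranspose_mul_mul_same X)
  rw [Matrix.mul_sub, Matrix.sub_mul, ntr_sub] at this
  linarith

/-- The identity behind the rigidity. -/
lemma nsq_star_le {Q V : Matrix I I ℂ} (hQ : Contr Q) :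
    nsq ((1 - Q) * Vᴴ * Q) ≤ (ntr (V * Vᴴ * Q) - ntr (Vᴴ * V * Q))
      + 2 * Real.sqrt (nsq V * nsq ((1 - Q) * V * Q)) := by
  have hQh : Qᴴ = Q := hQ.1.1.eq
  have hqh : (1 - Q)ᴴ = 1 - Q := hQ.2.1.eq
  have h1 : nsq ((1 - Q) * Vᴴ * Q) ≤ ntr ((Vᴴ * Q)ᴴ * (1 - Q) * (Vᴴ * Q)) := by
    refine le_trans (le_of_eq ?_) (ntr_sandwich_le hQ.one_sub (Vᴴ * Q))
    rw [nsq_eq_trace, ntr]
    simp only [Matrix.conjTranspose_mul, hqh, Matrix.mul_assoc]
  have h2 : ntr (V * Vᴴ * (Q * Q)) ≤ ntr (V * Vᴴ * Q) := by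
    have := ntr_sandwich_le hQ V
    rw [ntr_mul_comm (Vᴴ * (Q * Q)) V, ntr_mul_comm (Vᴴ * Q) V] at this
    simpa only [Matrix.mul_assoc] using this
  have h3 : ntr ((Vᴴ * Q)ᴴ * (1 - Q) * (Vᴴ * Q))
      = ntr (V * Vᴴ * (Q * Q)) - ntr (Vᴴ * (Q * Q) * V * Q) := by
    have e : (Vᴴ * Q)ᴴ * (1 - Q) * (Vᴴ * Q) = Q * (V * Vᴴ * Q) - (Q * V) * (Q * Vᴴ * Q) := by
      rw [Matrix.conjTranspose_mul, Matrix.conjTranspose_conjTranspose, hQh]
      noncomm_ring
    rw [e, ntr_sub]
    congr 1
    · rw [ntr_mul_comm]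
      simp only [Matrix.mul_assoc]
    · rw [ntr_mul_comm (Q * V) (Q * Vᴴ * Q)]
      calc ntr (Q * Vᴴ * Q * (Q * V)) = ntr (Q * (Vᴴ * (Q * Q) * V)) := by
            simp only [Matrix.mul_assoc]
        _ = _ := ntr_mul_comm _ _
  have h4 : ntr (Vᴴ * V * Q) - ntr (Vᴴ * (Q * Q) * V * Q)
      ≤ 2 * Real.sqrt (nsq V * nsq ((1 - Q) * V * Q)) := by
    rw [← ntr_sub]
    have e : Vᴴ * V * Q - Vᴴ * (Q * Q) * V * Q
        = Vᴴ * (((1 - Q) * V * Q) + Q * ((1 - Q) * V * Q)) := by noncomm_ring
    rw [e, Matrix.mul_add, ntr, Matrix.trace_add, Complex.add_re, add_div, ← ntr, ← ntr]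
    have a1 := abs_ntr_le V ((1 - Q) * V * Q)
    have a2 := abs_ntr_le V (Q * ((1 - Q) * V * Q))
    have a3 : Real.sqrt (nsq V * nsq (Q * ((1 - Q) * V * Q)))
        ≤ Real.sqrt (nsq V * nsq ((1 - Q) * V * Q)) :=
      Real.sqrt_le_sqrt (mul_le_mul_of_nonneg_left (nsq_contr_mul_le hQ _) (nsq_nonneg _))
    linarith [abs_le.1 a1, abs_le.1 a2]
  linarith

lemma nsq_commutator_le {Q : Matrix I I ℂ} (hQ : Contr Q) (g : Matrix I I ℂ) :
    nsq (Q * g - g * Q) ≤ 2 * nsq ((1 - Q) * gᴴ * Q) + 2 * nsq ((1 - Q) * g * Q) := by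
  have e : Q * g - g * Q = Q * g * (1 - Q) - (1 - Q) * g * Q := by noncomm_ring
  have e2 : ((1 - Q) * gᴴ * Q)ᴴ = Q * g * (1 - Q) := by
    simp only [Matrix.conjTranspose_mul, Matrix.conjTranspose_conjTranspose, hQ.1.1.eq,
      hQ.2.1.eq, Matrix.mul_assoc]
  rw [e]
  refine (nsq_sub_le _ _).trans (le_of_eq ?_)
  rw [← e2, nsq_conjTranspose]

end Trace

/-- The defect of invariance of `Q M` under `lift g`, zero below level `L`. -/
def invDefect (F : Family r) (g : Mat r L) (M : ℕ) : ℝ :=
  if h : L ≤ M then nsq ((1 - F.Q M) * lift h g * F.Q M) else 0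

/-- Asymptotic invariance in both directions gives exact commutation. -/
lemma commute_of_invDefect (F : Family r) (g : Mat r L)
    (h1 : Tendsto (invDefect F g) atTop (𝓝 0))
    (h2 : Tendsto (invDefect F gᴴ) atTop (𝓝 0)) : Commute (F.Q L) g := by
  refine sub_eq_zero.1 (eq_zero_of_nsq_nonpos ?_)
  have key : ∀ᶠ M in atTop, nsq (F.Q L * g - g * F.Q L)
      ≤ 2 * invDefect F gᴴ M + 2 * invDefect F g M := by
    refine eventually_atTop.2 ⟨L, fun M hM => ?_⟩
    have e : F.Q L * g - g * F.Q L = cexp hM (F.Q M * lift hM g - lift hM g * F.Q M) := by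
      rw [cexp_sub, cexp_mul_lift, cexp_lift_mul, F.coh L M hM]
    rw [e]
    refine (nsq_cexp_le _ _).trans ((nsq_commutator_le (F.contr M) _).trans (le_of_eq ?_))
    simp only [invDefect, dif_pos hM, lift_conjTranspose]
  have lim := (h2.const_mul (2 : ℝ)).add (h1.const_mul 2)
  simpa using ge_of_tendsto lim key

lemma tendsto_invDefect (F : Family r) {g : Mat r L} (hg : Commute g (tmat r L)) :
    Tendsto (invDefect F g) atTop (𝓝 0) := F.inv L g hg

lemma siteOp_commute_tmat {a : Fin L} {g : Matrix (Site r a) (Site r a) ℂ}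
    (hg : Commute g (siteX r a)) : Commute (siteOp a g) (tmat r L) := by
  refine Commute.sum_right _ _ _ fun b _ => ?_
  by_cases hb : a = b
  · subst hb
    show _ = _
    rw [← siteOp_mul, ← siteOp_mul, hg.eq]
  · exact siteOp_comm hb _ _

/-- `1 ⊗ |b><b'|` at one site. -/
def bitUnit (r : ℕ → ℕ) (a : ℕ) (b b' : Bool) : Matrix (Site r a) (Site r a) ℂ :=
  Matrix.of fun u v => if u.1 = v.1 ∧ u.2 = b ∧ v.2 = b' then 1 else 0

/-- `|k><l| ⊗ diag(α, β)` at one site. -/
def selUnit (r : ℕ → ℕ) (a : ℕ) (k l : Fin (r a + 1)) (α β : ℂ) :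
    Matrix (Site r a) (Site r a) ℂ :=
  Matrix.of fun u v => if u.1 = k ∧ v.1 = l ∧ u.2 = v.2 then (if u.2 then β else α) else 0

lemma bitUnit_mul (a : ℕ) (b b' c c' : Bool) :
    bitUnit r a b b' * bitUnit r a c c' = if b' = c then bitUnit r a b c' else 0 := by
  ext u v
  simp only [bitUnit, Matrix.mul_apply, Matrix.of_apply, Fintype.sum_prod_type]
  rw [Finset.sum_eq_single u.1 (fun w _ hw => by simp [Ne.symm hw]) (by simp)]
  rw [Fintype.sum_bool]
  obtain ⟨u1, u2⟩ := u
  obtain ⟨v1, v2⟩ := v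
  by_cases h : u1 = v1 <;> cases b <;> cases b' <;> cases c <;> cases c' <;> cases u2 <;>
    cases v2 <;> simp [h]

lemma bitUnit_conjTranspose (a : ℕ) (b b' : Bool) :
    (bitUnit r a b b')ᴴ = bitUnit r a b' b := by
  ext u v
  simp only [bitUnit, Matrix.conjTranspose_apply, Matrix.of_apply]
  by_cases h : u.1 = v.1
  · simp [h, and_comm]
  · simp [h, Ne.symm h]

lemma selUnit_conjTranspose (a : ℕ) (k l : Fin (r a + 1)) :
    (selUnit r a k l 1 1)ᴴ = selUnit r a l k 1 1 := by
  ext u v
  simp only [selUnit, Matrix.conjTranspose_apply, Matrix.of_apply]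
  by_cases h : u.2 = v.2
  · simp [h, and_comm]
  · simp [h, Ne.symm h]

lemma selUnit_mul_diag (a : ℕ) (k l : Fin (r a + 1)) (α β α' β' : ℂ) :
    selUnit r a k l α β * (α' • bitUnit r a false false + β' • bitUnit r a true true)
      = selUnit r a k l (α * α') (β * β') := by
  ext u v
  simp only [Matrix.mul_apply, Fintype.sum_prod_type, selUnit, bitUnit, Matrix.of_apply,
    Matrix.add_apply, Matrix.smul_apply, smul_eq_mul]
  rw [Finset.sum_eq_single l (fun w _ hw => by simp [hw]) (by simp), Fintype.sum_bool]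
  obtain ⟨u1, u2⟩ := u
  obtain ⟨v1, v2⟩ := v
  by_cases h1 : u1 = k <;> by_cases h2 : l = v1 <;> cases u2 <;> cases v2 <;>
    simp [h1, h2, eq_comm (a := v1)]

lemma bitUnit_commute_siteX (a : ℕ) : Commute (bitUnit r a false true) (siteX r a) := by
  show _ = _
  ext u v
  simp only [bitUnit, siteX, Matrix.mul_apply, Matrix.of_apply]
  rw [Finset.sum_eq_zero, Finset.sum_eq_zero]
  · intro w _
    cases w.2 <;> simp
  · intro w _
    cases w.2 <;> simp

lemma selUnit_commute_siteX (a : ℕ) (k l : Fin (r a + 1)) :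
    Commute (selUnit r a k l (coef a k : ℂ) (coef a l : ℂ)) (siteX r a) := by
  show _ = _
  ext u v
  simp only [selUnit, siteX, Matrix.mul_apply, Matrix.of_apply, Fintype.sum_prod_type,
    Fintype.sum_bool]
  rw [Finset.sum_eq_single l (fun w _ hw => by simp [hw]) (by simp),
    Finset.sum_eq_single k (fun w _ hw => by simp [hw]) (by simp)]
  obtain ⟨u1, u2⟩ := u
  obtain ⟨v1, v2⟩ := v
  by_cases h1 : u1 = k <;> by_cases h2 : l = v1 <;> cases u2 <;> cases v2 <;>
    simp [h1, h2, eq_comm (a := v1), mul_comm]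

lemma nsq_one : nsq (1 : Mat r L) = 1 := by
  have hI : (Fintype.card (Idx r L) : ℝ) ≠ 0 := Nat.cast_ne_zero.2 Fintype.card_ne_zero
  simp only [nsq, Matrix.one_apply, apply_ite (fun z : ℂ => ‖z‖ ^ 2), norm_one, one_pow,
    norm_zero, zero_pow two_ne_zero, Finset.sum_ite_eq, Finset.mem_univ, if_true,
    Finset.sum_const, Finset.card_univ, nsmul_eq_mul, mul_one]
  exact div_self hI

lemma nsq_bit_le (a : Fin L) : nsq (siteOp a (bitUnit r a false true)) ≤ fsq (bitUnit r a false true) := by
  have h := fsq_site_bound a (bitUnit r a false true) (1 : Mat r L)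
  rw [Matrix.mul_one] at h
  rwa [nsq_one, mul_one] at h

lemma gapI_eq_ntr (F : Family r) (a : Fin L) :
    gapI (F.Q L) a = ntr (siteOp a (bitUnit r a false false) * F.Q L)
      - ntr (siteOp a (bitUnit r a true true) * F.Q L) := by
  unfold gapI ntr
  rw [← sub_div]
  congr 1
  simp only [Matrix.trace, Matrix.diag_apply, Complex.re_sum, ← Finset.sum_sub_distrib]
  refine Finset.sum_congr rfl fun x _ => ?_
  rw [siteOp_mul_apply, siteOp_mul_apply,
    Finset.sum_eq_single (x a), Finset.sum_eq_single (x a)]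
  · rw [Function.update_eq_self]
    cases hx : (x a).2 <;> simp [bitUnit, sgn, hx]
  · intro v _ hv
    have : bitUnit r a true true (x a) v = 0 := by
      simp only [bitUnit, Matrix.of_apply]
      exact if_neg fun h => hv (Prod.ext h.1.symm (h.2.2.trans h.2.1.symm))
    simp [this]
  · simp
  · intro v _ hv
    have : bitUnit r a false false (x a) v = 0 := by
      simp only [bitUnit, Matrix.of_apply]
      exact if_neg fun h => hv (Prod.ext h.1.symm (h.2.2.trans h.2.1.symm))
    simp [this]
  · simp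

lemma commute_bit (F : Family r) (hgap : ∀ L (i : Fin L), gapI (F.Q L) i ≤ 0) (L : ℕ) (a : Fin L)
    (b b' : Bool) : Commute (F.Q L) (siteOp a (bitUnit r a b b')) := by
  have hV : Commute (F.Q L) (siteOp a (bitUnit r a false true)) := by
    set V := siteOp a (bitUnit r a false true) with hVdef
    have t1 : Tendsto (invDefect F V) atTop (𝓝 0) :=
      tendsto_invDefect F (siteOp_commute_tmat (bitUnit_commute_siteX a))
    refine commute_of_invDefect F V t1 ?_
    refine squeeze_zero' (Eventually.of_forall fun M => ?_) ?_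
      (g := fun M => 2 * Real.sqrt (fsq (bitUnit r a false true) * invDefect F V M)) ?_
    · unfold invDefect
      split_ifs
      · exact nsq_nonneg _
      · exact le_rfl
    · refine eventually_atTop.2 ⟨L, fun M hM => ?_⟩
      have hb : nsq (lift hM V) ≤ fsq (bitUnit r a false true) := by
        rw [nsq_lift]
        exact nsq_bit_le a
      simp only [invDefect, dif_pos hM]
      rw [lift_conjTranspose]
      refine (nsq_star_le (F.contr M)).trans ?_
      have e1 : lift hM V * (lift hM V)ᴴ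
          = siteOp (Fin.castLE hM a) (bitUnit r a false false) := by
        rw [hVdef, lift_siteOp, ← siteOp_conjTranspose, ← siteOp_mul]
        congr 1
        rw [bitUnit_conjTranspose]
        exact (bitUnit_mul _ _ _ _ _).trans (if_pos rfl)
      have e2 : (lift hM V)ᴴ * lift hM V
          = siteOp (Fin.castLE hM a) (bitUnit r a true true) := by
        rw [hVdef, lift_siteOp, ← siteOp_conjTranspose, ← siteOp_mul]
        congr 1
        rw [bitUnit_conjTranspose]
        exact (bitUnit_mul _ _ _ _ _).trans (if_pos rfl)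
      rw [e1, e2]
      have hg := gapI_eq_ntr F (Fin.castLE hM a)
      have h0 := hgap M (Fin.castLE hM a)
      have h2 := Real.sqrt_le_sqrt (mul_le_mul_of_nonneg_right hb
        (nsq_nonneg ((1 - F.Q M) * lift hM V * F.Q M)))
      exact le_trans (add_le_add (hg ▸ h0) (mul_le_mul_of_nonneg_left h2 two_pos.le))
        (le_of_eq (zero_add _))
    · simpa using ((t1.const_mul (fsq (bitUnit r a false true))).sqrt).const_mul (2 : ℝ)
  have hV' : Commute (F.Q L) (siteOp a (bitUnit r a true false)) := by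
    have := congrArg Matrix.conjTranspose hV.eq
    simp only [Matrix.conjTranspose_mul, (F.contr L).1.1.eq, ← siteOp_conjTranspose,
      bitUnit_conjTranspose] at this
    exact this.symm
  cases b <;> cases b'
  · have h := hV.mul_right hV'
    rwa [← siteOp_mul, bitUnit_mul, if_pos rfl] at h
  · exact hV
  · exact hV'
  · have h := hV'.mul_right hV
    rwa [← siteOp_mul, bitUnit_mul, if_pos rfl] at h

lemma commute_sel (F : Family r) (hgap : ∀ L (i : Fin L), gapI (F.Q L) i ≤ 0) (L : ℕ) (a : Fin L)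
    (k l : Fin (r a + 1)) : Commute (F.Q L) (siteOp a (selUnit r a k l 1 1)) := by
  have key : ∀ k l : Fin (r a + 1),
      Tendsto (invDefect F (siteOp a (selUnit r a k l 1 1))) atTop (𝓝 0) := by
    intro k l
    set α : ℂ := ((coef a k : ℝ) : ℂ)
    set β : ℂ := ((coef a l : ℝ) : ℂ)
    have hc : ∀ k : ℕ, ((coef a k : ℝ) : ℂ) ≠ 0 := fun k =>
      Complex.ofReal_ne_zero.2 (pow_ne_zero _ (by norm_num))
    set D : Matrix (Site r a) (Site r a) ℂ :=
      α⁻¹ • bitUnit r a false false + β⁻¹ • bitUnit r a true true with hD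
    have tG : Tendsto (invDefect F (siteOp a (selUnit r a k l α β))) atTop (𝓝 0) :=
      tendsto_invDefect F (siteOp_commute_tmat (selUnit_commute_siteX a k l))
    refine squeeze_zero' (Eventually.of_forall fun M => ?_) ?_
      (g := fun M => fsq (siteOp a D) * invDefect F (siteOp a (selUnit r a k l α β)) M) ?_
    · unfold invDefect
      split_ifs
      · exact nsq_nonneg _
      · exact le_rfl
    · refine eventually_atTop.2 ⟨L, fun M hM => ?_⟩
      simp only [invDefect, dif_pos hM]
      have e : lift hM (siteOp a (selUnit r a k l 1 1))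
          = lift hM (siteOp a (selUnit r a k l α β)) * lift hM (siteOp a D) := by
        rw [← lift_mul, ← siteOp_mul, hD, selUnit_mul_diag, mul_inv_cancel₀ (hc k),
          mul_inv_cancel₀ (hc l)]
      have hcomm : Commute (F.Q M) (lift hM (siteOp a D)) := by
        rw [lift_siteOp, hD, siteOp_add, siteOp_smul, siteOp_smul]
        exact ((commute_bit F hgap M _ _ _).smul_right _).add_right
          ((commute_bit F hgap M _ _ _).smul_right _)
      have e' : (1 - F.Q M) * lift hM (siteOp a (selUnit r a k l 1 1)) * F.Q M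
          = (1 - F.Q M) * lift hM (siteOp a (selUnit r a k l α β)) * F.Q M
              * lift hM (siteOp a D) := by
        rw [e]
        simp only [Matrix.mul_assoc, hcomm.eq]
      rw [e']
      exact nsq_mul_lift_le hM _ _
    · simpa using tG.const_mul (fsq (siteOp a D))
  refine commute_of_invDefect F _ (key k l) ?_
  rw [← siteOp_conjTranspose, selUnit_conjTranspose]
  exact key l k

lemma single_site (a : ℕ) (p q : Site r a) :
    selUnit r a p.1 q.1 1 1 * bitUnit r a p.2 q.2 = Matrix.single p q 1 := by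
  ext u v
  simp only [Matrix.mul_apply, Fintype.sum_prod_type, selUnit, bitUnit, Matrix.of_apply]
  rw [Finset.sum_eq_single q.1 (fun w _ hw => by simp [hw]) (by simp), Fintype.sum_bool]
  obtain ⟨u1, u2⟩ := u
  obtain ⟨v1, v2⟩ := v
  obtain ⟨p1, p2⟩ := p
  obtain ⟨q1, q2⟩ := q
  by_cases h1 : u1 = p1 <;> by_cases h2 : q1 = v1 <;> cases u2 <;> cases v2 <;> cases p2 <;>
    cases q2 <;> simp [h1, h2, eq_comm (a := p1)]

lemma family_scalar (F : Family r) (hgap : ∀ L (i : Fin L), gapI (F.Q L) i ≤ 0) (L : ℕ) :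
    ∃ z : ℂ, F.Q L = z • 1 := by
  set Q := F.Q L
  have hu : ∀ (a : Fin L) (p q : Site r a), Commute Q (siteOp a (Matrix.single p q 1)) := by
    intro a p q
    rw [← single_site, siteOp_mul]
    exact (commute_sel F hgap L a _ _).mul_right (commute_bit F hgap L a _ _)
  have hR : ∀ (a : Fin L) (p q : Site r a) (x y : Idx r L),
      (Q * siteOp a (Matrix.single p q 1)) x y
        = if y a = q then Q x (Function.update y a p) else 0 := by
    intro a p q x y
    rw [Matrix.mul_apply]
    simp only [siteOp_apply, Matrix.single_apply]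
    rw [Finset.sum_eq_single (Function.update y a p)]
    · by_cases hy : y a = q
      · simp +contextual [hy, Function.update_of_ne]
      · simp [hy, Ne.symm hy]
    · intro z _ hz
      split_ifs with h1 h2 <;> try rw [mul_zero]
      exact absurd (funext fun b => if hb : b = a then by subst hb; simp [h2.1]
        else by rw [Function.update_of_ne hb]; exact h1 b hb) hz
    · simp
  have hL' : ∀ (a : Fin L) (p q : Site r a) (x y : Idx r L),
      (siteOp a (Matrix.single p q 1) * Q) x y
        = if x a = p then Q (Function.update x a q) y else 0 := by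
    intro a p q x y
    rw [siteOp_mul_apply, Finset.sum_eq_single q]
    · by_cases hx : x a = p
      · simp [hx]
      · simp [hx, Ne.symm hx]
    · intro v _ hv
      simp [Ne.symm hv]
    · simp
  have offdiag : ∀ x y, x ≠ y → Q x y = 0 := by
    intro x y hxy
    obtain ⟨a, ha⟩ := Function.ne_iff.1 hxy
    have h := congrFun (congrFun (hu a (x a) (x a)).eq x) y
    rw [hR, hL', if_pos rfl, if_neg (Ne.symm ha), Function.update_eq_self] at h
    exact h.symm
  have step : ∀ (x : Idx r L) (a : Fin L) (v : Site r a),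
      Q (Function.update x a v) (Function.update x a v) = Q x x := by
    intro x a v
    have h := congrFun (congrFun (hu a v (x a)).eq (Function.update x a v)) x
    rw [hR, hL', if_pos rfl, if_pos (Function.update_self _ _ _), Function.update_idem,
      Function.update_eq_self] at h
    exact h
  let o : Idx r L := fun _ => (0, false)
  have diag : ∀ x, Q x x = Q o o := by
    have : ∀ s : Finset (Fin L), ∀ x : Idx r L, (∀ a ∉ s, x a = o a) → Q x x = Q o o := by
      intro s
      induction s using Finset.induction_on with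
      | empty => exact fun x hx => by rw [funext fun a => hx a (Finset.notMem_empty a)]
      | insert a s _ ih =>
        intro x hx
        rw [← step x a (o a)]
        refine ih _ fun b hb => ?_
        by_cases hba : b = a
        · subst hba; simp
        · rw [Function.update_of_ne hba]
          exact hx b (by simp [hba, hb])
    exact fun x => this Finset.univ x fun a ha => absurd (Finset.mem_univ a) ha
  refine ⟨Q o o, ?_⟩
  ext x y
  by_cases hxy : x = y
  · subst hxy
    simp [diag x]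
  · simp [offdiag x y hxy, Matrix.one_apply_ne hxy]

theorem rigidSpec : RigidSpec := by
  intro r F hgap
  obtain ⟨z, hz⟩ := family_scalar F hgap 0
  have hall : ∀ L, F.Q L = z • 1 := by
    intro L
    obtain ⟨w, hw⟩ := family_scalar F hgap L
    have h := F.coh 0 L (Nat.zero_le L)
    rw [hw, hz, cexp_smul, cexp_one] at h
    have := congrFun (congrFun h fun _ => (0, false)) fun _ => (0, false)
    simp at this
    rw [hw, this]
  have h1 : ∀ L, nsq (F.Q L - F.Q L * F.Q L) = ‖z - z * z‖ ^ 2 := by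
    intro L
    have e : F.Q L - F.Q L * F.Q L = (z - z * z) • (1 : Mat r L) := by
      rw [hall L, sub_smul, Matrix.smul_mul, Matrix.one_mul, smul_smul]
    rw [e, nsq_smul, nsq_one, mul_one]
  have hzz : z - z * z = 0 := by
    have h := tendsto_nhds_unique tendsto_const_nhds (F.proj.congr h1)
    simpa using h
  have : z * (1 - z) = 0 := by rw [mul_sub, mul_one, hzz]
  rcases mul_eq_zero.1 this with h | h
  · exact Or.inl fun L => by rw [hall L, h, zero_smul]
  · exact Or.inr fun L => by rw [hall L, ← sub_eq_zero.1 h, one_smul]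

end

end Vale.Agent.P131
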