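import Vale.Agent.P131.Defs

/-!
# P131: `l²(ℕ)` is separable and infinite-dimensional
-/

namespace Vale.Agent.P131

open scoped Topology

noncomputable section

/-- The standard basis of `l²(ℕ)`. -/
def ell2Basis : HilbertBasis ℕ ℂ Ell2 :=
  HilbertBasis.ofRepr (LinearIsometryEquiv.refl ℂ Ell2)

theorem separableSpace_ell2 : TopologicalSpace.SeparableSpace Ell2 := by
  rw [← TopologicalSpace.isSeparable_univ_iff]
  have h := ((Set.countable_range ell2Basis).isSeparable.span (R := ℂ)).closure
  have hd := ell2Basis.dense_span
  rw [← Submodule.top_coe (R := ℂ), ← hd, Submodule.topologicalClosure_coe]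
  exact h

theorem not_finiteDimensional_ell2 : ¬ FiniteDimensional ℂ Ell2 := fun _ =>
  have : Finite ℕ := ell2Basis.orthonormal.linearIndependent.finite
  not_finite ℕ

end

end Vale.Agent.P131
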