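import Vale.Agent.P131.SymWt

/-!
# P131: half of a symmetric invariant projection lies in `|1>` at each site
-/

namespace Vale.Agent.P131.Sym

open scoped Matrix ComplexOrder
open Matrix Finset

noncomputable section

variable {N : ℕ} {i : Fin N}

/-- `n_i = |0><0|` at site `i`. -/
def nP (i : Fin N) : CMat N := Matrix.diagonal fun s => if s i = false then 1 else 0

/-- `1 - n_i`. -/
def mP (i : Fin N) : CMat N := Matrix.diagonal fun s => if s i = true then 1 else 0

theorem nP_add_mP (i : Fin N) : nP i + mP i = 1 := by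
  rw [nP, mP, diagonal_add, ← diagonal_one]
  congr 1
  funext s
  cases s i <;> simp

theorem nP_mul_nP (i : Fin N) : nP i * nP i = nP i := by
  rw [nP, diagonal_mul_diagonal]
  congr 1
  funext s
  split_ifs <;> simp

theorem mP_mul_mP (i : Fin N) : mP i * mP i = mP i := by
  rw [mP, diagonal_mul_diagonal]
  congr 1
  funext s
  split_ifs <;> simp

theorem nP_conj (i : Fin N) : (nP i)ᴴ = nP i := by
  rw [nP, diagonal_conjTranspose]
  congr 1
  funext s
  simp only [Pi.star_apply]
  split_ifs <;> simp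

theorem mP_conj (i : Fin N) : (mP i)ᴴ = mP i := by
  rw [mP, diagonal_conjTranspose]
  congr 1
  funext s
  simp only [Pi.star_apply]
  split_ifs <;> simp

theorem nP_mul_V (i : Fin N) : nP i * cubeV i = cubeV i := by
  ext s t
  rw [nP, diagonal_mul]
  by_cases h : cubeV i s t = 0
  · simp [h]
  · simp [(cubeV_ne h).1]

theorem V_mul_mP (i : Fin N) : cubeV i * mP i = cubeV i := by
  ext s t
  rw [mP, mul_diagonal]
  by_cases h : cubeV i s t = 0
  · simp [h]
  · simp [(cubeV_ne h).2]

theorem V_mul_nP (i : Fin N) : cubeV i * nP i = 0 := by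
  ext s t
  rw [nP, mul_diagonal, Matrix.zero_apply]
  by_cases h : cubeV i s t = 0
  · simp [h]
  · simp [(cubeV_ne h).2]

theorem V_conj_mul (i : Fin N) : (cubeV i)ᴴ * cubeV i = mP i := by
  ext s u
  rw [mul_apply, mP, diagonal_apply, Finset.sum_eq_single (Function.update s i false)]
  · simp only [conjTranspose_apply, cubeV, of_apply, Function.update_self, true_and,
      Function.update_idem]
    by_cases h : s i = true
    · have e : Function.update s i true = s := by rw [← h, Function.update_eq_self]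
      simp only [e, h, if_true]
      by_cases hu : u = s
      · simp [hu]
      · simp [hu, Ne.symm hu]
    · have e : s ≠ Function.update s i true := fun e => h (by rw [e]; simp)
      simp [h, e]
  · intro t _ ht
    by_contra hn
    have h1 : cubeV i t s ≠ 0 := fun e => hn (by simp [conjTranspose_apply, e])
    obtain ⟨a, b⟩ := cubeV_ne h1
    exact ht (by rw [b, Function.update_idem, ← a, Function.update_eq_self])
  · simp

theorem inv_nP (i : Fin N) : Inv {i} (nP i) := fun σ hσ s t => by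
  have e : (s ∘ σ = t ∘ σ) = (s = t) := propext σ.surjective.injective_comp_right.eq_iff
  simp [nP, diagonal_apply, e, hσ i (by simp)]

/-- The variance of the weight on the cube. -/
theorem sum_dev_sq : ∀ N : ℕ,
    (∑ s : Cube N, ((wt s : ℝ) - (N : ℝ) / 2) ^ 2) = (2 : ℝ) ^ N * ((N : ℝ) / 4) := by
  intro N
  induction N with
  | zero => simp [wt]
  | succ n ih =>
    rw [← Equiv.sum_comp (Fin.consEquiv fun _ : Fin (n + 1) => Bool)
      fun s : Cube (n + 1) => ((wt s : ℝ) - (n + 1 : ℕ) / 2) ^ 2, Fintype.sum_prod_type,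
      Fintype.sum_bool, ← sum_add_distrib]
    have hw : ∀ (b : Bool) (s : Cube n),
        wt (Fin.cons b s : Cube (n + 1)) = (if b = true then 1 else 0) + wt s := fun b s => by
      simp only [wt, card_filter, Fin.sum_univ_succ, Fin.cons_zero, Fin.cons_succ]
    have e : ∀ s : Cube n, ((wt (Fin.cons true s : Cube (n + 1)) : ℝ) - (n + 1 : ℕ) / 2) ^ 2
        + ((wt (Fin.cons false s : Cube (n + 1)) : ℝ) - (n + 1 : ℕ) / 2) ^ 2
        = 2 * ((wt s : ℝ) - n / 2) ^ 2 + 1 / 2 := fun s => by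
      simp only [hw, if_true, Bool.false_eq_true, if_false]
      push_cast
      ring
    refine (sum_congr rfl fun s _ => e s).trans ?_
    rw [sum_add_distrib, ← mul_sum, ih]
    simp
    ring

theorem trace_le_rank {B : CMat N} (hB : B.IsHermitian) {C : CMat N} (hC : B - B * B = Cᴴ * C) :
    B.trace.re ≤ (Module.finrank ℂ (LinearMap.range B.mulVecLin) : ℝ) := by
  classical
  have hle : ∀ j, hB.eigenvalues j ≤ if hB.eigenvalues j = 0 then 0 else 1 := fun j => by
    set l := hB.eigenvalues j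
    set v : Cube N → ℂ := ⇑(hB.eigenvectorBasis j)
    have h1 : B *ᵥ v = l • v := hB.mulVec_eigenvectorBasis j
    have h2 : (B - B * B) *ᵥ v = (l - l ^ 2) • v := by
      rw [sub_mulVec, ← mulVec_mulVec, h1, mulVec_smul, h1, smul_smul, sub_smul, sq]
    have h3 : 0 ≤ star v ⬝ᵥ ((B - B * B) *ᵥ v) := by
      rw [hC]
      exact (posSemidef_conjTranspose_mul_self C).dotProduct_mulVec_nonneg v
    have h4 : star v ⬝ᵥ v = 1 := by
      have h5 := hB.eigenvectorBasis.orthonormal.1 j
      have h6 := inner_self_eq_norm_sq_to_K (𝕜 := ℂ) (hB.eigenvectorBasis j)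
      rw [h5, EuclideanSpace.inner_eq_star_dotProduct, dotProduct_comm] at h6
      simpa using h6
    rw [h2, dotProduct_smul, h4, Complex.real_smul, mul_one, Complex.zero_le_real] at h3
    split_ifs with h
    · exact h.le
    · by_contra hlt
      have : 0 < l * (l - 1) := mul_pos (by linarith) (by linarith)
      linarith
  rw [hB.trace_eq_sum_eigenvalues, Complex.re_sum,
    show Module.finrank ℂ (LinearMap.range B.mulVecLin) = B.rank from rfl,
    hB.rank_eq_card_non_zero_eigs, Fintype.card_subtype, Finset.natCast_card_filter]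
  refine sum_le_sum fun j _ => ?_
  refine (show (hB.eigenvalues j : ℂ).re ≤ _ from (Complex.ofReal_re _).trans_le (hle j)).trans_eq ?_
  split_ifs <;> simp_all

/-- The kernel of `J - V_i` on `|1>` at site `i` is at most that of `J` one site below. -/
theorem finrank_ker_le {m : ℕ} (i : Fin (m + 1)) {S : Submodule ℂ (Cube (m + 1) → ℂ)}
    (hS : ∀ y ∈ S, ∀ s : Cube (m + 1), s i = false → y s = 0) :
    Module.finrank ℂ (LinearMap.ker (((cubeJ (m + 1) - cubeV i).mulVecLin).comp S.subtype))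
      ≤ Module.finrank ℂ (LinearMap.ker (cubeJ m).mulVecLin) := by
  classical
  set f := ((cubeJ (m + 1) - cubeV i).mulVecLin).comp S.subtype
  set R : (Cube (m + 1) → ℂ) →ₗ[ℂ] (Cube m → ℂ) :=
    LinearMap.funLeft ℂ ℂ fun s' : Cube m => i.insertNth true s'
  have hmem : ∀ y ∈ LinearMap.ker f, R (y : Cube (m + 1) → ℂ) ∈ LinearMap.ker (cubeJ m).mulVecLin := by
    intro y hy
    rw [LinearMap.mem_ker] at hy ⊢
    funext s'
    have h := congrFun hy (i.insertNth true s')
    simp only [f, LinearMap.comp_apply, Submodule.coe_subtype, Matrix.mulVecLin_apply, sub_mulVec,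
      Pi.sub_apply, Pi.zero_apply] at h
    have hV : (cubeV i *ᵥ (y : Cube (m + 1) → ℂ)) (i.insertNth true s') = 0 := by
      simp [mulVec, dotProduct, cubeV]
    rw [hV, sub_zero, cubeJ, cubeT_mulVec, Fin.sum_univ_succAbove _ i] at h
    simp only [Fin.insertNth_apply_same, Fin.insertNth_apply_succAbove, Bool.true_eq_false, if_false,
      zero_add] at h
    rw [Matrix.mulVecLin_apply, cubeJ, cubeT_mulVec, Pi.zero_apply]
    refine Eq.trans (sum_congr rfl fun j _ => ?_) h
    simp only [R, LinearMap.funLeft_apply, Fin.insertNth_update]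
  let g : LinearMap.ker f →ₗ[ℂ] LinearMap.ker (cubeJ m).mulVecLin :=
    ((R.comp S.subtype).comp (LinearMap.ker f).subtype).codRestrict _ fun y => hmem y y.2
  refine LinearMap.finrank_le_finrank_of_injective (f := g) ?_
  intro y y' hy
  apply Subtype.ext
  apply Subtype.ext
  funext s
  show (y : S).1 s = (y' : S).1 s
  by_cases hs : s i = false
  · rw [hS _ (y : S).2 s hs, hS _ (y' : S).2 s hs]
  · have h := congrFun (congrArg Subtype.val hy) (i.removeNth s)
    have e : i.insertNth true (i.removeNth s) = s := by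
      rw [← show s i = true by simpa using hs]
      exact Fin.insertNth_self_removeNth i s
    change (y : S).1 (i.insertNth true (i.removeNth s)) = (y' : S).1 (i.insertNth true (i.removeNth s)) at h
    rwa [e] at h

/-- The algebra of step (d). -/
theorem fixed_range {W n n' V K : CMat N} (hsum : n + n' = 1) (hnn : n * n = n) (hmm : n' * n' = n')
    (hnc : nᴴ = n) (hmc : n'ᴴ = n') (hVn : Vᴴ * n = Vᴴ) (hVV : Vᴴ * V = n') (hKn : K * n = n * K)
    (hH : Wᴴ = W) (hWW : W * W = W) (hW1 : W * (V * W) = V * W)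
    (hW2 : W * ((K + V) * W) = (K + V) * W)
    (hcomm : K * (n * W * Vᴴ) * (n * W * n) = n * W * n * (K * (n * W * Vᴴ))) :
    W * (K * (n' * W * n')) = K * (n' * W * n') := by
  have hA : n * (W * (Vᴴ * (W * n))) = n * (W * Vᴴ) := by
    have e : (n * (W * (V * W)) * n)ᴴ = (n * (V * W) * n)ᴴ := by rw [hW1]
    simp only [conjTranspose_mul, hnc, hH, Matrix.mul_assoc] at e
    rwa [hVn] at e
  obtain ⟨X, hXdef⟩ : ∃ X, X = K * (n * W * Vᴴ) := ⟨_, rfl⟩
  rw [← hXdef] at hcomm
  have hXP : X * (n * W * n) = X := by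
    have e : Vᴴ * (n * (W * n)) = Vᴴ * (W * n) := by rw [← Matrix.mul_assoc, hVn]
    calc X * (n * W * n) = K * (n * (W * (Vᴴ * (n * (W * n))))) := by
          simp only [hXdef, Matrix.mul_assoc]
      _ = K * (n * (W * (Vᴴ * (W * n)))) := by rw [e]
      _ = X := by rw [hA, hXdef, Matrix.mul_assoc]
  have hnX : n * X = X := by
    rw [hXdef, ← Matrix.mul_assoc n K, ← hKn, Matrix.mul_assoc]
    simp only [← Matrix.mul_assoc n n, hnn, Matrix.mul_assoc]
  have hnWX : n * (W * X) = X := by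
    calc n * (W * X) = n * (W * (n * X)) := by rw [hnX]
      _ = n * W * n * X := by simp only [Matrix.mul_assoc]
      _ = X := by rw [← hcomm, hXP]
  have hn' : n' = 1 - n := eq_sub_of_add_eq' hsum
  have hmWX : n' * (W * X) = 0 := by
    apply conjTranspose_mul_self_eq_zero.1
    calc (n' * (W * X))ᴴ * (n' * (W * X)) = Xᴴ * (W * (n' * n' * (W * X))) := by
          simp only [conjTranspose_mul, hH, hmc, Matrix.mul_assoc]
      _ = Xᴴ * (W * (W * X - n * (W * X))) := by
          rw [hmm, hn', Matrix.sub_mul, Matrix.one_mul]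
      _ = 0 := by rw [hnWX, Matrix.mul_sub, ← Matrix.mul_assoc W W, hWW, sub_self, Matrix.mul_zero]
  have hWX : W * X = X := by
    calc W * X = (n + n') * (W * X) := by rw [hsum, Matrix.one_mul]
      _ = X := by rw [Matrix.add_mul, hnWX, hmWX, add_zero]
  have e : X * V = K * (n * W * n') := by
    simp only [hXdef, Matrix.mul_assoc, hVV]
  have hsplit : K * (n' * W * n') = (K + V) * W * n' - V * W * n' - X * V := by
    rw [e]
    simp only [hn', Matrix.sub_mul, Matrix.add_mul, Matrix.one_mul, Matrix.mul_sub, Matrix.mul_one,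
      Matrix.mul_assoc]
    abel
  rw [hsplit, Matrix.mul_sub, Matrix.mul_sub, ← Matrix.mul_assoc W (_ * W) n',
    ← Matrix.mul_assoc W (_ * W) n', hW2, hW1, ← Matrix.mul_assoc W X V, hWX]

theorem K_ne (i : Fin N) {s t : Cube N} (h : (cubeJ N - cubeV i) s t ≠ 0) :
    wt t = wt s + 1 ∧ s i = t i := by
  simp only [cubeJ_eq, Matrix.sub_apply, Matrix.sum_apply] at h
  rw [← add_sum_erase _ _ (mem_univ i), add_sub_cancel_left] at h
  obtain ⟨j, hj, hj'⟩ := exists_ne_zero_of_sum_ne_zero h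
  obtain ⟨h1, rfl⟩ := cubeV_ne hj'
  exact ⟨wt_update h1, (Function.update_of_ne (ne_of_mem_erase hj).symm _ _).symm⟩

theorem K_comm_nP (i : Fin N) : (cubeJ N - cubeV i) * nP i = nP i * (cubeJ N - cubeV i) := by
  ext s t
  rw [nP, mul_diagonal, diagonal_mul]
  by_cases h : (cubeJ N - cubeV i) s t = 0
  · rw [h, zero_mul, mul_zero]
  · rw [(K_ne i h).2, mul_comm]

theorem K_comm_mP (i : Fin N) : (cubeJ N - cubeV i) * mP i = mP i * (cubeJ N - cubeV i) := by
  rw [eq_sub_of_add_eq' (nP_add_mP i), Matrix.mul_sub, Matrix.sub_mul 1 (nP i), Matrix.mul_one,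
    Matrix.one_mul,
    K_comm_nP]

theorem comm_XP {W : CMat N} (hinv : ∀ F : Finset (Fin N), Inv F W)
    (hwt : ∀ s t, W s t ≠ 0 → wt s = wt t) :
    (cubeJ N - cubeV i) * (nP i * W * (cubeV i)ᴴ) * (nP i * W * nP i)
      = nP i * W * nP i * ((cubeJ N - cubeV i) * (nP i * W * (cubeV i)ᴴ)) := by
  have hn0 : ∀ s : Cube N, ∀ z : ℂ, (if s i = false then (1 : ℂ) else 0) * z ≠ 0 → s i = false :=
    fun s z h => by by_contra hs; simp [hs] at h
  refine Cls.commute (F := {i}) ⟨(inv_cubeJ.sub (inv_cubeV (mem_singleton_self i))).mul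
    (((inv_nP i).mul (hinv _)).mul (inv_cubeV (mem_singleton_self i)).conjTranspose), fun s t h => ?_⟩
    ⟨((inv_nP i).mul (hinv _)).mul (inv_nP i), fun s t h => ?_⟩
  · obtain ⟨a, g1, g2⟩ := exists_mul_ne h
    obtain ⟨b, g3, g4⟩ := exists_mul_ne g2
    have g4' : cubeV i t b ≠ 0 := fun e => g4 (by simp [conjTranspose_apply, e])
    obtain ⟨g5, g6⟩ := cubeV_ne g4'
    obtain ⟨g7, g8⟩ := K_ne i g1
    rw [nP, diagonal_mul] at g3
    have g9 := hn0 a _ g3
    have g10 := hwt a b (right_ne_zero_of_mul g3)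
    have g11 : wt b = wt t + 1 := g6 ▸ wt_update g5
    exact ⟨by omega, fun j hj => by rw [mem_singleton.1 hj, g8, g9, g5]⟩
  · rw [nP, mul_diagonal, diagonal_mul] at h
    have h1 := hn0 s _ (left_ne_zero_of_mul h)
    have h2 : t i = false := by by_contra hs; simp [hs] at h
    exact ⟨hwt s t (right_ne_zero_of_mul (left_ne_zero_of_mul h)), fun j hj => by
      rw [mem_singleton.1 hj, h1, h2]⟩

theorem trace_B (W : CMat N) (i : Fin N) :
    (mP i * W * mP i).trace.re = ∑ s : Cube N, if s i = true then (W s s).re else 0 := by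
  rw [Matrix.trace, Complex.re_sum]
  refine sum_congr rfl fun s _ => ?_
  rw [diag_apply, mP, mul_diagonal, diagonal_mul]
  split_ifs <;> simp

/-- The trace of `W` on `|1>` is nearly half of it. -/
theorem trace_lower {W : CMat N} (hN : 0 < N) (hH : W.IsHermitian) (hWW : W * W = W)
    (hinv : ∀ (σ : Equiv.Perm (Fin N)) (s t : Cube N), W (s ∘ σ) (t ∘ σ) = W s t) (i : Fin N) :
    W.trace.re / 2 - 2 ^ N / (2 * Real.sqrt N) ≤ (mP i * W * mP i).trace.re := by
  have hdiag : ∀ s, 0 ≤ (W s s).re ∧ (W s s).re ≤ 1 := fun s => by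
    have h1 : (W s s).re = ∑ t, ‖W t s‖ ^ 2 := by
      conv_lhs => rw [← hWW, mul_apply, Complex.re_sum]
      refine sum_congr rfl fun t _ => ?_
      rw [← hH.apply s t, ← Complex.normSq_eq_norm_sq]
      simp [Complex.normSq_apply]
    refine ⟨h1 ▸ sum_nonneg fun t _ => sq_nonneg _, ?_⟩
    have h2 : (W s s).re ^ 2 ≤ (W s s).re := by
      conv_rhs => rw [h1]
      refine le_trans ?_ (single_le_sum (fun t _ => sq_nonneg ‖W t s‖) (mem_univ s))
      rw [← sq_abs]
      exact pow_le_pow_left₀ (abs_nonneg _) (Complex.abs_re_le_norm _) 2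
    by_contra hlt
    linarith [mul_lt_mul_of_pos_left (not_le.1 hlt) (show (0 : ℝ) < (W s s).re by linarith)]
  set b := (mP i * W * mP i).trace.re
  have hb : b = ∑ s : Cube N, if s i = true then (W s s).re else 0 := trace_B W i
  have hsym : ∀ j, (∑ s : Cube N, if s j = true then (W s s).re else 0) = b := fun j => by
    rw [hb, ← Equiv.sum_comp (Equiv.arrowCongr (Equiv.swap i j) (Equiv.refl Bool))]
    refine sum_congr rfl fun s _ => ?_
    have e : (Equiv.arrowCongr (Equiv.swap i j) (Equiv.refl Bool)) s = s ∘ Equiv.swap i j := rfl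
    rw [e, hinv]
    simp
  have hcount : (N : ℝ) * b = ∑ s : Cube N, (wt s : ℝ) * (W s s).re := by
    calc (N : ℝ) * b = ∑ j : Fin N, ∑ s : Cube N, if s j = true then (W s s).re else 0 := by
          simp [hsym]
      _ = ∑ s : Cube N, ∑ j : Fin N, if s j = true then (W s s).re else 0 := sum_comm
      _ = _ := sum_congr rfl fun s _ => by
          rw [← sum_filter, sum_const, nsmul_eq_mul, wt]
  have hcs := sum_mul_sq_le_sq_mul_sq (univ : Finset (Cube N))
    (fun s => (wt s : ℝ) - (N : ℝ) / 2) (fun s => (W s s).re)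
  have hq : ∑ s : Cube N, (W s s).re ^ 2 ≤ (2 : ℝ) ^ N :=
    (sum_le_sum fun s _ => show (W s s).re ^ 2 ≤ 1 from pow_le_one₀ (hdiag s).1 (hdiag s).2).trans_eq
      (by simp)
  set D := ∑ s : Cube N, ((wt s : ℝ) - (N : ℝ) / 2) * (W s s).re
  have hD2 : D ^ 2 ≤ (2 ^ N * Real.sqrt N / 2) ^ 2 := by
    refine hcs.trans ?_
    rw [sum_dev_sq, div_pow, mul_pow, Real.sq_sqrt (Nat.cast_nonneg _)]
    refine (mul_le_mul_of_nonneg_left hq (by positivity)).trans_eq ?_
    ring
  have hD : |D| ≤ 2 ^ N * Real.sqrt N / 2 := abs_le_of_sq_le_sq hD2 (by positivity)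
  have hDeq : D = (N : ℝ) * (b - W.trace.re / 2) := by
    simp only [D, sub_mul, sum_sub_distrib]
    rw [← hcount, ← mul_sum, Matrix.trace, Complex.re_sum]
    simp only [diag_apply]
    ring
  have hq0 : 0 < Real.sqrt N := Real.sqrt_pos.2 (by exact_mod_cast hN)
  have hqq : Real.sqrt N * Real.sqrt N = (N : ℝ) := Real.mul_self_sqrt (Nat.cast_nonneg _)
  have h := (abs_le.1 hD).1
  rw [hDeq] at h
  have h4 : (N : ℝ) * (b - W.trace.re / 2)
      = Real.sqrt N * (Real.sqrt N * (b - W.trace.re / 2)) := by rw [← mul_assoc, hqq]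
  have h5 : Real.sqrt N * (Real.sqrt N * (b - W.trace.re / 2) + 2 ^ N / 2)
      = (N : ℝ) * (b - W.trace.re / 2) + 2 ^ N * Real.sqrt N / 2 := by rw [mul_add, ← h4]; ring
  have h2 : 0 ≤ Real.sqrt N * (Real.sqrt N * (b - W.trace.re / 2) + 2 ^ N / 2) := by linarith
  have h3 := nonneg_of_mul_nonneg_right h2 hq0
  rw [sub_le_iff_le_add, ← sub_le_iff_le_add', le_div_iff₀ (by positivity)]
  linarith

/-- Step (d). -/
theorem half {m : ℕ} (hR : RankSpec) {W : CMat (m + 1)} (hH : W.IsHermitian) (hWW : W * W = W)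
    (hinv : ∀ (σ : Equiv.Perm (Fin (m + 1))) (s t : Cube (m + 1)), W (s ∘ σ) (t ∘ σ) = W s t)
    (hJ : (1 - W) * cubeJ (m + 1) * W = 0) (hV : ∀ i, (1 - W) * cubeV i * W = 0)
    (i : Fin (m + 1)) : ∃ U : Submodule ℂ (Cube (m + 1) → ℂ),
      (∀ v ∈ U, W *ᵥ v = v ∧ ∀ s : Cube (m + 1), s i = false → v s = 0) ∧
      W.trace.re / 2 - 2 ^ (m + 1) / Real.sqrt (m + 1 : ℕ) ≤ (Module.finrank ℂ U : ℝ) := by
  classical
  have hwt := wt_preserving hR hH hWW (fun σ _ => hinv σ) hJ
  obtain ⟨K, hK⟩ : ∃ K, K = cubeJ (m + 1) - cubeV i := ⟨_, rfl⟩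
  have hW1 : W * (cubeV i * W) = cubeV i * W := by
    have h := hV i
    rw [Matrix.mul_assoc, Matrix.sub_mul, Matrix.one_mul] at h
    exact (sub_eq_zero.1 h).symm
  have hW2 : W * ((K + cubeV i) * W) = (K + cubeV i) * W := by
    have h := hJ
    rw [Matrix.mul_assoc, Matrix.sub_mul, Matrix.one_mul] at h
    rw [hK, sub_add_cancel]
    exact (sub_eq_zero.1 h).symm
  have hVn : (cubeV i)ᴴ * nP i = (cubeV i)ᴴ := by
    have := congrArg Matrix.conjTranspose (nP_mul_V i)
    rwa [conjTranspose_mul, nP_conj] at this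
  obtain ⟨B, hB⟩ : ∃ B, B = mP i * W * mP i := ⟨_, rfl⟩
  have hKm : K * mP i = mP i * K := by rw [hK]; exact K_comm_mP i
  have hM : W * (K * B) = K * B := by
    rw [hB]
    exact fixed_range (nP_add_mP i) (nP_mul_nP i) (mP_mul_mP i) (nP_conj i) (mP_conj i) hVn
      (V_conj_mul i) (by rw [hK]; exact K_comm_nP i) hH.eq hWW hW1 hW2
      (by rw [hK]; exact comm_XP (fun _ σ _ => hinv σ) hwt)
  have hmB : mP i * B = B := by rw [hB, ← Matrix.mul_assoc, ← Matrix.mul_assoc, mP_mul_mP]
  refine ⟨LinearMap.range (K * B).mulVecLin, ?_, ?_⟩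
  · rintro v ⟨y, rfl⟩
    refine ⟨by simp only [Matrix.mulVecLin_apply, mulVec_mulVec, hM], fun s hs => ?_⟩
    have e : K * B = mP i * (K * B) := by rw [← Matrix.mul_assoc, ← hKm, Matrix.mul_assoc, hmB]
    rw [Matrix.mulVecLin_apply, e, ← mulVec_mulVec, mP, mulVec_diagonal]
    simp [hs]
  have hBH : B.IsHermitian := by
    show Bᴴ = B
    rw [hB]
    simp only [conjTranspose_mul, mP_conj, hH.eq, Matrix.mul_assoc]
  have hrank := trace_le_rank hBH (C := nP i * W * mP i) (by
    rw [hB]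
    simp only [conjTranspose_mul, mP_conj, nP_conj, hH.eq, Matrix.mul_assoc]
    rw [← Matrix.mul_assoc (mP i) (mP i), mP_mul_mP, ← Matrix.mul_assoc (nP i) (nP i), nP_mul_nP,
      eq_sub_of_add_eq (nP_add_mP i)]
    simp only [Matrix.mul_sub, Matrix.sub_mul, Matrix.one_mul]
    rw [← Matrix.mul_assoc W W, hWW])
  obtain ⟨S, hSdef⟩ : ∃ S, S = LinearMap.range B.mulVecLin := ⟨_, rfl⟩
  have hS : ∀ y ∈ S, ∀ s : Cube (m + 1), s i = false → y s = 0 := by
    rw [hSdef]
    rintro _ ⟨y, rfl⟩ s hs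
    rw [← hmB, Matrix.mulVecLin_apply, ← mulVec_mulVec, mP, mulVec_diagonal]
    simp [hs]
  have hnull := LinearMap.finrank_range_add_finrank_ker ((K.mulVecLin).comp S.subtype)
  have hrange : LinearMap.range ((K.mulVecLin).comp S.subtype) = LinearMap.range (K * B).mulVecLin := by
    rw [LinearMap.range_comp, Submodule.range_subtype, Matrix.mulVecLin_mul, LinearMap.range_comp, hSdef]
  rw [hrange] at hnull
  have hker : (Module.finrank ℂ (LinearMap.ker ((K.mulVecLin).comp S.subtype)) : ℝ)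
      ≤ Module.finrank ℂ (LinearMap.ker (cubeJ m).mulVecLin) := by
    rw [hK]
    exact_mod_cast finrank_ker_le i hS
  have hbin := hR.2.2 m
  have hlow := trace_lower (N := m + 1) (Nat.succ_pos m) hH hWW hinv i
  rw [← hB] at hlow
  rw [← hSdef] at hrank
  set q := Real.sqrt (m + 1 : ℕ)
  have hq0 : 0 < q := Real.sqrt_pos.2 (by positivity)
  have hk : (Module.finrank ℂ (LinearMap.ker (cubeJ m).mulVecLin) : ℝ) ≤ 2 ^ m / q := by
    rw [le_div_iff₀ hq0]
    refine le_trans (le_of_eq ?_) hbin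
    simp [q]
  have e2 : (2 : ℝ) ^ (m + 1) / (2 * q) = 2 ^ m / q := by
    rw [pow_succ]
    field_simp
  have e3 : (2 : ℝ) ^ (m + 1) / q = 2 ^ m / q + 2 ^ m / q := by
    rw [pow_succ]
    ring
  have hn : ((Module.finrank ℂ (LinearMap.range (K * B).mulVecLin) : ℝ))
      + Module.finrank ℂ (LinearMap.ker ((K.mulVecLin).comp S.subtype)) = Module.finrank ℂ S := by
    exact_mod_cast hnull
  linarith

end

end Vale.Agent.P131.Sym

namespace Vale.Agent.P131

/-- The symmetric cube lemma. -/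
theorem symSpec (hR : RankSpec) : SymSpec := fun N hN W hH hWW hinv hJ hV i => by
  obtain ⟨m, rfl⟩ : ∃ m, N = m + 1 := ⟨N - 1, by omega⟩
  exact Sym.half hR hH hWW hinv hJ hV i

end Vale.Agent.P131
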