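import Vale.Agent.P131.Defs

/-!
# P131: the symmetric cube lemma

A projection invariant under the permutations, under `J` and under every `V_i` commutes with the
weight, and half of it lies in `|1>` at each site up to the middle binomial coefficient.
-/

namespace Vale.Agent.P131.Sym

open scoped Matrix ComplexOrder
open Matrix Finset

noncomputable section

variable {N : ℕ} {F : Finset (Fin N)} {A B M : CMat N} {i : Fin N}

theorem wt_update {s : Cube N} {j : Fin N} (h : s j = false) :
    wt (Function.update s j true) = wt s + 1 := by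
  have e : (univ.filter fun k => Function.update s j true k = true)
      = insert j (univ.filter fun k => s k = true) := by
    ext k
    by_cases hk : k = j
    · simp [hk]
    · simp [hk]
  rw [wt, e, card_insert_of_notMem (by simp [h]), wt]

theorem cubeV_ne {j : Fin N} {s t : Cube N} (h : cubeV j s t ≠ 0) :
    s j = false ∧ t = Function.update s j true := by
  by_contra hc
  exact h (by simp only [cubeV, of_apply, if_neg hc])

theorem exists_mul_ne {s t : Cube N} (h : (A * B) s t ≠ 0) : ∃ a, A s a ≠ 0 ∧ B a t ≠ 0 := by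
  rw [mul_apply] at h
  obtain ⟨a, -, ha⟩ := exists_ne_zero_of_sum_ne_zero h
  exact ⟨a, left_ne_zero_of_mul ha, right_ne_zero_of_mul ha⟩

theorem cubeJ_eq (N : ℕ) : cubeJ N = ∑ j : Fin N, cubeV j := by
  simp [cubeJ, cubeT]

theorem cubeJ_ne {s t : Cube N} (h : cubeJ N s t ≠ 0) : wt t = wt s + 1 := by
  rw [cubeJ_eq, Matrix.sum_apply] at h
  obtain ⟨j, -, hj⟩ := exists_ne_zero_of_sum_ne_zero h
  obtain ⟨h1, rfl⟩ := cubeV_ne hj
  exact wt_update h1

theorem pow_ne {d : ℕ} : ∀ {s t : Cube N}, (cubeJ N ^ d) s t ≠ 0 → wt t = wt s + d := by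
  induction d with
  | zero =>
    intro s t h
    rw [pow_zero] at h
    by_cases e : s = t
    · subst e; rfl
    · exact absurd (one_apply_ne e) h
  | succ d ih =>
    intro s t h
    rw [pow_succ] at h
    obtain ⟨a, h1, h2⟩ := exists_mul_ne h
    rw [cubeJ_ne h2, ih h1]
    omega

theorem cubeT_mulVec (c : Fin N → ℝ) (x : Cube N → ℂ) (s : Cube N) :
    (cubeT c *ᵥ x) s = ∑ j, if s j = false then (c j : ℂ) * x (Function.update s j true) else 0 := by
  simp only [cubeT, sum_mulVec, Finset.sum_apply, smul_mulVec, Pi.smul_apply, smul_eq_mul]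
  refine sum_congr rfl fun j _ => ?_
  simp only [mulVec, dotProduct, cubeV, of_apply]
  by_cases h : s j = false
  · simp [h]
  · simp [h]

/-- Invariance under the permutations fixing `F`. -/
def Inv (F : Finset (Fin N)) (M : CMat N) : Prop :=
  ∀ σ : Equiv.Perm (Fin N), (∀ j ∈ F, σ j = j) → ∀ s t : Cube N, M (s ∘ σ) (t ∘ σ) = M s t

/-- Invariant, weight preserving, and diagonal on `F`. -/
def Cls (F : Finset (Fin N)) (M : CMat N) : Prop :=
  Inv F M ∧ ∀ s t, M s t ≠ 0 → wt s = wt t ∧ ∀ j ∈ F, s j = t j

theorem Inv.mul (hA : Inv F A) (hB : Inv F B) : Inv F (A * B) := fun σ hσ s t => by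
  rw [mul_apply, mul_apply,
    ← Equiv.sum_comp (Equiv.arrowCongr σ.symm (Equiv.refl Bool)) fun a => A (s ∘ σ) a * B a (t ∘ σ)]
  refine sum_congr rfl fun a _ => ?_
  show A (s ∘ σ) (a ∘ σ) * B (a ∘ σ) (t ∘ σ) = A s a * B a t
  rw [hA σ hσ, hB σ hσ]

theorem Inv.conjTranspose (hA : Inv F A) : Inv F Aᴴ := fun σ hσ s t => by
  simp only [conjTranspose_apply, hA σ hσ]

theorem Inv.sub (hA : Inv F A) (hB : Inv F B) : Inv F (A - B) := fun σ hσ s t => by
  simp only [Matrix.sub_apply, hA σ hσ, hB σ hσ]

theorem inv_one : Inv F (1 : CMat N) := fun σ _ s t => by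
  have e : (s ∘ σ = t ∘ σ) = (s = t) := propext σ.surjective.injective_comp_right.eq_iff
  simp only [one_apply, e]

theorem inv_pow (hA : Inv F A) (d : ℕ) : Inv F (A ^ d) := by
  induction d with
  | zero => rw [pow_zero]; exact inv_one
  | succ d ih => rw [pow_succ]; exact ih.mul hA

theorem cubeV_perm (σ : Equiv.Perm (Fin N)) (j : Fin N) (s t : Cube N) :
    cubeV j (s ∘ σ) (t ∘ σ) = cubeV (σ j) s t := by
  have e : (t ∘ σ = Function.update (s ∘ σ) j true) = (t = Function.update s (σ j) true) := by
    rw [show Function.update (s ∘ σ) j true = Function.update s (σ j) true ∘ σ by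
      rw [Function.update_comp_equiv, Equiv.symm_apply_apply]]
    exact propext σ.surjective.injective_comp_right.eq_iff
  simp only [cubeV, of_apply, Function.comp_apply, e]

theorem inv_cubeJ : Inv F (cubeJ N) := fun σ _ s t => by
  rw [cubeJ_eq, Matrix.sum_apply, Matrix.sum_apply]
  simp only [cubeV_perm]
  exact Equiv.sum_comp σ fun j => cubeV j s t

theorem inv_cubeV (hi : i ∈ F) : Inv F (cubeV i) := fun σ hσ s t => by
  rw [cubeV_perm, hσ i hi]

theorem Cls.mul (hA : Cls F A) (hB : Cls F B) : Cls F (A * B) :=
  ⟨hA.1.mul hB.1, fun s t h => by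
    obtain ⟨a, h1, h2⟩ := exists_mul_ne h
    exact ⟨(hA.2 s a h1).1.trans (hB.2 a t h2).1,
      fun j hj => ((hA.2 s a h1).2 j hj).trans ((hB.2 a t h2).2 j hj)⟩⟩

theorem Cls.conjTranspose (hA : Cls F A) : Cls F Aᴴ :=
  ⟨hA.1.conjTranspose, fun s t h => by
    have h' : A t s ≠ 0 := fun e => h (by simp [e])
    exact ⟨(hA.2 t s h').1.symm, fun j hj => ((hA.2 t s h').2 j hj).symm⟩⟩

theorem wt_eq_card (s t : Cube N) :
    wt s = #(univ.filter fun j => s j = true ∧ t j = true)
      + #(univ.filter fun j => s j = true ∧ t j = false) := by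
  rw [← card_union_of_disjoint (by rw [Finset.disjoint_left]; intro j; simp; tauto), wt]
  congr 1
  ext j
  simp only [mem_union, mem_filter, mem_univ, true_and]
  cases s j <;> cases t j <;> simp

/-- Two configurations of the same weight that agree on `F` are exchanged by a permutation. -/
theorem exists_swap {s t : Cube N} (hw : wt s = wt t) (hF : ∀ j ∈ F, s j = t j) :
    ∃ σ : Equiv.Perm (Fin N), (∀ j ∈ F, σ j = j) ∧ s ∘ σ = t ∧ t ∘ σ = s := by
  classical
  let g : Fin N → Bool × Bool × Option (Fin N) := fun j =>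
    (s j, t j, if j ∈ F then some j else none)
  let g' : Fin N → Bool × Bool × Option (Fin N) := fun j =>
    (t j, s j, if j ∈ F then some j else none)
  have hcard : ∀ c, Fintype.card {a // g' a = c} = Fintype.card {b // g b = c} := by
    rintro ⟨a, b, o⟩
    simp only [Fintype.card_subtype]
    cases o with
    | some k =>
      congr 1
      ext j
      by_cases hj : j ∈ F
      · simp [g, g', hj, hF j hj]
      · simp [g, g', hj]
    | none =>
      have h1 := wt_eq_card s t
      have h2 := wt_eq_card t s
      have e : #(univ.filter fun j => s j = true ∧ t j = false)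
          = #(univ.filter fun j => t j = true ∧ s j = false) := by
        have e1 : (univ.filter fun j => s j = true ∧ t j = true)
            = univ.filter fun j => t j = true ∧ s j = true := by ext j; simp [and_comm]
        rw [e1] at h1
        omega
      by_cases hab : a = b
      · subst hab
        congr 1
        ext j
        simp only [g, g', mem_filter, mem_univ, true_and, Prod.mk.injEq]
        tauto
      · have key : ∀ (p q : Cube N), (∀ j ∈ F, p j = q j) →
            (univ.filter fun j => (p j, q j, if j ∈ F then some j else none)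
              = (a, b, (none : Option (Fin N))))
              = univ.filter fun j => p j = a ∧ q j = b := fun p q hpq => by
          ext j
          simp only [mem_filter, mem_univ, true_and, Prod.mk.injEq]
          constructor
          · exact fun h => ⟨h.1, h.2.1⟩
          · refine fun h => ⟨h.1, h.2, ?_⟩
            have : j ∉ F := fun hj => hab (by rw [← h.1, ← h.2, hpq j hj])
            simp [this]
        rw [show (univ.filter fun j => g' j = (a, b, none)) = _ from
            key t s fun j hj => (hF j hj).symm,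
          show (univ.filter fun j => g j = (a, b, none)) = _ from key s t hF]
        cases a <;> cases b
        · exact absurd rfl hab
        · calc #(univ.filter fun j => t j = false ∧ s j = true)
              = #(univ.filter fun j => s j = true ∧ t j = false) := by simp only [and_comm]
            _ = #(univ.filter fun j => t j = true ∧ s j = false) := e
            _ = _ := by simp only [and_comm]
        · exact e.symm
        · exact absurd rfl hab
  let σ : Equiv.Perm (Fin N) :=
    Equiv.ofFiberEquiv (f := g') (g := g) fun c => Fintype.equivOfCardEq (hcard c)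
  have hσ : ∀ j, g (σ j) = g' j := fun j => Equiv.ofFiberEquiv_map _ j
  refine ⟨σ, fun j hj => ?_, funext fun j => congrArg Prod.fst (hσ j),
    funext fun j => congrArg (fun p => p.2.1) (hσ j)⟩
  have h := congrArg (fun p => p.2.2) (hσ j)
  simp only [g, g', hj, if_true] at h
  by_cases h' : σ j ∈ F
  · simpa [h'] using h
  · simp [h'] at h

theorem Cls.symm (hM : Cls F M) : Mᵀ = M := by
  ext s t
  rw [transpose_apply]
  by_cases h : wt s = wt t ∧ ∀ j ∈ F, s j = t j
  · obtain ⟨σ, hσ, h1, h2⟩ := exists_swap h.1 h.2
    have := hM.1 σ hσ s t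
    rwa [h1, h2] at this
  · rw [show M s t = 0 from by_contra fun hn => h (hM.2 s t hn),
      show M t s = 0 from by_contra fun hn => h
        ⟨(hM.2 t s hn).1.symm, fun j hj => ((hM.2 t s hn).2 j hj).symm⟩]

theorem Cls.commute (hA : Cls F A) (hB : Cls F B) : A * B = B * A := by
  have h := (hA.mul hB).symm
  rw [transpose_mul, hA.symm, hB.symm] at h
  exact h.symm

theorem Cls.eq_zero (hA : Cls F A) (h : A * A = 0) : A = 0 := by
  have hc := hA.commute hA.conjTranspose
  have h1 : (Aᴴ * A)ᴴ * (Aᴴ * A) = 0 := by
    rw [conjTranspose_mul, conjTranspose_conjTranspose]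
    calc Aᴴ * A * (Aᴴ * A) = Aᴴ * (A * Aᴴ) * A := by simp only [Matrix.mul_assoc]
      _ = Aᴴ * Aᴴ * (A * A) := by rw [hc]; simp only [Matrix.mul_assoc]
      _ = 0 := by rw [h, Matrix.mul_zero]
  exact conjTranspose_mul_self_eq_zero.1 (conjTranspose_mul_self_eq_zero.1 h1)

/-- Step (c): `W` preserves the weight. -/
theorem wt_preserving (hR : RankSpec) {W : CMat N} (hH : W.IsHermitian) (hWW : W * W = W)
    (hinv : Inv ∅ W)
    (hJ : (1 - W) * cubeJ N * W = 0) : ∀ s t, W s t ≠ 0 → wt s = wt t := by
  classical
  set J := cubeJ N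
  have hJW : W * (J * W) = J * W := by
    rw [Matrix.mul_assoc, Matrix.sub_mul, Matrix.one_mul] at hJ
    exact (sub_eq_zero.1 hJ).symm
  by_contra hc
  push Not at hc
  obtain ⟨s₀, t₀, h₀, hne⟩ := hc
  have hsymm : ∀ a b, W a b ≠ 0 → W b a ≠ 0 := fun a b h e => h (by rw [← hH.apply a b, e, star_zero])
  set Ds := (univ : Finset (Cube N × Cube N)).filter fun p => W p.1 p.2 ≠ 0
  have hDs : Ds.Nonempty := ⟨(s₀, t₀), by simp [Ds, h₀]⟩
  obtain ⟨⟨a₁, b₁⟩, hm, hmax⟩ := Ds.exists_max_image (fun p => (wt p.1 : ℤ) - wt p.2) hDs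
  have hle : ∀ a b, W a b ≠ 0 → (wt a : ℤ) - wt b ≤ (wt a₁ : ℤ) - wt b₁ := fun a b h =>
    hmax (a, b) (by simp [Ds, h])
  have hpos : wt b₁ < wt a₁ := by
    have := hle _ _ h₀
    have := hle _ _ (hsymm _ _ h₀)
    omega
  set d := wt a₁ - wt b₁
  have hdle : ∀ a b, W a b ≠ 0 → wt a ≤ wt b + d := fun a b h => by
    have := hle a b h; omega
  have hd : 0 < d := by omega
  set P : CMat N := of fun s t => if wt s = wt t + d then W s t else 0
  have hP : ∀ a b, P a b ≠ 0 → wt a = wt b + d := fun a b h => by
    by_contra hn; exact h (by simp [P, hn])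
  have hPeq : ∀ a b, wt a = wt b + d → P a b = W a b := fun a b h => by simp [P, h]
  set Jd := J ^ d
  have hJd : W * (Jd * W) = Jd * W := by
    have : ∀ k, W * (J ^ k * W) = J ^ k * W := by
      intro k
      induction k with
      | zero =>
        rw [pow_zero, Matrix.one_mul, hWW]
      | succ k ih =>
        calc W * (J ^ (k + 1) * W) = W * (J * (J ^ k * W)) := by rw [pow_succ', Matrix.mul_assoc]
          _ = W * (J * (W * (J ^ k * W))) := by rw [ih]
          _ = W * (J * W) * (J ^ k * W) := by simp only [Matrix.mul_assoc]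
          _ = J * W * (J ^ k * W) := by rw [hJW]
          _ = J * (W * (J ^ k * W)) := by simp only [Matrix.mul_assoc]
          _ = J ^ (k + 1) * W := by rw [ih, pow_succ', Matrix.mul_assoc]
    exact this d
  have hPJP : P * (Jd * P) = 0 := by
    ext s t
    rw [Matrix.zero_apply]
    by_cases hst : wt s = wt t + d
    · have e : (P * (Jd * P)) s t = (W * (Jd * W)) s t := by
        simp only [mul_apply, mul_sum]
        refine sum_congr rfl fun a _ => sum_congr rfl fun b _ => ?_
        by_cases hn : W s a * (Jd a b * W b t) = 0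
        · by_cases hn' : P s a * (Jd a b * P b t) = 0
          · rw [hn, hn']
          · rw [hPeq _ _ (hP _ _ (left_ne_zero_of_mul hn')),
              hPeq _ _ (hP _ _ (right_ne_zero_of_mul (right_ne_zero_of_mul hn')))]
        · have g1 := hdle _ _ (left_ne_zero_of_mul hn)
          have g2 := pow_ne (left_ne_zero_of_mul (right_ne_zero_of_mul hn))
          have g3 := hdle _ _ (right_ne_zero_of_mul (right_ne_zero_of_mul hn))
          rw [hPeq s a (by omega), hPeq b t (by omega)]
      rw [e, hJd]
      by_contra hn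
      obtain ⟨a, g1, g2⟩ := exists_mul_ne hn
      have := pow_ne g1
      have := hdle _ _ g2
      omega
    · by_contra hn
      obtain ⟨a, g1, g2⟩ := exists_mul_ne hn
      obtain ⟨b, g3, g4⟩ := exists_mul_ne g2
      have := hP _ _ g1
      have := pow_ne g3
      have := hP _ _ g4
      omega
  have hPinv : Inv ∅ P := fun σ hσ s t => by
    have hw : ∀ a : Cube N, wt (a ∘ σ) = wt a := fun a => by
      simp only [wt, card_filter]
      exact Equiv.sum_comp σ fun j => if a j = true then 1 else 0
    simp only [P, of_apply, hw, hinv σ hσ]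
  have hX : Cls ∅ (Jd * P) := ⟨(inv_pow inv_cubeJ d).mul hPinv, fun s t h => by
    obtain ⟨a, g1, g2⟩ := exists_mul_ne h
    exact ⟨by have := pow_ne g1; have := hP _ _ g2; omega, by simp⟩⟩
  have hY : Cls ∅ (P * Jd) := ⟨hPinv.mul (inv_pow inv_cubeJ d), fun s t h => by
    obtain ⟨a, g1, g2⟩ := exists_mul_ne h
    exact ⟨by have := hP _ _ g1; have := pow_ne g2; omega, by simp⟩⟩
  have hX0 : Jd * P = 0 := hX.eq_zero (by rw [Matrix.mul_assoc, hPJP, Matrix.mul_zero])
  have hY0 : P * Jd = 0 := hY.eq_zero (by
    rw [Matrix.mul_assoc, ← Matrix.mul_assoc Jd P Jd, ← Matrix.mul_assoc, hPJP, Matrix.zero_mul])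
  have hval : P a₁ b₁ ≠ 0 := by
    rw [hPeq _ _ (by omega)]
    have := (mem_filter.1 hm).2
    exact this
  rcases le_or_gt (N + d) (2 * wt a₁) with h | h
  · have := hR.1 N (wt a₁) d (fun s => P s b₁)
      (fun s hs => by
        by_contra hn
        have := hP _ _ hn
        omega) h (funext fun s => by
        have := congrFun (congrFun hX0 s) b₁
        simpa [mulVec, dotProduct, mul_apply] using this)
    exact hval (congrFun this a₁)
  · have := hR.2.1 N (wt b₁) d (fun s => P a₁ s)
      (fun s hs => by
        by_contra hn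
        have := hP _ _ hn
        omega) (by omega) (funext fun s => by
        have := congrFun (congrFun hY0 a₁) s
        rw [← transpose_pow]
        simpa [mulVec, dotProduct, mul_apply, mul_comm] using this)
    exact hval (congrFun this b₁)

end

end Vale.Agent.P131.Sym
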