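import Vale.Agent.P131.TransferTele

/-!
# P131, module C1: the transfer from the cubes to the tower
-/

namespace Vale.Agent.P131

open scoped Matrix ComplexOrder
open Finset Filter Topology

noncomputable section

namespace Tr

variable {r : ℕ → ℕ}

theorem cubeEquiv_lt {N L : ℕ} (h : N ≤ L) (s : Cube N) (k : Cfg r N) (z : Tail r N L) (a : Fin N) :
    cubeEquiv h (s, k, z) (Fin.castLE h a) = (k a, s a) := by
  have := congr_fun (head_tailEquiv (r := r) h (bitEquiv r N (s, k), z)) a
  exact this

theorem cubeEquiv_ge {N L : ℕ} (h : N ≤ L) (s : Cube N) (k : Cfg r N) (z : Tail r N L)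
    (a : {a : Fin L // N ≤ a.1}) : cubeEquiv h (s, k, z) a.1 = z a := by
  simp [cubeEquiv, tailEquiv, a.2]

/-- The blocks of `Q` at fixed configuration and tail point. -/
def block (F : Family r) {N L : ℕ} (h : N ≤ L) (b : Cfg r N × Tail r N L) : CMat N :=
  (F.Q L).submatrix (fun s => cubeEquiv h (s, b)) fun s => cubeEquiv h (s, b)

theorem contr_submatrix {I J : Type*} [DecidableEq I] [DecidableEq J] {Q : Matrix I I ℂ}
    (hQ : Contr Q) (f : J → I) (hf : Function.Injective f) : Contr (Q.submatrix f f) := by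
  refine ⟨hQ.1.submatrix f, ?_⟩
  have h := hQ.2.submatrix f
  rwa [Matrix.submatrix_sub, Pi.sub_apply, Pi.sub_apply, Matrix.submatrix_one f hf] at h

theorem contr_block (F : Family r) {N L : ℕ} (h : N ≤ L) (b : Cfg r N × Tail r N L) :
    Contr (block F h b) :=
  contr_submatrix (F.contr L) _ fun _ _ e => congrArg Prod.fst ((cubeEquiv h).injective e)

theorem Q_entry_zero (F : Family r) {L : ℕ} {x y : Idx r L} {a : Fin L}
    (h : (x a).1 ≠ (y a).1) : F.Q L x y = 0 := by
  have := congr_fun (congr_fun (sel_comm F a (x a).1).eq x) y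
  simpa [sel, siteOp_diagonal, Matrix.diagonal_mul, Matrix.mul_diagonal, Ne.symm h] using this

theorem block_dist (F : Family r) {N L : ℕ} (h : N ≤ L) :
    nsq ((F.Q L).submatrix (cubeEquiv h) (cubeEquiv h) - Matrix.blockDiagonal (block F h)) ≤
      ∑ a ∈ Finset.Ico N L, (20 : ℝ) / (r a + 1) := by
  set C : Fin L → Mat r L := fun a =>
    siteOp a (nbit r a) * F.Q L - F.Q L * siteOp a (nbit r a)
  have hpt : ∀ p q, ‖((F.Q L).submatrix (cubeEquiv h) (cubeEquiv h) -
      Matrix.blockDiagonal (block F h)) p q‖ ^ 2 ≤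
      ∑ a ∈ univ.filter (fun a : Fin L => N ≤ a.1),
        ‖(C a).submatrix (cubeEquiv h) (cubeEquiv h) p q‖ ^ 2 := by
    rintro ⟨s, k, z⟩ ⟨t, k', z'⟩
    by_cases hd : (k, z) = (k', z')
    · cases hd
      simp [block, Matrix.blockDiagonal_apply]
      positivity
    rw [Matrix.sub_apply, Matrix.blockDiagonal_apply_ne _ _ _ hd, sub_zero, Matrix.submatrix_apply]
    by_cases hs : ∀ a, (cubeEquiv h (s, k, z) a).1 = (cubeEquiv h (t, k', z') a).1
    · have hk : k = k' := funext fun a => by
        simpa [cubeEquiv_lt] using hs (Fin.castLE h a)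
      obtain ⟨a, ha⟩ : ∃ a, z a ≠ z' a := by
        by_contra hc; push Not at hc
        exact hd (by rw [hk, funext hc])
      have hb : (z a).2 ≠ (z' a).2 := fun e => ha (Prod.ext (by
        simpa [cubeEquiv_ge] using hs a.1) e)
      refine le_of_eq_of_le ?_ (Finset.single_le_sum (fun c _ => by positivity)
        (Finset.mem_filter.2 ⟨Finset.mem_univ a.1, a.2⟩))
      simp only [C, nbit, siteOp_diagonal, Matrix.submatrix_apply, Matrix.sub_apply,
        Matrix.diagonal_mul, Matrix.mul_diagonal, cubeEquiv_ge]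
      cases h1 : (z a).2 <;> cases h2 : (z' a).2 <;> simp_all
    · push Not at hs
      obtain ⟨a, ha⟩ := hs
      rw [Q_entry_zero F ha]
      simp
      positivity
  have h1 : nsq ((F.Q L).submatrix (cubeEquiv h) (cubeEquiv h) -
      Matrix.blockDiagonal (block F h)) ≤
      ∑ a ∈ univ.filter (fun a : Fin L => N ≤ a.1),
        nsq ((C a).submatrix (cubeEquiv h) (cubeEquiv h)) := by
    simp only [nsq, ← Finset.sum_div]
    gcongr ?_ / _
    rw [Finset.sum_comm (s := univ.filter _)]
    refine Finset.sum_le_sum fun p _ => ?_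
    rw [Finset.sum_comm (s := univ.filter _)]
    exact Finset.sum_le_sum fun q _ => hpt p q
  refine h1.trans ((Finset.sum_le_sum (g := fun a : Fin L => (20 : ℝ) / (r a + 1))
    fun a _ => ?_).trans_eq ?_)
  · rw [nsq_submatrix_equiv]; exact bit_comm_le F a
  · rw [Finset.sum_filter, Fin.sum_univ_eq_sum_range (fun a => if N ≤ a then (20 : ℝ) / (r a + 1) else 0)]
    rw [← Finset.sum_filter]
    congr 1
    ext a; simp [Finset.mem_Ico, and_comm]

theorem gap_blocks (F : Family r) {N L : ℕ} (h : N ≤ L) (i : Fin N) :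
    gapI (F.Q L) (Fin.castLE h i) =
      (∑ b, gapC (block F h b) i) / Fintype.card (Cfg r N × Tail r N L) := by
  simp only [gapI, gapC, ← Finset.sum_div, div_div]
  rw [← (cubeEquiv h).sum_comp, Fintype.sum_prod_type, Finset.sum_comm,
    ← Fintype.card_congr (cubeEquiv h), Fintype.card_prod (Cube N)]
  congr 1
  · refine Finset.sum_congr rfl fun b _ => Finset.sum_congr rfl fun s _ => ?_
    obtain ⟨k, z⟩ := b
    simp [block, cubeEquiv_lt]
  · simp

/-- The averaged cube bound at a level `L ≥ N`. -/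
theorem level_bound (F : Family r) {N L : ℕ} (h : N ≤ L) (gens : Cfg r N → Finset (CMat N))
    {K δ η : ℝ} (hK : 0 ≤ K)
    (hb : ∀ k (A : CMat N), Contr A → ∀ i, gapC A i ≤ δ + K * defect (gens k) A)
    (hη : ∑ a ∈ Finset.Ico N L, (20 : ℝ) / (r a + 1) ≤ η) (i : Fin N) :
    gapI (F.Q L) (Fin.castLE h i) ≤ δ + K * (2 * nsq (F.Q L - F.Q L * F.Q L) +
      2 * ∑ k, ∑ g ∈ gens k, nsq ((1 - F.Q L) * lift h (cfgOp k g) * F.Q L) +
      8 * (1 + ∑ k, ∑ g ∈ gens k, fsq g) * η) := by
  have hcard : (0 : ℝ) < Fintype.card (Cfg r N × Tail r N L) := by exact_mod_cast Fintype.card_pos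
  have hQ' : Contr ((F.Q L).submatrix (cubeEquiv h) (cubeEquiv h)) := contr_submatrix (F.contr L) _ (cubeEquiv h).injective
  obtain ⟨hz, hg⟩ := defect_split hQ' (Z := Matrix.blockDiagonal (block F h))
    (contr_blockDiagonal_mul (block F h) (contr_block F h)) (contr_mul_blockDiagonal (block F h) (contr_block F h))
  have hD : nsq (((F.Q L).submatrix (cubeEquiv h) (cubeEquiv h)) - Matrix.blockDiagonal (block F h)) ≤ η := (block_dist F h).trans hη
  have e0 : nsq (((F.Q L).submatrix (cubeEquiv h) (cubeEquiv h)) - ((F.Q L).submatrix (cubeEquiv h) (cubeEquiv h)) * ((F.Q L).submatrix (cubeEquiv h) (cubeEquiv h))) = nsq (F.Q L - F.Q L * F.Q L) := by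
    rw [← nsq_submatrix_equiv (cubeEquiv h) (F.Q L - F.Q L * F.Q L), Matrix.submatrix_sub, Pi.sub_apply,
      Pi.sub_apply, ← Matrix.submatrix_mul_equiv _ _ _ (cubeEquiv h)]
  have e1 : nsq (Matrix.blockDiagonal (block F h) - Matrix.blockDiagonal (block F h) * Matrix.blockDiagonal (block F h)) =
      (∑ b, nsq (block F h b - block F h b * block F h b)) / Fintype.card (Cfg r N × Tail r N L) := by
    rw [← Matrix.blockDiagonal_mul, ← Matrix.blockDiagonal_sub, nsq_blockDiagonal]
    rfl
  have e2 : ∀ k, ∀ g ∈ gens k,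
      (∑ b : (Cfg r N × Tail r N L), if b.1 = k then nsq ((1 - block F h b) * g * block F h b) else 0) / Fintype.card (Cfg r N × Tail r N L) ≤
        2 * nsq ((1 - F.Q L) * lift h (cfgOp k g) * F.Q L) + 8 * fsq g * η := by
    intro k g _
    set G : (Cfg r N × Tail r N L) → CMat N := fun b => if b.1 = k then g else 0
    have hG : ∀ b, fsq (G b) ≤ fsq g := fun b => by
      by_cases hb : b.1 = k <;> simp [G, hb, fsq_nonneg]
      simp [fsq]; positivity
    have h1 := hg (Matrix.blockDiagonal G) (fsq g) (fsq_nonneg g) (nsq_blockDiagonal_mul G hG)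
      (mul_nsq_blockDiagonal G hG)
    have h2 : nsq ((1 - ((F.Q L).submatrix (cubeEquiv h) (cubeEquiv h))) * Matrix.blockDiagonal G * ((F.Q L).submatrix (cubeEquiv h) (cubeEquiv h))) =
        nsq ((1 - F.Q L) * lift h (cfgOp k g) * F.Q L) := by
      rw [← nsq_submatrix_equiv (cubeEquiv h) ((1 - F.Q L) * lift h (cfgOp k g) * F.Q L),
        ← Matrix.submatrix_mul_equiv _ _ _ (cubeEquiv h), ← Matrix.submatrix_mul_equiv _ _ _ (cubeEquiv h),
        Matrix.submatrix_sub, Pi.sub_apply, Pi.sub_apply, Matrix.submatrix_one_equiv,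
        lift_cfgOp_submatrix]
    have h3 : (1 - Matrix.blockDiagonal (block F h)) * Matrix.blockDiagonal G * Matrix.blockDiagonal (block F h) =
        Matrix.blockDiagonal fun b => (1 - block F h b) * G b * block F h b := by
      rw [← Matrix.blockDiagonal_one, ← Matrix.blockDiagonal_sub, ← Matrix.blockDiagonal_mul,
        ← Matrix.blockDiagonal_mul]
      rfl
    rw [h2, h3, nsq_blockDiagonal] at h1
    refine le_of_eq_of_le ?_ (h1.trans ?_)
    · congr 1
      refine Finset.sum_congr rfl fun b _ => ?_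
      by_cases hb : b.1 = k <;> simp [G, hb, nsq]
    · gcongr
      have := fsq_nonneg g; positivity
  have e3 : (∑ b, defect (gens b.1) (block F h b)) / Fintype.card (Cfg r N × Tail r N L) ≤
      2 * nsq (F.Q L - F.Q L * F.Q L) +
        2 * ∑ k, ∑ g ∈ gens k, nsq ((1 - F.Q L) * lift h (cfgOp k g) * F.Q L) +
        8 * (1 + ∑ k, ∑ g ∈ gens k, fsq g) * η := by
    have h4 : ∑ b : (Cfg r N × Tail r N L), ∑ g ∈ gens b.1, nsq ((1 - block F h b) * g * block F h b) =
        ∑ k, ∑ g ∈ gens k, ∑ b : (Cfg r N × Tail r N L), if b.1 = k then nsq ((1 - block F h b) * g * block F h b) else 0 := by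
      calc ∑ b : Cfg r N × Tail r N L, ∑ g ∈ gens b.1, nsq ((1 - block F h b) * g * block F h b)
          = ∑ b : Cfg r N × Tail r N L, ∑ k, if b.1 = k then
              ∑ g ∈ gens k, nsq ((1 - block F h b) * g * block F h b) else 0 := by
            simp only [Finset.sum_ite_eq, Finset.mem_univ, if_true]
        _ = _ := by
            rw [Finset.sum_comm]
            refine Finset.sum_congr rfl fun k _ => ?_
            rw [Finset.sum_comm]
            exact Finset.sum_congr rfl fun b _ => by split_ifs <;> simp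
    simp only [defect, Finset.sum_add_distrib, add_div]
    rw [h4, Finset.sum_div]
    simp only [Finset.sum_div]
    simp only [Finset.sum_div] at e1
    have h5 := Finset.sum_le_sum (s := (Finset.univ : Finset (Cfg r N))) fun k _ =>
      Finset.sum_le_sum (s := gens k) fun g hgk => e2 k g hgk
    simp only [Finset.sum_add_distrib, Finset.sum_div, ← Finset.mul_sum, ← Finset.sum_mul] at h5
    rw [e0] at hz
    linarith
  rw [gap_blocks]
  calc (∑ b, gapC (block F h b) i) / Fintype.card (Cfg r N × Tail r N L)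
      ≤ (∑ b, (δ + K * defect (gens b.1) (block F h b))) / Fintype.card (Cfg r N × Tail r N L) := by
        gcongr with b
        exact hb b.1 _ (contr_block F h b) i
    _ = δ + K * ((∑ b, defect (gens b.1) (block F h b)) / Fintype.card (Cfg r N × Tail r N L)) := by
        rw [Finset.sum_add_distrib, ← Finset.mul_sum, Finset.sum_const, Finset.card_univ,
          nsmul_eq_mul, add_div, mul_div_cancel_left₀ _ hcard.ne', mul_div_assoc]
    _ ≤ _ := by gcongr

end Tr

open Tr in
/-- C1, given the coherence of the gaps. -/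
theorem transferSpec (hG : GapCohSpec) : TransferSpec := by
  intro r F N gens K δ η hK hc hb hη i
  set Sf := ∑ k, ∑ g ∈ gens k, fsq g
  set err : ℕ → ℝ := fun L => K * (2 * nsq (F.Q L - F.Q L * F.Q L) +
    2 * ∑ k, ∑ g ∈ gens k,
      (if h : N ≤ L then nsq ((1 - F.Q L) * lift h (cfgOp k g) * F.Q L) else 0))
  have herr : Tendsto (fun L => δ + K * (8 * (1 + Sf) * η) + err L) atTop
      (𝓝 (δ + K * (8 * (1 + Sf) * η))) := by
    have h1 := (tendsto_finsetSum Finset.univ fun k _ => tendsto_finsetSum (gens k) fun g hg =>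
      F.inv N (cfgOp k g) (cfgOp_commute k g (hc k g hg))).const_mul (2 : ℝ)
    have h2 := ((F.proj.const_mul (2 : ℝ)).add h1).const_mul K
    simpa [err] using h2.const_add (δ + K * (8 * (1 + Sf) * η))
  have hSf : 0 ≤ Sf := Finset.sum_nonneg fun k _ => Finset.sum_nonneg fun g _ => fsq_nonneg g
  have hη0 : 0 ≤ η := le_trans (by simp) (hη N)
  refine le_trans (ge_of_tendsto herr ?_) ?_
  · filter_upwards [eventually_ge_atTop N] with L hL
    rw [← hG r F N L hL i]
    refine (level_bound F hL gens hK hb (hη L) i).trans (le_of_eq ?_)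
    simp only [err, dif_pos hL]
    ring
  · nlinarith [mul_nonneg (mul_nonneg hK (add_nonneg zero_le_one hSf)) hη0]

end

end Vale.Agent.P131
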