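import Vale.Agent.P131.Defs

/-!
# P131, module Transfer: generic facts about the normalised Hilbert-Schmidt norm
-/

namespace Vale.Agent.P131.Tr

open scoped Matrix ComplexOrder
open Finset

noncomputable section

variable {I J S B : Type*} [Fintype I] [Fintype J] [Fintype S] [Fintype B]

theorem nsq_nonneg (A : Matrix I I ℂ) : 0 ≤ nsq A := by
  unfold nsq; positivity

theorem fsq_nonneg (A : Matrix I I ℂ) : 0 ≤ fsq A := by
  unfold fsq; positivity

theorem nsq_conjTranspose (A : Matrix I I ℂ) : nsq Aᴴ = nsq A := by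
  unfold nsq; rw [Finset.sum_comm]; simp [Matrix.conjTranspose_apply]

theorem fsq_conjTranspose (A : Matrix I I ℂ) : fsq Aᴴ = fsq A := by
  unfold fsq; rw [Finset.sum_comm]; simp [Matrix.conjTranspose_apply]

theorem nsq_neg (A : Matrix I I ℂ) : nsq (-A) = nsq A := by simp [nsq]

theorem nsq_smul (c : ℂ) (A : Matrix I I ℂ) : nsq (c • A) = ‖c‖ ^ 2 * nsq A := by
  simp only [nsq, Matrix.smul_apply, smul_eq_mul, norm_mul, mul_pow, ← Finset.mul_sum]
  ring

theorem sq_add_le {t : ℝ} (ht : 0 < t) (x y : ℂ) :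
    ‖x + y‖ ^ 2 ≤ (1 + t) * ‖x‖ ^ 2 + (1 + 1 / t) * ‖y‖ ^ 2 := by
  have h0 : ‖x + y‖ ^ 2 ≤ (‖x‖ + ‖y‖) ^ 2 := by gcongr; exact norm_add_le _ _
  have h1 : 0 ≤ (t * ‖x‖ - ‖y‖) ^ 2 / t := by positivity
  have h2 : (t * ‖x‖ - ‖y‖) ^ 2 / t = t * ‖x‖ ^ 2 - 2 * ‖x‖ * ‖y‖ + 1 / t * ‖y‖ ^ 2 := by
    field_simp; ring
  nlinarith

theorem nsq_add_le {t : ℝ} (ht : 0 < t) (X Y : Matrix I I ℂ) :
    nsq (X + Y) ≤ (1 + t) * nsq X + (1 + 1 / t) * nsq Y := by
  simp only [nsq, ← mul_div_assoc, ← add_div, Finset.mul_sum, ← Finset.sum_add_distrib]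
  gcongr with x _ y _
  exact sq_add_le ht _ _

theorem nsq_add_two (X Y : Matrix I I ℂ) : nsq (X + Y) ≤ 2 * nsq X + 2 * nsq Y := by
  have h := nsq_add_le (t := 1) one_pos X Y; norm_num at h ⊢; linarith

theorem nsq_sub_two (X Y : Matrix I I ℂ) : nsq (X - Y) ≤ 2 * nsq X + 2 * nsq Y := by
  have h := nsq_add_two X (-Y); rwa [nsq_neg, ← sub_eq_add_neg] at h

theorem nsq_eq_trace (X : Matrix I I ℂ) :
    nsq X = (Xᴴ * X).trace.re / Fintype.card I := by
  simp only [nsq, Matrix.trace, Matrix.diag, Matrix.mul_apply, Matrix.conjTranspose_apply,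
    Complex.re_sum]
  rw [Finset.sum_comm]
  congr 1
  refine Finset.sum_congr rfl fun x _ => Finset.sum_congr rfl fun y _ => ?_
  rw [← Complex.normSq_eq_norm_sq, Complex.normSq_apply]
  simp [Complex.mul_re]

theorem nsq_congr {X Y : Matrix I I ℂ} (h : Xᴴ * X = Yᴴ * Y) : nsq X = nsq Y := by
  rw [nsq_eq_trace, nsq_eq_trace, h]

theorem nsq_mul_congr {X Y : Matrix I I ℂ} (h : Xᴴ * X = Yᴴ * Y) (Z : Matrix I I ℂ) :
    nsq (X * Z) = nsq (Y * Z) := by
  apply nsq_congr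
  simp only [Matrix.conjTranspose_mul]
  rw [Matrix.mul_assoc, Matrix.mul_assoc, ← Matrix.mul_assoc Xᴴ, ← Matrix.mul_assoc Yᴴ, h]

/-- If `1 - X*X` is positive, left multiplication by `X` contracts. -/
theorem nsq_mul_le_of_posSemidef [DecidableEq I] {X : Matrix I I ℂ}
    (h : (1 - Xᴴ * X).PosSemidef) (Y : Matrix I I ℂ) : nsq (X * Y) ≤ nsq Y := by
  have h1 := (h.conjTranspose_mul_mul_same Y).trace_nonneg
  rw [Complex.nonneg_iff] at h1
  have h2 : Yᴴ * (1 - Xᴴ * X) * Y = Yᴴ * Y - (X * Y)ᴴ * (X * Y) := by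
    simp [Matrix.conjTranspose_mul, Matrix.mul_sub, Matrix.sub_mul, Matrix.mul_assoc]
  rw [h2, Matrix.trace_sub, Complex.sub_re] at h1
  rw [nsq_eq_trace, nsq_eq_trace]
  exact div_le_div_of_nonneg_right (by linarith [h1.1]) (Nat.cast_nonneg _)

theorem contr_herm [DecidableEq I] {Q : Matrix I I ℂ} (h : Contr Q) : Qᴴ = Q := h.1.1

theorem contr_one_sub [DecidableEq I] {Q : Matrix I I ℂ} (h : Contr Q) : Contr (1 - Q) :=
  ⟨h.2, by rw [sub_sub_cancel]; exact h.1⟩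

theorem contr_sub_sq [DecidableEq I] {Q : Matrix I I ℂ} (h : Contr Q) :
    (Q - Q * Q).PosSemidef := by
  have h1 := h.2.conjTranspose_mul_mul_same Q
  have h2 := h.1.conjTranspose_mul_mul_same (1 - Q)
  rw [contr_herm h] at h1
  rw [contr_herm (contr_one_sub h)] at h2
  have h3 : Q * (1 - Q) * Q + (1 - Q) * Q * (1 - Q) = Q - Q * Q := by noncomm_ring
  rw [← h3]; exact h1.add h2

theorem contr_mul_left [DecidableEq I] {Q : Matrix I I ℂ} (h : Contr Q) (Y : Matrix I I ℂ) :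
    nsq (Q * Y) ≤ nsq Y := by
  refine nsq_mul_le_of_posSemidef ?_ Y
  rw [contr_herm h]
  have h3 : (1 - Q) + (Q - Q * Q) = 1 - Q * Q := by noncomm_ring
  rw [← h3]; exact h.2.add (contr_sub_sq h)

theorem contr_mul_right [DecidableEq I] {Q : Matrix I I ℂ} (h : Contr Q) (Y : Matrix I I ℂ) :
    nsq (Y * Q) ≤ nsq Y := by
  rw [← nsq_conjTranspose, Matrix.conjTranspose_mul, contr_herm h, ← nsq_conjTranspose Y]
  exact contr_mul_left h _

/-- `|X Q|^2 + |X (1-Q)|^2 ≤ |X|^2`. -/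
theorem contr_split [DecidableEq I] {Q : Matrix I I ℂ} (h : Contr Q) (X : Matrix I I ℂ) :
    nsq (X * Q) + nsq (X * (1 - Q)) ≤ nsq X := by
  have hp := (contr_sub_sq h).mul_mul_conjTranspose_same X
  have h1 := hp.trace_nonneg
  rw [Complex.nonneg_iff] at h1
  rw [← nsq_conjTranspose (X * Q), ← nsq_conjTranspose (X * (1 - Q)), ← nsq_conjTranspose X]
  simp only [nsq_eq_trace, Matrix.conjTranspose_mul, Matrix.conjTranspose_conjTranspose,
    contr_herm h, contr_herm (contr_one_sub h)]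
  rw [← add_div, ← Complex.add_re, ← Matrix.trace_add]
  have h2 : X * Q * (Q * Xᴴ) + X * (1 - Q) * ((1 - Q) * Xᴴ) =
      X * Xᴴ - (X * (Q - Q * Q) * Xᴴ + X * (Q - Q * Q) * Xᴴ) := by noncomm_ring
  rw [h2, Matrix.trace_sub, Matrix.trace_add, Complex.sub_re, Complex.add_re]
  gcongr
  linarith [h1.1]

variable [DecidableEq S] [DecidableEq B]

theorem nsq_submatrix_equiv (e : J ≃ I) (A : Matrix I I ℂ) : nsq (A.submatrix e e) = nsq A := by
  unfold nsq
  rw [Fintype.card_congr e]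
  congr 1
  exact Fintype.sum_equiv e _ _ fun x => Fintype.sum_equiv e _ _ fun y => rfl

theorem nsq_blockDiagonal (A : B → Matrix S S ℂ) :
    nsq (Matrix.blockDiagonal A) = (∑ b, nsq (A b)) / Fintype.card B := by
  simp only [nsq, Fintype.card_prod, Nat.cast_mul, Fintype.sum_prod_type]
  rw [← Finset.sum_div, div_div]
  congr 1
  rw [Finset.sum_comm]
  refine Finset.sum_congr rfl fun b _ => Finset.sum_congr rfl fun s _ =>
    Finset.sum_congr rfl fun t _ => ?_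
  simp [Matrix.blockDiagonal_apply, apply_ite (fun z : ℂ => ‖z‖), ite_pow]

theorem nsq_blockDiagonal_mul (g : B → Matrix S S ℂ) {C : ℝ} (hC : ∀ b, fsq (g b) ≤ C)
    (Y : Matrix (S × B) (S × B) ℂ) : nsq (Matrix.blockDiagonal g * Y) ≤ C * nsq Y := by
  have hent : ∀ s b w, (Matrix.blockDiagonal g * Y) (s, b) w = ∑ t, g b s t * Y (t, b) w := by
    intro s b w
    simp [Matrix.mul_apply, Matrix.blockDiagonal_apply, Fintype.sum_prod_type]
  rw [nsq, nsq, mul_div_assoc']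
  gcongr
  rw [Fintype.sum_prod_type, Finset.sum_comm]
  rw [Fintype.sum_prod_type, Finset.sum_comm (s := (Finset.univ : Finset S)), Finset.mul_sum]
  refine Finset.sum_le_sum fun b _ => ?_
  calc ∑ s, ∑ w, ‖(Matrix.blockDiagonal g * Y) (s, b) w‖ ^ 2
      ≤ ∑ s, ∑ w, (∑ t, ‖g b s t‖ ^ 2) * ∑ t, ‖Y (t, b) w‖ ^ 2 := by
        refine Finset.sum_le_sum fun s _ => Finset.sum_le_sum fun w _ => ?_
        rw [hent]
        refine (pow_le_pow_left₀ (norm_nonneg _) (norm_sum_le _ _) 2).trans ?_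
        simp only [norm_mul]
        exact Finset.sum_mul_sq_le_sq_mul_sq _ _ _
    _ = fsq (g b) * ∑ t, ∑ w, ‖Y (t, b) w‖ ^ 2 := by
        rw [fsq, Finset.sum_mul]
        refine Finset.sum_congr rfl fun s _ => ?_
        rw [← Finset.mul_sum, Finset.sum_comm]
    _ ≤ C * ∑ t, ∑ w, ‖Y (t, b) w‖ ^ 2 := by
        gcongr
        exact hC b

theorem mul_nsq_blockDiagonal (g : B → Matrix S S ℂ) {C : ℝ} (hC : ∀ b, fsq (g b) ≤ C)
    (Y : Matrix (S × B) (S × B) ℂ) : nsq (Y * Matrix.blockDiagonal g) ≤ C * nsq Y := by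
  rw [← nsq_conjTranspose, Matrix.conjTranspose_mul, Matrix.blockDiagonal_conjTranspose,
    ← nsq_conjTranspose Y]
  exact nsq_blockDiagonal_mul _ (fun b => by rw [fsq_conjTranspose]; exact hC b) _

theorem contr_blockDiagonal_mul (A : B → Matrix S S ℂ) (hA : ∀ b, Contr (A b))
    (Y : Matrix (S × B) (S × B) ℂ) : nsq (Matrix.blockDiagonal A * Y) ≤ nsq Y := by
  have h : ∀ (b : B) (v : S → ℂ), ∑ s, ‖(A b *ᵥ v) s‖ ^ 2 ≤ ∑ s, ‖v s‖ ^ 2 := by
    intro b v
    have hp : (1 - (A b)ᴴ * A b).PosSemidef := by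
      rw [contr_herm (hA b)]
      have h3 : (1 - A b) + (A b - A b * A b) = 1 - A b * A b := by noncomm_ring
      rw [← h3]; exact (hA b).2.add (contr_sub_sq (hA b))
    have h1 := hp.dotProduct_mulVec_nonneg v
    rw [Complex.nonneg_iff] at h1
    have h0 := h1.1
    rw [Matrix.sub_mulVec, Matrix.one_mulVec, dotProduct_sub, ← Matrix.mulVec_mulVec,
      Matrix.dotProduct_mulVec, ← Matrix.star_mulVec, Complex.sub_re] at h0
    have hn : ∀ u : S → ℂ, (star u ⬝ᵥ u).re = ∑ s, ‖u s‖ ^ 2 := by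
      intro u
      simp only [dotProduct, Complex.re_sum, Pi.star_apply]
      refine Finset.sum_congr rfl fun s _ => ?_
      rw [← Complex.normSq_eq_norm_sq, Complex.normSq_apply]
      simp [Complex.mul_re]
    rw [hn, hn] at h0
    linarith
  unfold nsq
  gcongr ?_ / _
  rw [Fintype.sum_prod_type, Finset.sum_comm]
  rw [Fintype.sum_prod_type, Finset.sum_comm (s := (Finset.univ : Finset S))]
  refine Finset.sum_le_sum fun b _ => ?_
  rw [Finset.sum_comm]
  rw [Finset.sum_comm (f := fun s w => ‖Y (s, b) w‖ ^ 2)]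
  refine Finset.sum_le_sum fun w _ => ?_
  have hent : ∀ s, (Matrix.blockDiagonal A * Y) (s, b) w = (A b *ᵥ fun t => Y (t, b) w) s := by
    intro s
    simp [Matrix.mul_apply, Matrix.blockDiagonal_apply, Fintype.sum_prod_type, Matrix.mulVec,
      dotProduct]
  simp only [hent]
  exact h b _

theorem contr_mul_blockDiagonal (A : B → Matrix S S ℂ) (hA : ∀ b, Contr (A b))
    (Y : Matrix (S × B) (S × B) ℂ) : nsq (Y * Matrix.blockDiagonal A) ≤ nsq Y := by
  rw [← nsq_conjTranspose, Matrix.conjTranspose_mul, Matrix.blockDiagonal_conjTranspose,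
    ← nsq_conjTranspose Y]
  exact contr_blockDiagonal_mul _ (fun b => by rw [contr_herm (hA b)]; exact hA b) _

/-- The defect comparison: `Q` near a block diagonal matrix of contractions. -/
theorem defect_split [DecidableEq I] {Q : Matrix I I ℂ} (hQ : Contr Q) {Z : Matrix I I ℂ}
    (hZl : ∀ Y, nsq (Z * Y) ≤ nsq Y) (hZr : ∀ Y, nsq (Y * Z) ≤ nsq Y) :
    nsq (Z - Z * Z) ≤ 2 * nsq (Q - Q * Q) + 8 * nsq (Q - Z) ∧
      ∀ (G : Matrix I I ℂ) (C : ℝ), 0 ≤ C → (∀ Y, nsq (G * Y) ≤ C * nsq Y) →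
        (∀ Y, nsq (Y * G) ≤ C * nsq Y) →
        nsq ((1 - Z) * G * Z) ≤ 2 * nsq ((1 - Q) * G * Q) + 8 * C * nsq (Q - Z) := by
  have hn : nsq (Z - Q) = nsq (Q - Z) := by rw [← nsq_neg, neg_sub]
  constructor
  · have e : Z - Z * Z = (Q - Q * Q) + ((1 - Q) * (Z - Q) + (Q - Z) * Z) := by noncomm_ring
    have h1 := nsq_add_two (Q - Q * Q) ((1 - Q) * (Z - Q) + (Q - Z) * Z)
    have h2 := nsq_add_two ((1 - Q) * (Z - Q)) ((Q - Z) * Z)
    have h3 := contr_mul_left (contr_one_sub hQ) (Z - Q)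
    have h4 := hZr (Q - Z)
    rw [← e] at h1
    linarith
  · intro G C hC hGl hGr
    have e : (1 - Z) * G * Z = (1 - Q) * G * Q + ((Q - Z) * G * Z + (1 - Q) * (G * (Z - Q))) := by
      noncomm_ring
    have h1 := nsq_add_two ((1 - Q) * G * Q) ((Q - Z) * G * Z + (1 - Q) * (G * (Z - Q)))
    have h2 := nsq_add_two ((Q - Z) * G * Z) ((1 - Q) * (G * (Z - Q)))
    have h3 := (hZr ((Q - Z) * G)).trans (hGr (Q - Z))
    have h4 := (contr_mul_left (contr_one_sub hQ) (G * (Z - Q))).trans (hGl (Z - Q))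
    rw [← e] at h1
    rw [hn] at h4
    nlinarith

end

end Vale.Agent.P131.Tr
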