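import Vale.Agent.P131.TransferGen

/-!
# P131, module Transfer: coordinates on the tower
-/

namespace Vale.Agent.P131.Tr

open scoped Matrix ComplexOrder
open Finset

noncomputable section

variable {r : ℕ → ℕ}

/-- The other sites. -/
abbrev Rest (r : ℕ → ℕ) {L : ℕ} (a : Fin L) : Type := ∀ b : {b : Fin L // b ≠ a}, Site r b.1

/-- Split off site `a`. -/
def siteEquiv {L : ℕ} (a : Fin L) : Site r a × Rest r a ≃ Idx r L :=
  (Equiv.piSplitAt a fun b : Fin L => Site r b).symm

theorem siteEquiv_self {L : ℕ} (a : Fin L) (p : Site r a × Rest r a) : siteEquiv a p a = p.1 := by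
  simp [siteEquiv, Equiv.piSplitAt]

theorem siteEquiv_ne {L : ℕ} (a : Fin L) (p : Site r a × Rest r a) (b : Fin L) (hb : b ≠ a) :
    siteEquiv a p b = p.2 ⟨b, hb⟩ := by
  simp [siteEquiv, Equiv.piSplitAt, hb]

theorem siteOp_submatrix {L : ℕ} (a : Fin L) (g : Matrix (Site r a) (Site r a) ℂ) :
    (siteOp a g).submatrix (siteEquiv a) (siteEquiv a) =
      Matrix.blockDiagonal fun _ : Rest r a => g := by
  ext ⟨u, z⟩ ⟨v, z'⟩
  have h : (∀ b, b ≠ a → siteEquiv a (u, z) b = siteEquiv a (v, z') b) ↔ z = z' := by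
    constructor
    · intro h; funext b; have := h b.1 b.2
      rwa [siteEquiv_ne _ _ _ b.2, siteEquiv_ne _ _ _ b.2] at this
    · rintro rfl b hb; rw [siteEquiv_ne _ _ _ hb, siteEquiv_ne _ _ _ hb]
  simp [siteOp, Matrix.blockDiagonal_apply, siteEquiv_self, h]

theorem submatrix_inj {I J : Type*} (e : J ≃ I) {A B : Matrix I I ℂ}
    (h : A.submatrix e e = B.submatrix e e) : A = B := by
  ext x y
  simpa using congr_fun (congr_fun h (e.symm x)) (e.symm y)

theorem siteOp_mul {L : ℕ} (a : Fin L) (g h : Matrix (Site r a) (Site r a) ℂ) :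
    siteOp a g * siteOp a h = siteOp a (g * h) := by
  refine submatrix_inj (siteEquiv a) ?_
  rw [← Matrix.submatrix_mul_equiv _ _ _ (siteEquiv a), siteOp_submatrix, siteOp_submatrix,
    siteOp_submatrix, ← Matrix.blockDiagonal_mul]

theorem siteOp_conjTranspose {L : ℕ} (a : Fin L) (g : Matrix (Site r a) (Site r a) ℂ) :
    (siteOp a g)ᴴ = siteOp a gᴴ := by
  refine submatrix_inj (siteEquiv a) ?_
  rw [← Matrix.conjTranspose_submatrix, siteOp_submatrix, siteOp_submatrix,
    Matrix.blockDiagonal_conjTranspose]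

theorem nsq_siteOp {L : ℕ} (a : Fin L) (g : Matrix (Site r a) (Site r a) ℂ) :
    nsq (siteOp a g) = nsq g := by
  rw [← nsq_submatrix_equiv (siteEquiv a), siteOp_submatrix, nsq_blockDiagonal, Finset.sum_const,
    Finset.card_univ, nsmul_eq_mul, mul_div_cancel_left₀]
  exact_mod_cast Fintype.card_ne_zero

theorem nsq_siteOp_mul {L : ℕ} (a : Fin L) (g : Matrix (Site r a) (Site r a) ℂ) (Y : Mat r L) :
    nsq (siteOp a g * Y) ≤ fsq g * nsq Y := by
  rw [← nsq_submatrix_equiv (siteEquiv a) (siteOp a g * Y),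
    ← nsq_submatrix_equiv (siteEquiv a) Y,
    ← Matrix.submatrix_mul_equiv _ _ _ (siteEquiv a), siteOp_submatrix]
  exact nsq_blockDiagonal_mul _ (fun _ => le_rfl) _

theorem mul_nsq_siteOp {L : ℕ} (a : Fin L) (g : Matrix (Site r a) (Site r a) ℂ) (Y : Mat r L) :
    nsq (Y * siteOp a g) ≤ fsq g * nsq Y := by
  rw [← nsq_submatrix_equiv (siteEquiv a) (Y * siteOp a g),
    ← nsq_submatrix_equiv (siteEquiv a) Y,
    ← Matrix.submatrix_mul_equiv _ _ _ (siteEquiv a), siteOp_submatrix]
  exact mul_nsq_blockDiagonal _ (fun _ => le_rfl) _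

theorem siteOp_mul_siteOp_apply {L : ℕ} {a b : Fin L} (hab : a ≠ b)
    (g : Matrix (Site r a) (Site r a) ℂ) (h : Matrix (Site r b) (Site r b) ℂ) (x y : Idx r L) :
    (siteOp a g * siteOp b h) x y =
      if ∀ c, c ≠ a → c ≠ b → x c = y c then g (x a) (y a) * h (x b) (y b) else 0 := by
  rw [Matrix.mul_apply, Finset.sum_eq_single (Function.update x a (y a))]
  · by_cases hc : ∀ c, c ≠ a → c ≠ b → x c = y c
    · rw [if_pos hc]
      have h1 : ∀ c, c ≠ a → x c = Function.update x a (y a) c := fun c hc' => by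
        rw [Function.update_of_ne hc']
      have h2 : ∀ c, c ≠ b → Function.update x a (y a) c = y c := fun c hc' => by
        by_cases h3 : c = a
        · subst h3; simp
        · rw [Function.update_of_ne h3]; exact hc c h3 hc'
      simp only [siteOp, Matrix.of_apply]
      rw [if_pos h1, if_pos h2]
      simp [Function.update_of_ne hab.symm]
    · rw [if_neg hc]
      simp only [siteOp, Matrix.of_apply]
      rw [if_neg (c := ∀ c, c ≠ b → Function.update x a (y a) c = y c), mul_zero]
      intro h2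
      exact hc fun c hca hcb => by
        have := h2 c hcb; rwa [Function.update_of_ne hca] at this
  · intro z _ hz
    simp only [siteOp, Matrix.of_apply]
    split_ifs with h1 h2
    · exact absurd (funext fun c => by
        by_cases h3 : c = a
        · subst h3; simp [h2 c hab]
        · rw [Function.update_of_ne h3]; exact (h1 c h3).symm) hz
    all_goals simp
  · simp

theorem siteOp_commute {L : ℕ} {a b : Fin L} (hab : a ≠ b)
    (g : Matrix (Site r a) (Site r a) ℂ) (h : Matrix (Site r b) (Site r b) ℂ) :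
    Commute (siteOp a g) (siteOp b h) := by
  ext x y
  rw [siteOp_mul_siteOp_apply hab, siteOp_mul_siteOp_apply hab.symm]
  simp only [mul_comm (g (x a) (y a))]
  congr 1
  exact propext ⟨fun h c h1 h2 => h c h2 h1, fun h c h1 h2 => h c h2 h1⟩

theorem siteOp_commute_tmat {L : ℕ} (a : Fin L) (g : Matrix (Site r a) (Site r a) ℂ)
    (hg : Commute g (siteX r a)) : Commute (siteOp a g) (tmat r L) := by
  refine Commute.sum_right _ _ _ fun b _ => ?_
  by_cases h : a = b
  · subst h; unfold Commute SemiconjBy; rw [siteOp_mul, siteOp_mul, hg.eq]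
  · exact siteOp_commute h _ _

theorem lift_siteOp {L M : ℕ} (h : L ≤ M) (a : Fin L) (g : Matrix (Site r a) (Site r a) ℂ) :
    lift h (siteOp a g) = siteOp (Fin.castLE h a) g := by
  ext x y
  simp only [lift, siteOp, Matrix.of_apply]
  by_cases hh : ∀ c, c ≠ Fin.castLE h a → x c = y c
  · have h1 : ∀ c : Fin M, L ≤ c.1 → x c = y c := fun c hc => hh c fun e => by
      subst e; simp at hc; omega
    have h2 : ∀ b : Fin L, b ≠ a → head h x b = head h y b := fun c hc => hh _ fun e =>
      hc (Fin.ext (by simpa using congrArg Fin.val e))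
    rw [if_pos hh, if_pos h1, if_pos h2]
    rfl
  · rw [if_neg hh]
    split_ifs with h1 h2
    · exact absurd (fun c hc => by
        by_cases hL : L ≤ c.1
        · exact h1 c hL
        · exact h2 ⟨c.1, not_le.1 hL⟩ fun e => hc (Fin.ext (by simpa using congrArg Fin.val e))) hh
    all_goals rfl

/-! ### The split into head and tail -/

/-- The sites from `L` to `M`. -/
abbrev Tail (r : ℕ → ℕ) (L M : ℕ) : Type := ∀ a : {a : Fin M // L ≤ a.1}, Site r a.1

/-- Split the sites below `M` at `L`. -/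
def tailEquiv {L M : ℕ} (h : L ≤ M) : Idx r L × Tail r L M ≃ Idx r M where
  toFun p a := if ha : L ≤ a.1 then p.2 ⟨a, ha⟩ else p.1 ⟨a.1, not_le.1 ha⟩
  invFun x := (head h x, fun a => x a.1)
  left_inv p := by
    refine Prod.ext (funext fun a => ?_) (funext fun a => ?_)
    · simp only [head]; rw [dif_neg (by simp)]; rfl
    · simp [a.2]
  right_inv x := by
    funext a
    by_cases ha : L ≤ a.1 <;> simp [ha, head]

theorem head_tailEquiv {L M : ℕ} (h : L ≤ M) (p : Idx r L × Tail r L M) :
    head h (tailEquiv h p) = p.1 :=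
  congrArg Prod.fst ((tailEquiv h).left_inv p)

theorem tail_eq_iff {L M : ℕ} (h : L ≤ M) (p q : Idx r L × Tail r L M) :
    (∀ a : Fin M, L ≤ a.1 → tailEquiv h p a = tailEquiv h q a) ↔ p.2 = q.2 := by
  constructor
  · intro hh; funext a; simpa [tailEquiv, a.2] using hh a.1 a.2
  · intro hh a ha; simp [tailEquiv, ha, hh]

theorem lift_submatrix {L M : ℕ} (h : L ≤ M) (A : Mat r L) :
    (lift h A).submatrix (tailEquiv h) (tailEquiv h) =
      Matrix.blockDiagonal fun _ : Tail r L M => A := by
  ext p q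
  obtain ⟨u, z⟩ := p
  obtain ⟨v, z'⟩ := q
  simp [lift, Matrix.blockDiagonal_apply, head_tailEquiv, tail_eq_iff]

theorem card_idx {L M : ℕ} (h : L ≤ M) :
    Fintype.card (Idx r M) = Fintype.card (Idx r L) * Fintype.card (Tail r L M) := by
  rw [← Fintype.card_prod, Fintype.card_congr (tailEquiv h)]

theorem cexp_apply' {L M : ℕ} (h : L ≤ M) (B : Mat r M) (u v : Idx r L) :
    cexp h B u v = (∑ z, B.submatrix (tailEquiv h) (tailEquiv h) (u, z) (v, z)) /
      (Fintype.card (Tail r L M) : ℂ) := by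
  have h0 : (Fintype.card (Idx r L) : ℂ) ≠ 0 := by exact_mod_cast Fintype.card_ne_zero
  simp only [cexp, Matrix.of_apply, card_idx h, Nat.cast_mul]
  rw [div_mul_cancel_left₀ h0, inv_mul_eq_div]
  congr 1
  rw [← (tailEquiv h).sum_comp]
  rw [Fintype.sum_prod_type, Finset.sum_eq_single u]
  · refine Finset.sum_congr rfl fun z _ => ?_
    rw [← (tailEquiv h).sum_comp, Finset.sum_eq_single (v, z)]
    · simp [head_tailEquiv, tail_eq_iff]
    · intro q _ hq
      obtain ⟨v', z'⟩ := q
      simp only [head_tailEquiv, tail_eq_iff]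
      rw [if_neg]
      rintro ⟨-, rfl, rfl⟩; exact hq rfl
    · simp
  · intro u' _ hu'
    exact Finset.sum_eq_zero fun z _ => Finset.sum_eq_zero fun y _ => by simp [head_tailEquiv, hu']
  · simp

theorem nsq_cexp {L M : ℕ} (h : L ≤ M) (B : Mat r M) : nsq (cexp h B) ≤ nsq B := by
  rw [← nsq_submatrix_equiv (tailEquiv h) B]
  unfold nsq
  rw [Fintype.card_prod, Nat.cast_mul, Finset.sum_div, Finset.sum_div, Fintype.sum_prod_type]
  refine Finset.sum_le_sum fun u _ => ?_
  rw [← Finset.sum_div, mul_comm, ← div_div]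
  gcongr
  rw [Finset.sum_comm]
  simp only [Fintype.sum_prod_type]
  rw [Finset.sum_div]
  refine Finset.sum_le_sum fun v _ => ?_
  rw [cexp_apply', norm_div, div_pow, Complex.norm_natCast, pow_two (Fintype.card _ : ℝ),
    ← div_div]
  gcongr ?_ / _
  rw [div_le_iff₀ (by exact_mod_cast Fintype.card_pos)]
  calc ‖∑ z, B.submatrix (tailEquiv h) (tailEquiv h) (u, z) (v, z)‖ ^ 2
      ≤ (∑ z, ‖B.submatrix (tailEquiv h) (tailEquiv h) (u, z) (v, z)‖) ^ 2 := by
        gcongr; exact norm_sum_le _ _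
    _ ≤ (Fintype.card (Tail r L M) : ℝ) *
        ∑ z, ‖B.submatrix (tailEquiv h) (tailEquiv h) (u, z) (v, z)‖ ^ 2 :=
        sq_sum_le_card_mul_sum_sq
    _ ≤ _ := by
        rw [mul_comm]
        gcongr with z
        exact Finset.single_le_sum
          (f := fun z' => ‖B.submatrix (tailEquiv h) (tailEquiv h) (u, z') (v, z)‖ ^ 2)
          (fun z' _ => by positivity) (Finset.mem_univ z)

theorem cexp_comm {L M : ℕ} (h : L ≤ M) (A : Mat r L) (B : Mat r M) :
    cexp h (lift h A * B - B * lift h A) = A * cexp h B - cexp h B * A := by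
  ext u v
  rw [cexp_apply', Matrix.submatrix_sub, Pi.sub_apply, Pi.sub_apply, ← Matrix.submatrix_mul_equiv _ _ _ (tailEquiv h),
    ← Matrix.submatrix_mul_equiv _ _ _ (tailEquiv h), lift_submatrix]
  simp only [Pi.sub_apply, Finset.sum_sub_distrib, Matrix.sub_apply, Matrix.mul_apply,
    cexp_apply', Matrix.blockDiagonal_apply, Fintype.sum_prod_type, ite_mul, mul_ite, zero_mul,
    mul_zero, Finset.sum_ite_eq, Finset.sum_ite_eq', Finset.mem_univ, if_true, mul_div_assoc',
    div_mul_eq_mul_div, sub_div]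
  congr 1
  · simp only [Finset.mul_sum, Finset.sum_div]
    exact Finset.sum_comm
  · simp only [Finset.sum_mul, Finset.sum_div]
    exact Finset.sum_comm

/-! ### Cube coordinates below `N` -/

/-- Configuration and bits. -/
def bitEquiv (r : ℕ → ℕ) (N : ℕ) : Cube N × Cfg r N ≃ Idx r N where
  toFun p a := (p.2 a, p.1 a)
  invFun x := (fun a => (x a).2, fun a => (x a).1)
  left_inv _ := rfl
  right_inv _ := rfl

/-- Bits below `N` against everything else. -/
def cubeEquiv {N L : ℕ} (h : N ≤ L) : Cube N × (Cfg r N × Tail r N L) ≃ Idx r L :=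
  ((Equiv.prodAssoc _ _ _).symm.trans
    ((bitEquiv r N).prodCongr (Equiv.refl _))).trans (tailEquiv h)

/-- `|k⟩⟨k| ⊗ g` below `N`. -/
def cfgOp {N : ℕ} (k : Cfg r N) (g : CMat N) : Mat r N :=
  (Matrix.blockDiagonal fun k' : Cfg r N => if k' = k then g else 0).submatrix
    (bitEquiv r N).symm (bitEquiv r N).symm

theorem tmat_submatrix (r : ℕ → ℕ) (N : ℕ) :
    (tmat r N).submatrix (bitEquiv r N) (bitEquiv r N) =
      Matrix.blockDiagonal fun k : Cfg r N => cubeT (cfgCoef k) := by
  ext ⟨s, k⟩ ⟨t, k'⟩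
  simp only [tmat, Matrix.submatrix_apply, Matrix.sum_apply, Matrix.blockDiagonal_apply, cubeT,
    Matrix.smul_apply, cubeV, Matrix.of_apply, siteOp, siteX, bitEquiv, Equiv.coe_fn_mk,
    smul_eq_mul, mul_ite, mul_one, mul_zero]
  by_cases hk : k = k'
  · subst hk
    rw [if_pos rfl]
    refine Finset.sum_congr rfl fun a _ => ?_
    simp only [true_and, cfgCoef]
    rw [← ite_and]
    congr 1
    refine propext ⟨fun h => ⟨h.2.1, funext fun b => ?_⟩, fun h => ⟨fun b hb => ?_, h.1, ?_⟩⟩
    · by_cases hb : b = a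
      · subst hb; simp [h.2.2]
      · rw [Function.update_of_ne hb]; exact (congrArg Prod.snd (h.1 b hb)).symm
    · rw [h.2, Function.update_of_ne hb]
    · rw [h.2]; simp
  · rw [if_neg hk]
    refine Finset.sum_eq_zero fun a _ => ?_
    rw [← ite_and, if_neg]
    intro h
    exact hk (funext fun b => by
      by_cases hb : b = a
      · subst hb; exact h.2.1
      · exact congrArg Prod.fst (h.1 b hb))

theorem cfgOp_commute {N : ℕ} (k : Cfg r N) (g : CMat N)
    (hg : Commute g (cubeT (cfgCoef k))) : Commute (cfgOp k g) (tmat r N) := by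
  refine submatrix_inj (bitEquiv r N) ?_
  rw [← Matrix.submatrix_mul_equiv _ _ _ (bitEquiv r N),
    ← Matrix.submatrix_mul_equiv _ _ _ (bitEquiv r N), tmat_submatrix]
  simp only [cfgOp, Matrix.submatrix_submatrix, Equiv.symm_comp_self, Matrix.submatrix_id_id]
  rw [← Matrix.blockDiagonal_mul, ← Matrix.blockDiagonal_mul]
  congr 1; funext k'
  by_cases h : k' = k
  · subst h; simp [hg.eq]
  · simp [h]

theorem lift_cfgOp_submatrix {N L : ℕ} (h : N ≤ L) (k : Cfg r N) (g : CMat N) :
    (lift h (cfgOp k g)).submatrix (cubeEquiv h) (cubeEquiv h) =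
      Matrix.blockDiagonal fun b : Cfg r N × Tail r N L => if b.1 = k then g else 0 := by
  ext ⟨s, k1, z⟩ ⟨t, k2, z'⟩
  have hl := fun p q => congr_fun (congr_fun (lift_submatrix h (cfgOp k g)) p) q
  simp only [Matrix.submatrix_apply] at hl
  simp only [cubeEquiv, Matrix.submatrix_apply, Equiv.trans_apply, Equiv.prodCongr_apply,
    Equiv.prodAssoc_symm_apply, Prod.map_apply, Equiv.refl_apply, hl]
  simp only [cfgOp, Matrix.blockDiagonal_apply, Matrix.submatrix_apply, Equiv.symm_apply_apply]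
  split_ifs <;> simp_all

end

end Vale.Agent.P131.Tr
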