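import Vale.Agent.P131.TransferSite

/-!
# P131, module Transfer: every site is nearly diagonal (selector telescoping)
-/

namespace Vale.Agent.P131.Tr

open scoped Matrix ComplexOrder
open Finset Filter Topology

noncomputable section

/-! ### Site matrices -/

variable {r : ℕ → ℕ} {a : ℕ}

/-- The selector projection. -/
def sel (r : ℕ → ℕ) (a : ℕ) (k : Fin (r a + 1)) : Matrix (Site r a) (Site r a) ℂ :=
  Matrix.diagonal fun u => if u.1 = k then 1 else 0

/-- The projection on bit `0`. -/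
def nbit (r : ℕ → ℕ) (a : ℕ) : Matrix (Site r a) (Site r a) ℂ :=
  Matrix.diagonal fun u => if u.2 then 0 else 1

/-- `|k⟩⟨k| ⊗ diag(1,2)`. -/
def wgt (r : ℕ → ℕ) (a : ℕ) (k : Fin (r a + 1)) : Matrix (Site r a) (Site r a) ℂ :=
  Matrix.diagonal fun u => if u.1 = k then (if u.2 then 2 else 1) else 0

/-- `|k+1⟩⟨k| ⊗ diag(1,2)`. -/
def shift (r : ℕ → ℕ) (a : ℕ) (k : Fin (r a)) : Matrix (Site r a) (Site r a) ℂ :=
  Matrix.of fun u v =>
    if u = (k.succ, v.2) ∧ v.1 = k.castSucc then (if v.2 then 2 else 1) else 0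

theorem sel_commute (k : Fin (r a + 1)) : Commute (sel r a k) (siteX r a) := by
  ext u v
  simp only [sel, Matrix.diagonal_mul, Matrix.mul_diagonal, siteX, Matrix.of_apply]
  by_cases h : u.1 = v.1
  · rw [h]; split_ifs <;> simp
  · simp [h]

theorem coef_succ (k : Fin (r a)) : 2 * (coef a (k.succ : ℕ) : ℂ) = coef a (k.castSucc : ℕ) := by
  simp only [coef, Fin.val_succ, Fin.val_castSucc, ← add_assoc, pow_succ]
  push_cast
  ring

theorem shift_commute (k : Fin (r a)) : Commute (shift r a k) (siteX r a) := by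
  ext ⟨u, b⟩ ⟨v, c⟩
  simp only [Matrix.mul_apply, Fintype.sum_prod_type, Fintype.sum_bool, shift, siteX,
    Matrix.of_apply, Prod.ext_iff]
  rw [Finset.sum_eq_single v (fun w _ hw => by simp [hw]) (by simp),
    Finset.sum_eq_single u (fun w _ hw => by simp [Ne.symm hw]) (by simp)]
  cases b <;> cases c <;> simp
  by_cases h1 : u = k.succ <;> by_cases h2 : v = k.castSucc <;> simp_all
  rw [mul_comm, ← Fin.val_succ, coef_succ, Fin.val_castSucc]

theorem shift_star_mul (k : Fin (r a)) :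
    (shift r a k)ᴴ * shift r a k = wgt r a k.castSucc * wgt r a k.castSucc := by
  ext u v
  rw [Matrix.mul_apply, Finset.sum_eq_single (k.succ, v.2)
    (fun w _ hw => by simp [shift, hw]) (by simp)]
  simp only [wgt, Matrix.diagonal_mul_diagonal, Matrix.diagonal_apply, Matrix.conjTranspose_apply,
    shift, Matrix.of_apply, Prod.mk.injEq, true_and]
  obtain ⟨u1, ub⟩ := u; obtain ⟨v1, vb⟩ := v
  cases ub <;> cases vb <;> by_cases h : u1 = k.castSucc <;> by_cases h' : v1 = k.castSucc <;>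
    simp_all [Prod.ext_iff] <;> simp_all [eq_comm]

theorem shift_mul_star (k : Fin (r a)) :
    shift r a k * (shift r a k)ᴴ = wgt r a k.succ * wgt r a k.succ := by
  ext u v
  rw [Matrix.mul_apply, Finset.sum_eq_single (k.castSucc, u.2)
    (fun w _ hw => by
      rw [shift, Matrix.of_apply, if_neg, zero_mul]
      rintro ⟨h1, h2⟩; exact hw (Prod.ext h2 (by rw [h1]))) (by simp)]
  simp only [wgt, Matrix.diagonal_mul_diagonal, Matrix.diagonal_apply, Matrix.conjTranspose_apply,
    shift, Matrix.of_apply, and_true]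
  obtain ⟨u1, ub⟩ := u; obtain ⟨v1, vb⟩ := v
  cases ub <;> cases vb <;> by_cases h : u1 = k.succ <;> by_cases h' : v1 = k.succ <;>
    simp_all [Prod.ext_iff] <;> simp_all [eq_comm]

theorem wgt_sq (k : Fin (r a + 1)) :
    wgt r a k * wgt r a k = (4 : ℂ) • sel r a k - (3 : ℂ) • (sel r a k * nbit r a) := by
  simp only [wgt, sel, nbit, Matrix.diagonal_mul_diagonal, ← Matrix.diagonal_smul,
    Matrix.diagonal_sub]
  congr 1; funext u
  by_cases h : u.1 = k <;> cases hb : u.2 <;> simp [h, hb] <;> norm_num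

theorem wgt_star (k : Fin (r a + 1)) : (wgt r a k)ᴴ = wgt r a k := by
  simp only [wgt, Matrix.diagonal_conjTranspose]
  congr 1; funext u
  by_cases h : u.1 = k <;> cases hb : u.2 <;> simp [h, hb]

theorem fsq_eq {I : Type*} [Fintype I] [Nonempty I] (A : Matrix I I ℂ) :
    fsq A = nsq A * Fintype.card I := by
  rw [nsq, fsq, div_mul_cancel₀]
  exact_mod_cast Fintype.card_ne_zero

theorem fsq_diagonal {I : Type*} [Fintype I] [DecidableEq I] (d : I → ℂ) :
    fsq (Matrix.diagonal d) = ∑ x, ‖d x‖ ^ 2 := by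
  refine Finset.sum_congr rfl fun x _ => ?_
  simp [Matrix.diagonal_apply, apply_ite (fun z : ℂ => ‖z‖), ite_pow]

theorem fsq_wgt (k : Fin (r a + 1)) : fsq (wgt r a k) = 5 := by
  rw [wgt, fsq_diagonal, Fintype.sum_prod_type, Finset.sum_eq_single k]
  · simp; norm_num
  · intro b _ hb; simp [hb]
  · simp

theorem fsq_sel (k : Fin (r a + 1)) : fsq (sel r a k) = 2 := by
  rw [sel, fsq_diagonal, Fintype.sum_prod_type, Finset.sum_eq_single k]
  · simp
  · intro b _ hb; simp [hb]
  · simp

theorem fsq_sel_nbit (k : Fin (r a + 1)) : fsq (sel r a k * nbit r a) = 1 := by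
  rw [sel, nbit, Matrix.diagonal_mul_diagonal, fsq_diagonal, Fintype.sum_prod_type,
    Finset.sum_eq_single k]
  · simp
  · intro b _ hb; simp [hb]
  · simp

theorem nsq_site_eq (A : Matrix (Site r a) (Site r a) ℂ) :
    nsq A = fsq A / (2 * (r a + 1)) := by
  rw [nsq, fsq]
  simp [mul_comm]

theorem fsq_shift (k : Fin (r a)) : fsq (shift r a k) = 5 := by
  have h : nsq (shift r a k) = nsq (wgt r a k.castSucc) :=
    nsq_congr (by rw [shift_star_mul, wgt_star])
  rw [fsq_eq, h, ← fsq_eq, fsq_wgt]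

/-! ### In the tower -/

theorem siteOp_smul_sub {L : ℕ} (b : Fin L) (c d : ℂ) (g h : Matrix (Site r b) (Site r b) ℂ) :
    siteOp b (c • g - d • h) = c • siteOp b g - d • siteOp b h := by
  ext x y
  simp only [siteOp, Matrix.of_apply, Matrix.sub_apply, Matrix.smul_apply]
  split_ifs <;> simp

theorem siteOp_diagonal {L : ℕ} (b : Fin L) (d : Site r b → ℂ) :
    siteOp b (Matrix.diagonal d) = Matrix.diagonal fun x : Idx r L => d (x b) := by
  ext x y
  simp only [siteOp, Matrix.of_apply, Matrix.diagonal_apply]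
  by_cases h : x = y
  · subst h; simp
  · rw [if_neg h]
    split_ifs with h1 h2
    · exact absurd (funext fun c => if hc : c = b then hc ▸ h2 else h1 c hc) h
    all_goals rfl

theorem nsq_sum_sel {L : ℕ} (b : Fin L) (X : Mat r L) :
    ∑ k, nsq (siteOp b (sel r b k) * X) = nsq X := by
  simp only [sel, siteOp_diagonal, nsq, Matrix.diagonal_mul, ← Finset.sum_div]
  congr 1
  rw [Finset.sum_comm]
  refine Finset.sum_congr rfl fun x _ => ?_
  rw [Finset.sum_comm]
  refine Finset.sum_congr rfl fun y _ => ?_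
  simp [apply_ite (fun z : ℂ => ‖z‖), ite_pow]

theorem nsq_eq_zero {I : Type*} [Fintype I] {A : Matrix I I ℂ} (h : nsq A ≤ 0) : A = 0 := by
  ext x y
  have hne : (0 : ℝ) < Fintype.card I := by
    exact_mod_cast Fintype.card_pos_iff.2 ⟨x⟩
  rw [nsq, div_le_iff₀ hne, zero_mul] at h
  have h1 := Finset.single_le_sum (f := fun x => ∑ y, ‖A x y‖ ^ 2)
    (fun i _ => by positivity) (Finset.mem_univ x)
  have h2 := Finset.single_le_sum (f := fun y => ‖A x y‖ ^ 2)
    (fun i _ => by positivity) (Finset.mem_univ y)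
  simp only [Matrix.zero_apply] at h1 h2 ⊢
  exact norm_eq_zero.1 (by nlinarith [norm_nonneg (A x y), h, h1, h2])

/-- `|(1 - Q) g Q|` at level `M` for an operator at site `a`. -/
def siteDef (F : Family r) (g : Matrix (Site r a) (Site r a) ℂ) (M : ℕ) : ℝ :=
  if h : a < M then nsq ((1 - F.Q M) * siteOp (⟨a, h⟩ : Fin M) g * F.Q M) else 0

theorem siteDef_tendsto (F : Family r) (g : Matrix (Site r a) (Site r a) ℂ)
    (hg : Commute g (siteX r a)) : Tendsto (siteDef F g) atTop (𝓝 0) := by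
  have hc : Commute (siteOp (r := r) (⟨a, Nat.lt_succ_self a⟩ : Fin (a + 1)) g)
      (tmat r (a + 1)) :=
    siteOp_commute_tmat (r := r) (⟨a, Nat.lt_succ_self a⟩ : Fin (a + 1)) g hg
  have h0 := F.inv (a + 1) _ hc
  refine h0.congr' ?_
  filter_upwards [eventually_ge_atTop (a + 1)] with M hM
  rw [dif_pos hM, siteDef, dif_pos (show a < M from hM)]
  simp only [lift_siteOp, Fin.castLE_mk]

theorem siteDef_eq (F : Family r) {L M : ℕ} (h : L ≤ M) (b : Fin L)
    (g : Matrix (Site r b) (Site r b) ℂ) :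
    siteDef F g M = nsq ((1 - F.Q M) * siteOp (Fin.castLE h b) g * F.Q M) :=
  dif_pos (lt_of_lt_of_le b.2 h)

theorem comm_cexp_le (F : Family r) {L M : ℕ} (h : L ≤ M) (b : Fin L)
    (g : Matrix (Site r b) (Site r b) ℂ) :
    nsq (siteOp b g * F.Q L - F.Q L * siteOp b g) ≤
      nsq (siteOp (Fin.castLE h b) g * F.Q M - F.Q M * siteOp (Fin.castLE h b) g) := by
  rw [← F.coh L M h, ← cexp_comm, lift_siteOp]
  exact nsq_cexp h _

theorem sel_comm (F : Family r) {L : ℕ} (b : Fin L) (k : Fin (r b + 1)) :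
    Commute (siteOp b (sel r b k)) (F.Q L) := by
  refine sub_eq_zero.1 (nsq_eq_zero ?_)
  have hlim := (siteDef_tendsto F (sel r b k) (sel_commute k)).const_mul (4 : ℝ)
  rw [mul_zero] at hlim
  refine ge_of_tendsto hlim ?_
  filter_upwards [eventually_ge_atTop L] with M hM
  refine (comm_cexp_le F hM b _).trans ?_
  rw [siteDef_eq F hM b]
  generalize hE : siteOp (Fin.castLE hM b) (sel r b k) = E
  have hEs : Eᴴ = E := by
    rw [← hE, siteOp_conjTranspose]
    congr 1
    simp only [sel, Matrix.diagonal_conjTranspose]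
    congr 1; funext u
    by_cases h : u.1 = k <;> simp [h]
  have hQ := contr_herm (F.contr M)
  have e : E * F.Q M - F.Q M * E =
      (1 - F.Q M) * E * F.Q M - ((1 - F.Q M) * E * F.Q M)ᴴ := by
    simp only [Matrix.conjTranspose_mul, Matrix.conjTranspose_sub, Matrix.conjTranspose_one,
      hQ, hEs]
    noncomm_ring
  rw [e]
  refine (nsq_sub_two _ _).trans ?_
  rw [nsq_conjTranspose]
  linarith

theorem real_step {t bb bb' E d X : ℝ} (ht : 0 < t) (hb0 : 0 ≤ bb) (hE0 : 0 ≤ E)
    (h3 : X + d ≤ bb') (h4 : bb ≤ (1 + t) * X + (1 + 1 / t) * E) :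
    d ≤ bb' - bb + t * bb + (1 + 1 / t) * E := by
  have : 0 ≤ (1 + 1 / t) * E := by positivity
  rcases le_total bb X with hc | hc
  · linarith [mul_nonneg ht.le hb0]
  · linarith [mul_le_mul_of_nonneg_left hc ht.le]

/-- One selector value, at a finite level. -/
theorem sel_step (F : Family r) {M : ℕ} (b : Fin M) (k : Fin (r b)) {t : ℝ} (ht : 0 < t) :
    nsq (siteOp b (sel r b k.castSucc) * ((1 - F.Q M) * siteOp b (nbit r b) * F.Q M)) ≤
      4 / 5 * (nsq (siteOp b (wgt r b k.succ) * F.Q M) -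
          nsq (siteOp b (wgt r b k.castSucc) * F.Q M) +
          t * nsq (siteOp b (wgt r b k.castSucc) * F.Q M)) +
        (5 + 1 / t) * nsq ((1 - F.Q M) * siteOp b (shift r b k) * F.Q M) +
        22 * nsq (F.Q M - F.Q M * F.Q M) := by
  have hQ := F.contr M
  have hq := contr_one_sub hQ
  generalize hQQ : F.Q M = Q at hQ hq ⊢
  have hqs := contr_herm hq
  have hQs := contr_herm hQ
  have hce : Commute (siteOp b (sel r b k.castSucc)) Q := hQQ ▸ sel_comm F b _
  set A := siteOp b (shift r b k) with hA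
  set bb := nsq (siteOp b (wgt r b k.castSucc) * Q)
  set bb' := nsq (siteOp b (wgt r b k.succ) * Q)
  set E := nsq ((1 - Q) * A * Q)
  set d := nsq (Q * A * (1 - Q))
  set P := nsq (Q - Q * Q)
  have h1 : nsq (A * Q) = bb := nsq_mul_congr (by
    rw [hA, siteOp_conjTranspose, siteOp_mul, siteOp_conjTranspose, siteOp_mul, shift_star_mul,
      wgt_star]) _
  have h2 : nsq (Q * A) = bb' := by
    rw [← nsq_conjTranspose, Matrix.conjTranspose_mul, hQs]
    exact nsq_mul_congr (by
      rw [hA, Matrix.conjTranspose_conjTranspose, siteOp_conjTranspose, siteOp_mul,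
        siteOp_conjTranspose, siteOp_mul, shift_mul_star, wgt_star]) _
  have h3 := contr_split hQ (Q * A)
  rw [h2] at h3
  have h4 := nsq_add_le ht (Q * A * Q) ((1 - Q) * A * Q)
  have e4 : Q * A * Q + (1 - Q) * A * Q = A * Q := by noncomm_ring
  rw [e4, h1] at h4
  have hb0 : 0 ≤ bb := nsq_nonneg _
  have hE0 : 0 ≤ E := nsq_nonneg _
  have hP0 : 0 ≤ P := nsq_nonneg _
  have hd : d ≤ bb' - bb + t * bb + (1 + 1 / t) * E := real_step ht hb0 hE0 h3 h4
  -- the two halves of `q e B Q`
  have hf : fsq (shift r b k) = 5 := fsq_shift k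
  have h6 : nsq ((Q * A * (1 - Q))ᴴ * (A * Q)) ≤ 5 * d := by
    rw [← Matrix.mul_assoc]
    refine (contr_mul_right hQ _).trans ((mul_nsq_siteOp b _ _).trans ?_)
    rw [hf, nsq_conjTranspose]
  have h7 : nsq ((1 - Q) * (Aᴴ * ((1 - Q) * A * Q))) ≤ 5 * E := by
    refine (contr_mul_left hq _).trans ?_
    rw [hA, siteOp_conjTranspose]
    refine (nsq_siteOp_mul b _ _).trans ?_
    rw [fsq_conjTranspose, hf]
  have eX : (1 - Q) * siteOp b (wgt r b k.castSucc * wgt r b k.castSucc) * Q =
      (Q * A * (1 - Q))ᴴ * (A * Q) + (1 - Q) * (Aᴴ * ((1 - Q) * A * Q)) := by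
    rw [← shift_star_mul, ← siteOp_mul, ← siteOp_conjTranspose, ← hA, Matrix.conjTranspose_mul,
      Matrix.conjTranspose_mul, hqs, hQs]
    noncomm_ring
  have h8 := nsq_add_le (t := 1 / 5) (by norm_num) ((Q * A * (1 - Q))ᴴ * (A * Q))
    ((1 - Q) * (Aᴴ * ((1 - Q) * A * Q)))
  rw [← eX] at h8
  have hcq : Commute (siteOp b (sel r b k.castSucc)) (1 - Q) := (Commute.one_right _).sub_right hce
  have eT : siteOp b (sel r b k.castSucc) * ((1 - Q) * siteOp b (nbit r b) * Q) =
      (1 - Q) * siteOp b (sel r b k.castSucc * nbit r b) * Q := by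
    rw [← siteOp_mul, ← Matrix.mul_assoc, ← Matrix.mul_assoc, hcq.eq]
    simp only [Matrix.mul_assoc]
  have e9 : (1 - Q) * siteOp b (sel r b k.castSucc) * Q =
      siteOp b (sel r b k.castSucc) * (Q - Q * Q) := by
    rw [← hcq.eq, Matrix.mul_assoc, Matrix.sub_mul, Matrix.one_mul]
  have h9 : nsq ((1 - Q) * siteOp b (sel r b k.castSucc) * Q) ≤ 2 * P := by
    rw [e9]
    exact (nsq_siteOp_mul b _ _).trans (by rw [fsq_sel])
  rw [eT]
  have eN : (3 : ℂ) • ((1 - Q) * siteOp b (sel r b k.castSucc * nbit r b) * Q) =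
      -((1 - Q) * siteOp b (wgt r b k.castSucc * wgt r b k.castSucc) * Q) +
        (4 : ℂ) • ((1 - Q) * siteOp b (sel r b k.castSucc) * Q) := by
    simp only [wgt_sq, siteOp_smul_sub, Matrix.mul_sub, Matrix.sub_mul, Matrix.mul_smul,
      Matrix.smul_mul, Matrix.one_mul]
    module
  have h10 := nsq_add_le (t := 1 / 5) (by norm_num)
    (-((1 - Q) * siteOp b (wgt r b k.castSucc * wgt r b k.castSucc) * Q))
    ((4 : ℂ) • ((1 - Q) * siteOp b (sel r b k.castSucc) * Q))
  rw [← eN, nsq_smul, nsq_smul, nsq_neg] at h10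
  norm_num at h10
  have : 0 ≤ 1 / t * E := mul_nonneg (div_nonneg zero_le_one ht.le) hE0
  have : 0 ≤ d := nsq_nonneg _
  linarith

/-- The telescoped bound at a finite level. -/
theorem bit_comm_step (F : Family r) {M : ℕ} (c : Fin M) :
    nsq (siteOp c (nbit r c) * F.Q M - F.Q M * siteOp c (nbit r c)) ≤
      12 / ((r c : ℝ) + 1) +
        4 * ((5 + 1 / (1 / (4 * ((r c : ℝ) + 1)))) *
            ∑ k, nsq ((1 - F.Q M) * siteOp c (shift r c k) * F.Q M) +
          22 * (r c : ℝ) * nsq (F.Q M - F.Q M * F.Q M)) := by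
  set R : ℝ := (r c : ℝ) + 1
  have hR : 0 < R := by positivity
  set t : ℝ := 1 / (4 * R)
  have ht : 0 < t := by positivity
  have hQ := F.contr M
  have hns : (siteOp c (nbit r c))ᴴ = siteOp c (nbit r c) := by
    rw [siteOp_conjTranspose]
    congr 1
    simp only [nbit, Matrix.diagonal_conjTranspose]
    congr 1; funext u
    cases h : u.2 <;> simp [h]
  have e : siteOp c (nbit r c) * F.Q M - F.Q M * siteOp c (nbit r c) =
      (1 - F.Q M) * siteOp c (nbit r c) * F.Q M -
        ((1 - F.Q M) * siteOp c (nbit r c) * F.Q M)ᴴ := by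
    simp only [Matrix.conjTranspose_mul, Matrix.conjTranspose_sub, Matrix.conjTranspose_one,
      contr_herm hQ, hns]
    noncomm_ring
  rw [e]
  refine (nsq_sub_two _ _).trans ?_
  rw [nsq_conjTranspose]
  have hw : ∀ k, nsq (siteOp c (wgt r c k) * F.Q M) ≤ 5 / (2 * R) := fun k => by
    refine (contr_mul_right hQ _).trans ?_
    rw [nsq_siteOp, nsq_site_eq, fsq_wgt]
  have hsplit := nsq_sum_sel c ((1 - F.Q M) * siteOp c (nbit r c) * F.Q M)
  rw [Fin.sum_univ_castSucc] at hsplit
  have hlast : nsq (siteOp c (sel r c (Fin.last (r c))) *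
      ((1 - F.Q M) * siteOp c (nbit r c) * F.Q M)) ≤ 1 / (2 * R) := by
    have hcq : Commute (siteOp c (sel r c (Fin.last (r c)))) (1 - F.Q M) :=
      (Commute.one_right _).sub_right (sel_comm F c _)
    rw [← Matrix.mul_assoc, ← Matrix.mul_assoc, hcq.eq, Matrix.mul_assoc _ _ (siteOp c (nbit r c)),
      siteOp_mul]
    refine (contr_mul_right hQ _).trans ((contr_mul_left (contr_one_sub hQ) _).trans ?_)
    rw [nsq_siteOp, nsq_site_eq, fsq_sel_nbit]
  have hsum := Finset.sum_le_sum (s := (Finset.univ : Finset (Fin (r c)))) fun k _ =>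
    sel_step F c k ht
  simp only [Finset.sum_add_distrib, ← Finset.mul_sum, Finset.sum_sub_distrib, Finset.sum_const,
    Finset.card_univ, Fintype.card_fin, nsmul_eq_mul] at hsum
  have htel1 := Fin.sum_univ_succ fun k => nsq (siteOp c (wgt r c k) * F.Q M)
  have htel2 := Fin.sum_univ_castSucc fun k => nsq (siteOp c (wgt r c k) * F.Q M)
  have hbsum : t * ∑ k : Fin (r c), nsq (siteOp c (wgt r c k.castSucc) * F.Q M) ≤ 5 / (8 * R) := by
    calc _ ≤ t * ∑ k : Fin (r c), 5 / (2 * R) := by gcongr with k; exact hw _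
      _ = (r c : ℝ) / R * (5 / (8 * R)) := by simp [t]; field_simp; ring
      _ ≤ 1 * (5 / (8 * R)) := by
          gcongr
          rw [div_le_one hR]
          show (r c : ℝ) ≤ (r c : ℝ) + 1
          linarith
      _ = _ := one_mul _
  have hlastw := hw (Fin.last (r c))
  have h0 := nsq_nonneg (siteOp c (wgt r c 0) * F.Q M)
  have : 12 / R = 4 * (4 / 5 * (5 / (2 * R) + 5 / (8 * R)) + 1 / (2 * R)) := by field_simp; ring
  rw [this]
  linarith

/-- Every site is diagonal in its bit up to `20 / (r + 1)`. -/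
theorem bit_comm_le (F : Family r) {L : ℕ} (b : Fin L) :
    nsq (siteOp b (nbit r b) * F.Q L - F.Q L * siteOp b (nbit r b)) ≤ 20 / (r b + 1) := by
  set R : ℝ := (r b : ℝ) + 1
  have hR : 0 < R := by positivity
  set t : ℝ := 1 / (4 * R)
  have ht : 0 < t := by positivity
  set err : ℕ → ℝ := fun M => (5 + 1 / t) * ∑ k, siteDef F (shift r b k) M +
    22 * (r b : ℝ) * nsq (F.Q M - F.Q M * F.Q M)
  have herr : Tendsto (fun M => 12 / R + 4 * err M) atTop (𝓝 (12 / R)) := by
    have h1 := (tendsto_finsetSum Finset.univ fun k _ =>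
      siteDef_tendsto F (shift r b k) (shift_commute k)).const_mul (5 + 1 / t)
    have h2 := (h1.add (F.proj.const_mul (22 * (r b : ℝ)))).const_mul (4 : ℝ)
    simpa [err] using h2.const_add (12 / R)
  refine le_trans (ge_of_tendsto herr ?_) (by gcongr; norm_num)
  filter_upwards [eventually_ge_atTop L] with M hM
  refine (comm_cexp_le F hM b _).trans ?_
  simp only [err, siteDef_eq F hM b]
  exact bit_comm_step F (Fin.castLE hM b)

end

end Vale.Agent.P131.Tr
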